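-- KEEP
import Claimed.Agent.R255.Base.Law
import Claimed.Agent.RW.Ent

/-!
# Row 255 (BR paper), Sec. 2 library, file 1: the calculus of `FLaw`      (architect helper186)

PAPER-FREE finite probability.  Everything is stated on `R255/Base/Law.lean` (`FLaw Ω`, observations = arbitrary functions `Ω → α`).
Bridge to the sorry-free library `RW/Ent.lean` : `P.toPm`, `ent_eq_pm` (so `en_submod`, `en_gibbs`, `en_le_log_card`, `en_congr`, ... can be quoted; `Pm.pr X (X ω) = P.fib X ω`).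
Convention "a.e." = on the points `ω` with `P.p ω ≠ 0`.

New TOTAL definitions (frozen):
* `P.cnd E`      conditional law given `E` (`= P` if `E` is null)
* `P.cfib C ω₀`  the conditional law on the fibre `C = C ω₀`
* `P.ret E C ω`  retention `P(E | C = C ω)`
* `P.CI U V Z`   conditional independence (all value triples)
* `P.NVal E B A N`  on the event `E` the observation `B` takes at most `N` values over each value of `A`
* `P.tilt w`     the law `w P / E w`;  `P.prod Q` the product law.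

Sections: A `pr`/`ev`, B `fib`, C `ent`, D `entC`/`surC`, E `mi`/`miC`/`CI`, F laws (`cond`, `cnd`, `cfib`, `Dom`, `map`, `ext`, `tilt`, `prod`, `kl`).
RULE: provers edit only bodies of their theorems; statements are frozen (ask helper186).  You may use any EARLIER statement of the file (also a sorried one).
-/

set_option autoImplicit false

namespace Claimed.Agent.R255

open scoped BigOperators
open Classical
open FLaw

variable {Ω : Type} [Fintype Ω] {α β γ δ : Type}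

namespace FLaw

/-- the same law in the language of `RW/Ent.lean` -/
def toPm (P : FLaw Ω) : RW.Pm Ω := ⟨P.p, P.nonneg, P.sum_one⟩

/-- total conditional law -/
noncomputable def cnd (P : FLaw Ω) (E : Ω → Prop) : FLaw Ω :=
  if h : 0 < P.pr E then P.cond E h else P

/-- the conditional law on the fibre of `C` through `ω₀` -/
noncomputable def cfib (P : FLaw Ω) (C : Ω → γ) (ω₀ : Ω) : FLaw Ω := P.cnd (fun ω => C ω = C ω₀)

/-- retention `P(E | C = C ω)` -/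
noncomputable def ret (P : FLaw Ω) (E : Ω → Prop) (C : Ω → γ) (ω : Ω) : ℝ :=
  P.pr (fun ω' => E ω' ∧ C ω' = C ω) / P.fib C ω

/-- conditional independence of `U`, `V` given `Z` -/
def CI (P : FLaw Ω) (U : Ω → α) (V : Ω → β) (Z : Ω → γ) : Prop :=
  ∀ u v z, P.pr (fun ω => U ω = u ∧ V ω = v ∧ Z ω = z) * P.pr (fun ω => Z ω = z)
    = P.pr (fun ω => U ω = u ∧ Z ω = z) * P.pr (fun ω => V ω = v ∧ Z ω = z)

/-- on the event `E` (a.e.) the observation `B` has at most `N` values over each value of `A` -/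
def NVal (P : FLaw Ω) (E : Ω → Prop) (B : Ω → β) (A : Ω → α) (N : ℝ) : Prop :=
  ∀ ω₀, ∃ S : Finset β, (S.card : ℝ) ≤ N ∧ ∀ ω, P.p ω ≠ 0 → E ω → A ω = A ω₀ → B ω ∈ S

/-- the law `w P / E_P w` -/
noncomputable def tilt (P : FLaw Ω) (w : Ω → ℝ) (hw : ∀ ω, 0 ≤ w ω) (hm : 0 < P.ev w) : FLaw Ω where
  p := fun ω => P.p ω * w ω / P.ev w
  nonneg := fun ω => div_nonneg (mul_nonneg (P.nonneg ω) (hw ω)) hm.le
  sum_one := by
    rw [← Finset.sum_div]
    exact div_self hm.ne'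

/-- product law -/
noncomputable def prod {Ω' : Type} [Fintype Ω'] (P : FLaw Ω) (Q : FLaw Ω') : FLaw (Ω × Ω') where
  p := fun x => P.p x.1 * Q.p x.2
  nonneg := fun x => mul_nonneg (P.nonneg _) (Q.nonneg _)
  sum_one := by
    rw [Fintype.sum_prod_type]
    simp only [← Finset.mul_sum, Q.sum_one, mul_one, P.sum_one]

end FLaw

/-! ## A. probabilities and expectations -/

theorem ent_pr_nonneg (P : FLaw Ω) (E : Ω → Prop) : 0 ≤ P.pr E := by
  exact Finset.sum_nonneg fun ω _ => by split_ifs; exacts [P.nonneg ω, le_rfl]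

theorem ent_pr_le_one (P : FLaw Ω) (E : Ω → Prop) : P.pr E ≤ 1 := by
  rw [← P.sum_one]
  refine Finset.sum_le_sum fun ω _ => ?_
  split_ifs
  exacts [le_rfl, P.nonneg ω]

theorem ent_pr_true (P : FLaw Ω) : P.pr (fun _ => True) = 1 := by
  simp [FLaw.pr, P.sum_one]

theorem ent_pr_false (P : FLaw Ω) : P.pr (fun _ => False) = 0 := by
  simp [FLaw.pr]

theorem ent_pr_mono (P : FLaw Ω) {E F : Ω → Prop} (h : ∀ ω, P.p ω ≠ 0 → E ω → F ω) :
    P.pr E ≤ P.pr F := by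
  refine Finset.sum_le_sum fun ω _ => ?_
  by_cases hp : P.p ω = 0
  · simp [hp]
  · by_cases hE : E ω
    · simp [hE, h ω hp hE]
    · rw [if_neg hE]
      split_ifs
      exacts [P.nonneg ω, le_rfl]

theorem ent_pr_congr (P : FLaw Ω) {E F : Ω → Prop} (h : ∀ ω, P.p ω ≠ 0 → (E ω ↔ F ω)) :
    P.pr E = P.pr F := by
  refine Finset.sum_congr rfl fun ω _ => ?_
  by_cases hp : P.p ω = 0
  · simp [hp]
  · simp only [h ω hp]

theorem ent_pr_eq_one (P : FLaw Ω) {E : Ω → Prop} (h : ∀ ω, P.p ω ≠ 0 → E ω) : P.pr E = 1 := by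
  rw [← ent_pr_true P]
  exact ent_pr_congr P fun ω hω => ⟨fun _ => trivial, fun _ => h ω hω⟩

theorem ent_pr_eq_zero (P : FLaw Ω) {E : Ω → Prop} (h : ∀ ω, P.p ω ≠ 0 → ¬ E ω) : P.pr E = 0 := by
  rw [← ent_pr_false P]
  exact ent_pr_congr P fun ω hω => ⟨fun hE => h ω hω hE, fun hF => hF.elim⟩

theorem ent_pr_pos_iff (P : FLaw Ω) (E : Ω → Prop) : 0 < P.pr E ↔ ∃ ω, E ω ∧ P.p ω ≠ 0 := by
  constructor
  · intro h
    by_contra hcon
    push Not at hcon
    have : P.pr E = 0 := ent_pr_eq_zero P fun ω hω hE => hω (hcon ω hE)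
    exact h.ne' this
  · rintro ⟨ω, hE, hω⟩
    refine Finset.sum_pos' (fun ω _ => by split_ifs; exacts [P.nonneg ω, le_rfl]) ⟨ω, Finset.mem_univ ω, ?_⟩
    rw [if_pos hE]
    exact lt_of_le_of_ne (P.nonneg ω) (Ne.symm hω)

theorem ent_pr_or_le (P : FLaw Ω) (E F : Ω → Prop) :
    P.pr (fun ω => E ω ∨ F ω) ≤ P.pr E + P.pr F := by
  unfold FLaw.pr
  rw [← Finset.sum_add_distrib]
  refine Finset.sum_le_sum fun ω _ => ?_
  have := P.nonneg ω
  by_cases hE : E ω <;> by_cases hF : F ω <;> simp [hE, hF, this]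

theorem ent_pr_not (P : FLaw Ω) (E : Ω → Prop) : P.pr (fun ω => ¬ E ω) = 1 - P.pr E := by
  have h : P.pr (fun ω => ¬ E ω) + P.pr E = 1 := by
    rw [← P.sum_one]
    unfold FLaw.pr
    rw [← Finset.sum_add_distrib]
    refine Finset.sum_congr rfl fun ω _ => ?_
    by_cases hE : E ω <;> simp [hE]
  linarith

theorem ent_pr_split (P : FLaw Ω) (E F : Ω → Prop) :
    P.pr E = P.pr (fun ω => E ω ∧ F ω) + P.pr (fun ω => E ω ∧ ¬ F ω) := by
  unfold FLaw.pr
  rw [← Finset.sum_add_distrib]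
  refine Finset.sum_congr rfl fun ω _ => ?_
  by_cases hE : E ω <;> by_cases hF : F ω <;> simp [hE, hF]

theorem ent_pr_and_ge (P : FLaw Ω) (E F : Ω → Prop) :
    P.pr E + P.pr F - 1 ≤ P.pr (fun ω => E ω ∧ F ω) := by
  have h1 := ent_pr_split P E F
  have h2 := ent_pr_not P F
  have h3 : P.pr (fun ω => E ω ∧ ¬ F ω) ≤ P.pr (fun ω => ¬ F ω) := ent_pr_mono P fun ω _ h => h.2
  linarith

/-- union bound -/
theorem ent_pr_exists_le (P : FLaw Ω) {ι : Type} (s : Finset ι) (E : ι → Ω → Prop) :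
    P.pr (fun ω => ∃ i ∈ s, E i ω) ≤ ∑ i ∈ s, P.pr (E i) := by
  induction s using Finset.induction_on with
  | empty => simp [ent_pr_false]
  | insert a s ha ih =>
    rw [Finset.sum_insert ha]
    refine le_trans ?_ (add_le_add_right ih _)
    refine le_trans (ent_pr_mono P fun ω _ h => ?_) (ent_pr_or_le P (E a) (fun ω => ∃ i ∈ s, E i ω))
    obtain ⟨i, hi, hE⟩ := h
    rcases Finset.mem_insert.1 hi with rfl | hi'
    · exact Or.inl hE
    · exact Or.inr ⟨i, hi', hE⟩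

/-- union bound, complementary form -/
theorem ent_pr_forall_ge (P : FLaw Ω) {ι : Type} (s : Finset ι) (E : ι → Ω → Prop) :
    1 - ∑ i ∈ s, (1 - P.pr (E i)) ≤ P.pr (fun ω => ∀ i ∈ s, E i ω) := by
  have h1 := ent_pr_exists_le P s (fun i ω => ¬ E i ω)
  have h2 : P.pr (fun ω => ∀ i ∈ s, E i ω) = 1 - P.pr (fun ω => ∃ i ∈ s, ¬ E i ω) := by
    rw [← ent_pr_not]
    refine ent_pr_congr P fun ω _ => ?_
    push Not
    exact Iff.rfl
  rw [h2]
  simp only [ent_pr_not] at h1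
  linarith

/-- disjoint events add up -/
theorem ent_pr_sum_values (P : FLaw Ω) (E : Ω → Prop) (X : Ω → α) (S : Finset α)
    (hS : ∀ ω, P.p ω ≠ 0 → E ω → X ω ∈ S) :
    P.pr E = ∑ x ∈ S, P.pr (fun ω => E ω ∧ X ω = x) := by
  unfold FLaw.pr
  rw [Finset.sum_comm]
  refine Finset.sum_congr rfl fun ω _ => ?_
  by_cases hp : P.p ω = 0
  · simp [hp]
  · by_cases hE : E ω
    · simp only [hE, true_and, if_true]
      rw [Finset.sum_ite_eq, if_pos (hS ω hp hE)]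
    · simp [hE]

theorem ent_pr_eq_ev (P : FLaw Ω) (E : Ω → Prop) :
    P.pr E = P.ev (fun ω => if E ω then 1 else 0) := by
  refine Finset.sum_congr rfl fun ω _ => ?_
  by_cases hE : E ω <;> simp [hE]

theorem ent_ev_add (P : FLaw Ω) (f g : Ω → ℝ) : P.ev (fun ω => f ω + g ω) = P.ev f + P.ev g := by
  unfold FLaw.ev
  rw [← Finset.sum_add_distrib]
  exact Finset.sum_congr rfl fun ω _ => mul_add _ _ _

theorem ent_ev_sub (P : FLaw Ω) (f g : Ω → ℝ) : P.ev (fun ω => f ω - g ω) = P.ev f - P.ev g := by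
  unfold FLaw.ev
  rw [← Finset.sum_sub_distrib]
  exact Finset.sum_congr rfl fun ω _ => mul_sub _ _ _

theorem ent_ev_neg (P : FLaw Ω) (f : Ω → ℝ) : P.ev (fun ω => - f ω) = - P.ev f := by
  unfold FLaw.ev
  rw [← Finset.sum_neg_distrib]
  exact Finset.sum_congr rfl fun ω _ => mul_neg _ _

theorem ent_ev_mul_left (P : FLaw Ω) (c : ℝ) (f : Ω → ℝ) : P.ev (fun ω => c * f ω) = c * P.ev f := by
  unfold FLaw.ev
  rw [Finset.mul_sum]
  exact Finset.sum_congr rfl fun ω _ => by ring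

theorem ent_ev_const (P : FLaw Ω) (c : ℝ) : P.ev (fun _ => c) = c := by
  unfold FLaw.ev
  rw [← Finset.sum_mul, P.sum_one, one_mul]

theorem ent_ev_sum (P : FLaw Ω) {ι : Type} (s : Finset ι) (f : ι → Ω → ℝ) :
    P.ev (fun ω => ∑ i ∈ s, f i ω) = ∑ i ∈ s, P.ev (f i) := by
  unfold FLaw.ev
  rw [Finset.sum_comm]
  exact Finset.sum_congr rfl fun ω _ => Finset.mul_sum _ _ _

theorem ent_ev_mono (P : FLaw Ω) {f g : Ω → ℝ} (h : ∀ ω, P.p ω ≠ 0 → f ω ≤ g ω) :
    P.ev f ≤ P.ev g := by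
  refine Finset.sum_le_sum fun ω _ => ?_
  by_cases hp : P.p ω = 0
  · simp [hp]
  · exact mul_le_mul_of_nonneg_left (h ω hp) (P.nonneg ω)

theorem ent_ev_congr (P : FLaw Ω) {f g : Ω → ℝ} (h : ∀ ω, P.p ω ≠ 0 → f ω = g ω) :
    P.ev f = P.ev g := by
  refine Finset.sum_congr rfl fun ω _ => ?_
  by_cases hp : P.p ω = 0
  · simp [hp]
  · rw [h ω hp]

theorem ent_ev_nonneg (P : FLaw Ω) {f : Ω → ℝ} (h : ∀ ω, P.p ω ≠ 0 → 0 ≤ f ω) : 0 ≤ P.ev f := by
  refine Finset.sum_nonneg fun ω _ => ?_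
  by_cases hp : P.p ω = 0
  · simp [hp]
  · exact mul_nonneg (P.nonneg ω) (h ω hp)

/-- expectation of a function of an observation as a sum over values -/
theorem ent_ev_comp (P : FLaw Ω) (X : Ω → α) (S : Finset α) (hS : ∀ ω, P.p ω ≠ 0 → X ω ∈ S)
    (F : α → ℝ) : P.ev (fun ω => F (X ω)) = ∑ x ∈ S, P.pr (fun ω => X ω = x) * F x := by
  unfold FLaw.ev FLaw.pr
  simp only [Finset.sum_mul]
  rw [Finset.sum_comm]
  refine Finset.sum_congr rfl fun ω _ => ?_
  by_cases hp : P.p ω = 0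
  · simp [hp]
  · simp only [ite_mul, zero_mul]
    rw [Finset.sum_ite_eq, if_pos (hS ω hp)]

/-- Markov -/
theorem ent_markov (P : FLaw Ω) {f : Ω → ℝ} (hf : ∀ ω, P.p ω ≠ 0 → 0 ≤ f ω) {t : ℝ} (ht : 0 < t) :
    P.pr (fun ω => t ≤ f ω) ≤ P.ev f / t := by
  rw [le_div_iff₀ ht]
  unfold FLaw.pr FLaw.ev
  rw [Finset.sum_mul]
  refine Finset.sum_le_sum fun ω _ => ?_
  by_cases hp : P.p ω = 0
  · simp [hp]
  · split_ifs with h
    · exact mul_le_mul_of_nonneg_left h (P.nonneg ω)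
    · rw [zero_mul]
      exact mul_nonneg (P.nonneg ω) (hf ω hp)

/-- upper bound of an expectation from a bound off a bad event -/
theorem ent_ev_le_of_bad (P : FLaw Ω) {f : Ω → ℝ} (Bad : Ω → Prop) {c M : ℝ}
    (h1 : ∀ ω, P.p ω ≠ 0 → ¬ Bad ω → f ω ≤ c) (h2 : ∀ ω, P.p ω ≠ 0 → Bad ω → f ω ≤ M) :
    P.ev f ≤ c * (1 - P.pr Bad) + M * P.pr Bad := by
  rw [← ent_pr_not]
  unfold FLaw.pr FLaw.ev
  rw [Finset.mul_sum, Finset.mul_sum, ← Finset.sum_add_distrib]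
  refine Finset.sum_le_sum fun ω _ => ?_
  by_cases hp : P.p ω = 0
  · simp [hp]
  · by_cases hB : Bad ω
    · have := mul_le_mul_of_nonneg_left (h2 ω hp hB) (P.nonneg ω)
      simp only [hB, not_true_eq_false, if_false, if_true]
      linarith
    · have := mul_le_mul_of_nonneg_left (h1 ω hp hB) (P.nonneg ω)
      simp only [hB, not_false_eq_true, if_false, if_true]
      linarith

/-- lower bound of an expectation from a bound off a bad event -/
theorem ent_ev_ge_of_bad (P : FLaw Ω) {f : Ω → ℝ} (Bad : Ω → Prop) {c M : ℝ}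
    (h1 : ∀ ω, P.p ω ≠ 0 → ¬ Bad ω → c ≤ f ω) (h2 : ∀ ω, P.p ω ≠ 0 → Bad ω → M ≤ f ω) :
    c * (1 - P.pr Bad) + M * P.pr Bad ≤ P.ev f := by
  rw [← ent_pr_not]
  unfold FLaw.pr FLaw.ev
  rw [Finset.mul_sum, Finset.mul_sum, ← Finset.sum_add_distrib]
  refine Finset.sum_le_sum fun ω _ => ?_
  by_cases hp : P.p ω = 0
  · simp [hp]
  · by_cases hB : Bad ω
    · have := mul_le_mul_of_nonneg_left (h2 ω hp hB) (P.nonneg ω)
      simp only [hB, not_true_eq_false, if_false, if_true]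
      linarith
    · have := mul_le_mul_of_nonneg_left (h1 ω hp hB) (P.nonneg ω)
      simp only [hB, not_false_eq_true, if_false, if_true]
      linarith

/-! ## B. fibres -/

theorem ent_fib_eq_pm (P : FLaw Ω) (X : Ω → α) (ω : Ω) : P.fib X ω = P.toPm.pr X (X ω) := by
  unfold FLaw.fib FLaw.pr RW.Pm.pr
  rw [Finset.sum_filter]
  rfl

theorem ent_pr_eq_pm (P : FLaw Ω) (X : Ω → α) (x : α) :
    P.pr (fun ω => X ω = x) = P.toPm.pr X x := by
  unfold FLaw.pr RW.Pm.pr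
  rw [Finset.sum_filter]
  rfl

theorem ent_ev_eq_pm (P : FLaw Ω) (f : Ω → ℝ) : P.ev f = P.toPm.ex f := by
  rfl

theorem ent_fib_nonneg (P : FLaw Ω) (X : Ω → α) (ω : Ω) : 0 ≤ P.fib X ω := by
  exact ent_pr_nonneg P _

theorem ent_fib_le_one (P : FLaw Ω) (X : Ω → α) (ω : Ω) : P.fib X ω ≤ 1 := by
  exact ent_pr_le_one P _

theorem ent_p_le_fib (P : FLaw Ω) (X : Ω → α) (ω : Ω) : P.p ω ≤ P.fib X ω := by
  unfold FLaw.fib FLaw.pr
  have h := Finset.single_le_sum (f := fun ω' => if X ω' = X ω then P.p ω' else 0)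
    (fun ω' _ => by split_ifs; exacts [P.nonneg ω', le_rfl]) (Finset.mem_univ ω)
  simpa using h

theorem ent_fib_pos (P : FLaw Ω) (X : Ω → α) {ω : Ω} (h : P.p ω ≠ 0) : 0 < P.fib X ω := by
  exact lt_of_lt_of_le (lt_of_le_of_ne (P.nonneg ω) (Ne.symm h)) (ent_p_le_fib P X ω)

theorem ent_fib_congr (P : FLaw Ω) (X : Ω → α) {ω ω' : Ω} (h : X ω = X ω') :
    P.fib X ω = P.fib X ω' := by
  unfold FLaw.fib
  rw [h]

/-- a finer observation has smaller fibres (a.e. form) -/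
theorem ent_fib_mono (P : FLaw Ω) (X : Ω → α) (Y : Ω → β) (ω : Ω)
    (h : ∀ ω', P.p ω' ≠ 0 → X ω' = X ω → Y ω' = Y ω) : P.fib X ω ≤ P.fib Y ω := by
  exact ent_pr_mono P h

theorem ent_fib_pair_le_left (P : FLaw Ω) (X : Ω → α) (Y : Ω → β) (ω : Ω) :
    P.fib (pair X Y) ω ≤ P.fib X ω := by
  exact ent_fib_mono P _ X ω fun ω' _ h => congrArg Prod.fst h

theorem ent_fib_pair_le_right (P : FLaw Ω) (X : Ω → α) (Y : Ω → β) (ω : Ω) :
    P.fib (pair X Y) ω ≤ P.fib Y ω := by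
  exact ent_fib_mono P _ Y ω fun ω' _ h => congrArg Prod.snd h

theorem ent_fib_pair (P : FLaw Ω) (X : Ω → α) (Y : Ω → β) (ω : Ω) :
    P.fib (pair X Y) ω = P.pr (fun ω' => X ω' = X ω ∧ Y ω' = Y ω) := by
  refine ent_pr_congr P fun ω' _ => ?_
  simp only [FLaw.pair, Prod.mk.injEq]

theorem ent_fib_id (P : FLaw Ω) (ω : Ω) : P.fib (fun ω' => ω') ω = P.p ω := by
  unfold FLaw.fib FLaw.pr
  rw [Finset.sum_ite_eq' Finset.univ ω P.p]
  simp

/-- counting by masses: values of `Y` over one value of `X` each of conditional mass `≥ c` -/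
theorem ent_count (P : FLaw Ω) (X : Ω → α) (Y : Ω → β) (x : α) (S : Finset β) {c : ℝ} (hc : 0 < c)
    (hx : 0 < P.pr (fun ω => X ω = x))
    (h : ∀ y ∈ S, c * P.pr (fun ω => X ω = x) ≤ P.pr (fun ω => Y ω = y ∧ X ω = x)) :
    (S.card : ℝ) ≤ 1 / c := by
  have h1 : ∑ y ∈ S, P.pr (fun ω => Y ω = y ∧ X ω = x) ≤ P.pr (fun ω => X ω = x) := by
    unfold FLaw.pr
    rw [Finset.sum_comm]
    refine Finset.sum_le_sum fun ω _ => ?_
    by_cases hx' : X ω = x
    · simp only [hx', and_true, if_true]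
      rw [Finset.sum_ite_eq]
      split_ifs
      exacts [le_rfl, P.nonneg ω]
    · simp [hx']
  have h2 : (S.card : ℝ) * (c * P.pr (fun ω => X ω = x)) ≤ P.pr (fun ω => X ω = x) := by
    refine le_trans ?_ h1
    rw [← nsmul_eq_mul, ← Finset.sum_const]
    exact Finset.sum_le_sum h
  rw [le_div_iff₀ hc]
  have h3 : (S.card : ℝ) * c * P.pr (fun ω => X ω = x) ≤ 1 * P.pr (fun ω => X ω = x) := by linarith
  exact le_of_mul_le_mul_right h3 hx

/-! ## C. entropy -/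

theorem ent_eq_pm (P : FLaw Ω) (X : Ω → α) : P.ent X = P.toPm.ent X := by
  rw [RW.en_ent_eq_ex]
  unfold FLaw.ent FLaw.ev
  refine Finset.sum_congr rfl fun ω _ => ?_
  show P.p ω * -Real.log (P.fib X ω) = _
  rw [ent_fib_eq_pm]
  rfl

theorem ent_nonneg (P : FLaw Ω) (X : Ω → α) : 0 ≤ P.ent X := by
  rw [ent_eq_pm]
  exact RW.en_nonneg _ _

theorem ent_eq_sum (P : FLaw Ω) (X : Ω → α) (S : Finset α) (hS : ∀ ω, P.p ω ≠ 0 → X ω ∈ S) :
    P.ent X = ∑ x ∈ S, Real.negMulLog (P.pr (fun ω => X ω = x)) := by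
  rw [ent_eq_pm, RW.en_ent_eq_sum P.toPm X S hS]
  refine Finset.sum_congr rfl fun x _ => ?_
  rw [ent_pr_eq_pm]

theorem ent_le_log_card (P : FLaw Ω) (X : Ω → α) (S : Finset α) (hS : ∀ ω, P.p ω ≠ 0 → X ω ∈ S) :
    P.ent X ≤ Real.log S.card := by
  rw [ent_eq_pm]
  exact RW.en_le_log_card P.toPm X S hS

/-- entropy depends only on the partition (a.e.): monotone form -/
theorem ent_mono_ker (P : FLaw Ω) (X : Ω → α) (Y : Ω → β)
    (h : ∀ ω ω', P.p ω ≠ 0 → P.p ω' ≠ 0 → X ω = X ω' → Y ω = Y ω') : P.ent Y ≤ P.ent X := by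
  refine ent_ev_mono P fun ω hω => ?_
  refine neg_le_neg (Real.log_le_log (ent_fib_pos P X hω) ?_)
  exact ent_fib_mono P X Y ω fun ω' hω' hX => h ω' ω hω' hω hX

theorem ent_congr_ker (P : FLaw Ω) (X : Ω → α) (Y : Ω → β)
    (h : ∀ ω ω', P.p ω ≠ 0 → P.p ω' ≠ 0 → (X ω = X ω' ↔ Y ω = Y ω')) : P.ent X = P.ent Y := by
  exact le_antisymm (ent_mono_ker P Y X fun ω ω' h1 h2 h3 => (h ω ω' h1 h2).2 h3)
    (ent_mono_ker P X Y fun ω ω' h1 h2 h3 => (h ω ω' h1 h2).1 h3)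

theorem ent_comp_le (P : FLaw Ω) (X : Ω → α) (f : α → β) : P.ent (fun ω => f (X ω)) ≤ P.ent X := by
  exact ent_mono_ker P X _ fun ω ω' _ _ h => congrArg f h

theorem ent_comp_inj (P : FLaw Ω) (X : Ω → α) (f : α → β) (hf : Function.Injective f) :
    P.ent (fun ω => f (X ω)) = P.ent X := by
  exact ent_congr_ker P _ X fun ω ω' _ _ => hf.eq_iff

theorem ent_const (P : FLaw Ω) (c : α) : P.ent (fun _ => c) = 0 := by
  unfold FLaw.ent
  have : ∀ ω, P.fib (fun _ : Ω => c) ω = 1 := fun ω => ent_pr_eq_one P fun _ _ => rfl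
  simp only [this, Real.log_one, neg_zero]
  exact ent_ev_const P 0

theorem ent_pair_comm (P : FLaw Ω) (X : Ω → α) (Y : Ω → β) : P.ent (pair X Y) = P.ent (pair Y X) := by
  refine ent_congr_ker P _ _ fun ω ω' _ _ => ?_
  simp only [FLaw.pair, Prod.mk.injEq]
  exact and_comm

theorem ent_pair_assoc (P : FLaw Ω) (X : Ω → α) (Y : Ω → β) (Z : Ω → γ) :
    P.ent (pair (pair X Y) Z) = P.ent (pair X (pair Y Z)) := by
  refine ent_congr_ker P _ _ fun ω ω' _ _ => ?_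
  simp only [FLaw.pair, Prod.mk.injEq]
  exact and_assoc

theorem ent_pair_self (P : FLaw Ω) (X : Ω → α) : P.ent (pair X X) = P.ent X := by
  refine ent_congr_ker P _ _ fun ω ω' _ _ => ?_
  simp only [FLaw.pair, Prod.mk.injEq, and_self]

/-- adjoining a function of `X` (a.e.) does not change the entropy -/
theorem ent_pair_of_ker (P : FLaw Ω) (X : Ω → α) (Y : Ω → β)
    (h : ∀ ω ω', P.p ω ≠ 0 → P.p ω' ≠ 0 → X ω = X ω' → Y ω = Y ω') :
    P.ent (pair X Y) = P.ent X := by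
  refine ent_congr_ker P _ _ fun ω ω' h1 h2 => ?_
  simp only [FLaw.pair, Prod.mk.injEq]
  exact ⟨fun h3 => h3.1, fun h3 => ⟨h3, h ω ω' h1 h2 h3⟩⟩

theorem ent_le_pair_left (P : FLaw Ω) (X : Ω → α) (Y : Ω → β) : P.ent X ≤ P.ent (pair X Y) := by
  exact ent_mono_ker P _ X fun ω ω' _ _ h => congrArg Prod.fst h

theorem ent_le_pair_right (P : FLaw Ω) (X : Ω → α) (Y : Ω → β) : P.ent Y ≤ P.ent (pair X Y) := by
  exact ent_mono_ker P _ Y fun ω ω' _ _ h => congrArg Prod.snd h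

theorem ent_pair_le (P : FLaw Ω) (X : Ω → α) (Y : Ω → β) : P.ent (pair X Y) ≤ P.ent X + P.ent Y := by
  have key : ∀ {α' : Type} (inst : DecidableEq α') (X' : Ω → α'), P.ent X' = @RW.Pm.ent Ω _ α' inst P.toPm X' := by
    intro α' inst X'
    rw [ent_eq_pm]
    congr
  rw [key inferInstance (pair X Y), key inferInstance X, key inferInstance Y]
  exact RW.en_pair_le P.toPm X Y

/-- submodularity -/
theorem ent_submod (P : FLaw Ω) (X : Ω → α) (Y : Ω → β) (Z : Ω → γ) :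
    P.ent (pair (pair X Y) Z) + P.ent Z ≤ P.ent (pair X Z) + P.ent (pair Y Z) := by
  have key : ∀ {α' : Type} (inst : DecidableEq α') (X' : Ω → α'), P.ent X' = @RW.Pm.ent Ω _ α' inst P.toPm X' := by
    intro α' inst X'
    rw [ent_eq_pm]
    congr
  rw [ent_pair_assoc, key inferInstance (pair X (pair Y Z)), key inferInstance Z, key inferInstance (pair X Z),
    key inferInstance (pair Y Z)]
  exact RW.en_submod P.toPm X Y Z

/-- Gibbs: cross entropy against any sub-probability weight -/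
theorem ent_gibbs (P : FLaw Ω) (X : Ω → α) (q : α → ℝ) (hq : ∀ x, 0 ≤ q x)
    (hsum : ∀ S : Finset α, ∑ x ∈ S, q x ≤ 1) (hpos : ∀ ω, P.p ω ≠ 0 → 0 < q (X ω)) :
    P.ent X ≤ P.ev (fun ω => - Real.log (q (X ω))) := by
  rw [ent_eq_pm]
  exact RW.en_gibbs P.toPm X q hq (hsum _) fun ω h => (hpos ω h).ne'

/-- atoms of mass `≤ η` force entropy `≥ log (1/η)` -/
theorem ent_ge_of_atoms (P : FLaw Ω) (X : Ω → α) {η : ℝ} (hη : 0 < η)
    (h : ∀ ω, P.p ω ≠ 0 → P.fib X ω ≤ η) : Real.log (1 / η) ≤ P.ent X := by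
  rw [← ent_ev_const P (Real.log (1 / η))]
  refine ent_ev_mono P fun ω hω => ?_
  rw [one_div, Real.log_inv]
  exact neg_le_neg (Real.log_le_log (ent_fib_pos P X hω) (h ω hω))

/-- entropy of a Boolean observation -/
theorem ent_prop_le (P : FLaw Ω) (E : Ω → Prop) : P.ent E ≤ Real.log 2 := by
  have h := ent_le_log_card P E {True, False} fun ω _ => by
    by_cases hE : E ω <;> simp [hE]
  rwa [Finset.card_pair (by simp)] at h

/-! ## D. conditional entropy and conditional surprise -/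

theorem ent_entC_nonneg (P : FLaw Ω) (X : Ω → α) (Y : Ω → β) : 0 ≤ P.entC X Y := by
  unfold FLaw.entC
  linarith [ent_le_pair_right P X Y]

theorem ent_entC_le (P : FLaw Ω) (X : Ω → α) (Y : Ω → β) : P.entC X Y ≤ P.ent X := by
  unfold FLaw.entC
  linarith [ent_pair_le P X Y]

theorem ent_pair_eq (P : FLaw Ω) (X : Ω → α) (Y : Ω → β) : P.ent (pair X Y) = P.ent Y + P.entC X Y := by
  unfold FLaw.entC
  ring

theorem ent_entC_const (P : FLaw Ω) (X : Ω → α) (c : β) : P.entC X (fun _ => c) = P.ent X := by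
  unfold FLaw.entC
  rw [ent_const, sub_zero]
  exact ent_pair_of_ker P X _ fun _ _ _ _ _ => rfl

/-- chain rule -/
theorem ent_entC_chain (P : FLaw Ω) (X : Ω → α) (Y : Ω → β) (Z : Ω → γ) :
    P.entC (pair X Y) Z = P.entC X Z + P.entC Y (pair X Z) := by
  unfold FLaw.entC
  have h : P.ent (pair (pair X Y) Z) = P.ent (pair Y (pair X Z)) := by
    refine ent_congr_ker P _ _ fun ω ω' _ _ => ?_
    simp only [FLaw.pair, Prod.mk.injEq]
    tauto
  rw [h]
  ring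

/-- more conditioning reduces entropy -/
theorem ent_entC_pair_le (P : FLaw Ω) (X : Ω → α) (Y : Ω → β) (Z : Ω → γ) :
    P.entC X (pair Y Z) ≤ P.entC X Y := by
  unfold FLaw.entC
  have h1 : P.ent (pair X (pair Y Z)) = P.ent (pair (pair X Z) Y) := by
    refine ent_congr_ker P _ _ fun ω ω' _ _ => ?_
    simp only [FLaw.pair, Prod.mk.injEq]
    tauto
  have h2 := ent_submod P X Z Y
  rw [h1, ent_pair_comm P Y Z]
  linarith

/-- conditioning on a finer observation reduces entropy (a.e. kernel form) -/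
theorem ent_entC_anti (P : FLaw Ω) (X : Ω → α) (Y : Ω → β) (Y' : Ω → γ)
    (h : ∀ ω ω', P.p ω ≠ 0 → P.p ω' ≠ 0 → Y ω = Y ω' → Y' ω = Y' ω') :
    P.entC X Y ≤ P.entC X Y' := by
  have h1 := ent_entC_pair_le P X Y' Y
  have h2 : P.entC X (pair Y' Y) = P.entC X Y := by
    unfold FLaw.entC
    have e1 : P.ent (pair X (pair Y' Y)) = P.ent (pair X Y) := by
      refine ent_congr_ker P _ _ fun ω ω' h3 h4 => ?_
      simp only [FLaw.pair, Prod.mk.injEq]
      exact ⟨fun h5 => ⟨h5.1, h5.2.2⟩, fun h5 => ⟨h5.1, h ω ω' h3 h4 h5.2, h5.2⟩⟩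
    have e2 : P.ent (pair Y' Y) = P.ent Y := by
      refine ent_congr_ker P _ _ fun ω ω' h3 h4 => ?_
      simp only [FLaw.pair, Prod.mk.injEq]
      exact ⟨fun h5 => h5.2, fun h5 => ⟨h ω ω' h3 h4 h5, h5⟩⟩
    rw [e1, e2]
  linarith

/-- monotone in the first argument: `X'` is a.e. a function of `(X, Y)` -/
theorem ent_entC_mono (P : FLaw Ω) (X : Ω → α) (X' : Ω → δ) (Y : Ω → β)
    (h : ∀ ω ω', P.p ω ≠ 0 → P.p ω' ≠ 0 → X ω = X ω' → Y ω = Y ω' → X' ω = X' ω') :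
    P.entC X' Y ≤ P.entC X Y := by
  unfold FLaw.entC
  have h1 : P.ent (pair X' Y) ≤ P.ent (pair X Y) := by
    refine ent_mono_ker P _ _ fun ω ω' h3 h4 => ?_
    simp only [FLaw.pair, Prod.mk.injEq]
    exact fun h5 => ⟨h ω ω' h3 h4 h5.1 h5.2, h5.2⟩
  linarith

theorem ent_entC_congr (P : FLaw Ω) (X : Ω → α) (X' : Ω → δ) (Y : Ω → β) (Y' : Ω → γ)
    (hY : ∀ ω ω', P.p ω ≠ 0 → P.p ω' ≠ 0 → (Y ω = Y ω' ↔ Y' ω = Y' ω'))
    (hX : ∀ ω ω', P.p ω ≠ 0 → P.p ω' ≠ 0 → Y ω = Y ω' → (X ω = X ω' ↔ X' ω = X' ω')) :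
    P.entC X Y = P.entC X' Y' := by
  unfold FLaw.entC
  have h1 : P.ent (pair X Y) = P.ent (pair X' Y') := by
    refine ent_congr_ker P _ _ fun ω ω' h3 h4 => ?_
    simp only [FLaw.pair, Prod.mk.injEq]
    constructor
    · intro h5
      exact ⟨(hX ω ω' h3 h4 h5.2).1 h5.1, (hY ω ω' h3 h4).1 h5.2⟩
    · intro h5
      have h6 := (hY ω ω' h3 h4).2 h5.2
      exact ⟨(hX ω ω' h3 h4 h6).2 h5.1, h6⟩
  rw [h1, ent_congr_ker P Y Y' hY]

theorem ent_entC_eq_zero (P : FLaw Ω) (X : Ω → α) (Y : Ω → β)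
    (h : ∀ ω ω', P.p ω ≠ 0 → P.p ω' ≠ 0 → Y ω = Y ω' → X ω = X ω') : P.entC X Y = 0 := by
  unfold FLaw.entC
  rw [ent_pair_comm, ent_pair_of_ker P Y X h, sub_self]

theorem ent_entC_pair_le_add (P : FLaw Ω) (X : Ω → α) (Y : Ω → β) (Z : Ω → γ) :
    P.entC (pair X Y) Z ≤ P.entC X Z + P.entC Y Z := by
  rw [ent_entC_chain]
  have h := ent_entC_anti P Y (pair X Z) Z fun ω ω' _ _ h => congrArg Prod.snd h
  linarith

theorem ent_surC_nonneg (P : FLaw Ω) (X : Ω → α) (Y : Ω → β) {ω : Ω} (h : P.p ω ≠ 0) :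
    0 ≤ P.surC X Y ω := by
  unfold FLaw.surC
  rw [neg_nonneg]
  apply Real.log_nonpos (div_nonneg (ent_fib_nonneg P _ _) (ent_fib_nonneg P _ _))
  rw [div_le_one (ent_fib_pos P Y h)]
  exact ent_fib_pair_le_right P X Y ω

/-- `P(X | Y) = exp (- surprise)` a.e. -/
theorem ent_exp_neg_surC (P : FLaw Ω) (X : Ω → α) (Y : Ω → β) {ω : Ω} (h : P.p ω ≠ 0) :
    Real.exp (- P.surC X Y ω) = P.fib (pair X Y) ω / P.fib Y ω := by
  unfold FLaw.surC
  rw [neg_neg, Real.exp_log (div_pos (ent_fib_pos P _ h) (ent_fib_pos P _ h))]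

theorem ent_surC_eq_sub (P : FLaw Ω) (X : Ω → α) (Y : Ω → β) {ω : Ω} (h : P.p ω ≠ 0) :
    P.surC X Y ω = Real.log (P.fib Y ω) - Real.log (P.fib (pair X Y) ω) := by
  unfold FLaw.surC
  rw [Real.log_div (ent_fib_pos P _ h).ne' (ent_fib_pos P _ h).ne']
  ring

/-- conditional entropy = expected conditional surprise -/
theorem ent_entC_eq_ev (P : FLaw Ω) (X : Ω → α) (Y : Ω → β) : P.entC X Y = P.ev (P.surC X Y) := by
  unfold FLaw.entC FLaw.ent
  rw [← ent_ev_sub]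
  refine ent_ev_congr P fun ω hω => ?_
  rw [ent_surC_eq_sub P X Y hω]
  ring

/-- pointwise chain rule -/
theorem ent_surC_chain (P : FLaw Ω) (X : Ω → α) (Y : Ω → β) (Z : Ω → γ) {ω : Ω} (h : P.p ω ≠ 0) :
    P.surC (pair X Y) Z ω = P.surC X Z ω + P.surC Y (pair X Z) ω := by
  rw [ent_surC_eq_sub P _ _ h, ent_surC_eq_sub P _ _ h, ent_surC_eq_sub P _ _ h]
  have e : P.fib (pair (pair X Y) Z) ω = P.fib (pair Y (pair X Z)) ω := by
    refine ent_pr_congr P fun ω' _ => ?_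
    simp only [FLaw.pair, Prod.mk.injEq]
    tauto
  rw [e]
  ring

/-- the exact identity in the proof of Lemma 2.9 (2) -/
theorem ent_surC_swap (P : FLaw Ω) (Yv : Ω → α) (Yu : Ω → β) (X : Ω → γ) {ω : Ω} (h : P.p ω ≠ 0) :
    P.surC Yv X ω - P.surC Yu X ω = P.surC Yv (pair Yu X) ω - P.surC Yu (pair Yv X) ω := by
  rw [ent_surC_eq_sub P _ _ h, ent_surC_eq_sub P _ _ h, ent_surC_eq_sub P _ _ h, ent_surC_eq_sub P _ _ h]
  have e : P.fib (pair Yv (pair Yu X)) ω = P.fib (pair Yu (pair Yv X)) ω := by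
    refine ent_pr_congr P fun ω' _ => ?_
    simp only [FLaw.pair, Prod.mk.injEq]
    tauto
  rw [e]
  ring

/-- the surprise depends only on the partitions -/
theorem ent_surC_congr (P : FLaw Ω) (X : Ω → α) (X' : Ω → δ) (Y : Ω → β) (Y' : Ω → γ) (ω : Ω)
    (hY : ∀ ω', P.p ω' ≠ 0 → (Y ω' = Y ω ↔ Y' ω' = Y' ω))
    (hX : ∀ ω', P.p ω' ≠ 0 → Y ω' = Y ω → (X ω' = X ω ↔ X' ω' = X' ω)) :
    P.surC X Y ω = P.surC X' Y' ω := by
  unfold FLaw.surC
  have e1 : P.fib Y ω = P.fib Y' ω := ent_pr_congr P hY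
  have e2 : P.fib (pair X Y) ω = P.fib (pair X' Y') ω := by
    refine ent_pr_congr P fun ω' hω' => ?_
    simp only [FLaw.pair, Prod.mk.injEq]
    constructor
    · intro h5
      exact ⟨(hX ω' hω' h5.2).1 h5.1, (hY ω' hω').1 h5.2⟩
    · intro h5
      have h6 := (hY ω' hω').2 h5.2
      exact ⟨(hX ω' hω' h6).2 h5.1, h6⟩
  rw [e1, e2]

/-- helper: disjoint values have total mass `≤ 1` -/
theorem ent_aux_sum_pr_le (P : FLaw Ω) (A : Ω → α) (U : Finset α) :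
    ∑ a ∈ U, P.pr (fun ω => A ω = a) ≤ 1 := by
  have h := ent_pr_sum_values P (fun ω => A ω ∈ U) A U fun _ _ h => h
  have h2 : ∑ a ∈ U, P.pr (fun ω => A ω ∈ U ∧ A ω = a) = ∑ a ∈ U, P.pr (fun ω => A ω = a) := by
    refine Finset.sum_congr rfl fun a ha => ?_
    refine ent_pr_congr P fun ω _ => ⟨fun h => h.2, fun h => ⟨h ▸ ha, h⟩⟩
  rw [← h2, ← h]
  exact ent_pr_le_one P _

/-- helper: `E [P(A) / P(B, A)] ≤ N` under bounded ambiguity -/
theorem ent_aux_nval_ev (P : FLaw Ω) (B : Ω → β) (A : Ω → α) {N : ℝ}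
    (h : P.NVal (fun _ => True) B A N) :
    P.ev (fun ω => P.fib A ω / P.fib (pair B A) ω) ≤ N := by
  obtain ⟨T, hT⟩ : ∃ T : Finset (β × α), T = Finset.univ.image (pair B A) := ⟨_, rfl⟩
  have hTmem : ∀ ω, pair B A ω ∈ T := fun ω => hT ▸ Finset.mem_image_of_mem _ (Finset.mem_univ ω)
  have h1 : P.ev (fun ω => P.fib A ω / P.fib (pair B A) ω) =
      ∑ x ∈ T, P.pr (fun ω => pair B A ω = x) *
        (P.pr (fun ω => A ω = x.2) / P.pr (fun ω => pair B A ω = x)) :=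
    ent_ev_comp P (pair B A) T (fun ω _ => hTmem ω)
      (fun x => P.pr (fun ω => A ω = x.2) / P.pr (fun ω => pair B A ω = x))
  rw [h1]
  have hN0 : 0 ≤ N := by
    obtain ⟨ω₀⟩ : Nonempty Ω := by
      by_contra hne
      rw [not_nonempty_iff] at hne
      have := P.sum_one
      simp at this
    obtain ⟨S, hS, -⟩ := h ω₀
    exact le_trans (Nat.cast_nonneg _) hS
  have h2 : ∀ x ∈ T, P.pr (fun ω => pair B A ω = x) *
      (P.pr (fun ω => A ω = x.2) / P.pr (fun ω => pair B A ω = x)) =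
      if P.pr (fun ω => pair B A ω = x) ≠ 0 then P.pr (fun ω => A ω = x.2) else 0 := by
    intro x _
    by_cases hx : P.pr (fun ω => pair B A ω = x) = 0
    · simp [hx]
    · rw [if_pos hx]
      field_simp
  rw [Finset.sum_congr rfl h2,
    ← Finset.sum_fiberwise_of_maps_to (t := T.image Prod.snd) (g := Prod.snd)
      (fun x hx => Finset.mem_image_of_mem _ hx)]
  have h3 : ∀ a ∈ T.image Prod.snd, ∑ x ∈ T with x.2 = a,
      (if P.pr (fun ω => pair B A ω = x) ≠ 0 then P.pr (fun ω => A ω = x.2) else 0) ≤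
      N * P.pr (fun ω => A ω = a) := by
    intro a ha
    obtain ⟨x0, hx0, rfl⟩ := Finset.mem_image.1 ha
    rw [hT] at hx0
    obtain ⟨ω₀, -, rfl⟩ := Finset.mem_image.1 hx0
    obtain ⟨S, hS, hSmem⟩ := h ω₀
    have hpa := ent_pr_nonneg P (fun ω => A ω = (pair B A ω₀).2)
    rw [← Finset.sum_filter, Finset.filter_filter]
    rw [Finset.sum_congr rfl (g := fun _ => P.pr (fun ω => A ω = (pair B A ω₀).2))
      (fun x hx => by rw [(Finset.mem_filter.1 hx).2.1])]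
    rw [Finset.sum_const, nsmul_eq_mul]
    refine mul_le_mul_of_nonneg_right (le_trans ?_ hS) hpa
    have : (T.filter fun x => x.2 = (pair B A ω₀).2 ∧ P.pr (fun ω => pair B A ω = x) ≠ 0).card ≤ S.card := by
      refine Finset.card_le_card_of_injOn Prod.fst ?_ ?_
      · intro x hx
        obtain ⟨-, hx2, hx3⟩ := Finset.mem_filter.1 (Finset.mem_coe.1 hx)
        have hpos : 0 < P.pr (fun ω => pair B A ω = x) := lt_of_le_of_ne (ent_pr_nonneg P _) (Ne.symm hx3)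
        obtain ⟨ω, hω1, hω2⟩ := (ent_pr_pos_iff P _).1 hpos
        have hA : A ω = A ω₀ := by
          have := congrArg Prod.snd hω1
          exact this.trans hx2
        have hB : B ω = x.1 := congrArg Prod.fst hω1
        exact Finset.mem_coe.2 (hB ▸ hSmem ω hω2 trivial hA)
      · intro x hx y hy hxy
        have hx2 := (Finset.mem_filter.1 (Finset.mem_coe.1 hx)).2.1
        have hy2 := (Finset.mem_filter.1 (Finset.mem_coe.1 hy)).2.1
        exact Prod.ext hxy (hx2.trans hy2.symm)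
    exact_mod_cast this
  refine (Finset.sum_le_sum h3).trans ?_
  rw [← Finset.mul_sum]
  calc N * ∑ a ∈ T.image Prod.snd, P.pr (fun ω => A ω = a) ≤ N * 1 :=
        mul_le_mul_of_nonneg_left (ent_aux_sum_pr_le P A _) hN0
    _ = N := mul_one N

/-- bounded ambiguity bounds the conditional entropy -/
theorem ent_entC_le_log_nval (P : FLaw Ω) (B : Ω → β) (A : Ω → α) {N : ℝ}
    (h : P.NVal (fun _ => True) B A N) : P.entC B A ≤ Real.log N := by
  have hK := ent_aux_nval_ev P B A h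
  have hpos : 0 < P.ev (fun ω => P.fib A ω / P.fib (pair B A) ω) := by
    obtain ⟨ω₀, hω₀⟩ : ∃ ω, P.p ω ≠ 0 := by
      by_contra hcon
      push Not at hcon
      have := P.sum_one
      simp [hcon] at this
    refine Finset.sum_pos' (fun ω _ => mul_nonneg (P.nonneg ω)
      (div_nonneg (ent_fib_nonneg P _ _) (ent_fib_nonneg P _ _))) ⟨ω₀, Finset.mem_univ _, ?_⟩
    exact mul_pos (lt_of_le_of_ne (P.nonneg ω₀) (Ne.symm hω₀))
      (div_pos (ent_fib_pos P _ hω₀) (ent_fib_pos P _ hω₀))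
  have hN : 0 < N := lt_of_lt_of_le hpos hK
  rw [ent_entC_eq_ev]
  have h1 : P.ev (P.surC B A) ≤ P.ev (fun ω => Real.log N + (P.fib A ω / P.fib (pair B A) ω / N - 1)) := by
    refine ent_ev_mono P fun ω hω => ?_
    have hr : 0 < P.fib A ω / P.fib (pair B A) ω := div_pos (ent_fib_pos P _ hω) (ent_fib_pos P _ hω)
    have h2 := Real.log_le_sub_one_of_pos (div_pos hr hN)
    rw [Real.log_div hr.ne' hN.ne', Real.log_div (ent_fib_pos P _ hω).ne' (ent_fib_pos P _ hω).ne'] at h2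
    rw [ent_surC_eq_sub P B A hω]
    linarith
  refine h1.trans ?_
  rw [ent_ev_add, ent_ev_const, ent_ev_sub, ent_ev_const]
  have h3 : P.ev (fun ω => P.fib A ω / P.fib (pair B A) ω / N) =
      1 / N * P.ev (fun ω => P.fib A ω / P.fib (pair B A) ω) := by
    rw [← ent_ev_mul_left]
    exact ent_ev_congr P fun ω _ => by ring
  rw [h3]
  have h4 : 1 / N * P.ev (fun ω => P.fib A ω / P.fib (pair B A) ω) ≤ 1 := by
    rw [one_div, inv_mul_le_iff₀ hN, mul_one]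
    exact hK
  linarith

/-- tail of the conditional surprise (proof of Lemma 2.9 (2)) -/
theorem ent_surC_tail (P : FLaw Ω) (B : Ω → β) (A : Ω → α) {N : ℝ} (hN : 0 < N)
    (h : P.NVal (fun _ => True) B A N) (t : ℝ) :
    P.pr (fun ω => Real.log N + t < P.surC B A ω) ≤ Real.exp (- t) := by
  have hK := ent_aux_nval_ev P B A h
  have hm := ent_markov P (f := fun ω => P.fib A ω / P.fib (pair B A) ω)
    (fun ω _ => div_nonneg (ent_fib_nonneg P _ _) (ent_fib_nonneg P _ _))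
    (t := N * Real.exp t) (mul_pos hN (Real.exp_pos t))
  refine le_trans (ent_pr_mono P fun ω hω hs => ?_) (hm.trans ?_)
  · have hr : 0 < P.fib A ω / P.fib (pair B A) ω := div_pos (ent_fib_pos P _ hω) (ent_fib_pos P _ hω)
    rw [ent_surC_eq_sub P B A hω, ← Real.log_div (ent_fib_pos P _ hω).ne' (ent_fib_pos P _ hω).ne'] at hs
    have h2 : Real.log (N * Real.exp t) < Real.log (P.fib A ω / P.fib (pair B A) ω) := by
      rw [Real.log_mul hN.ne' (Real.exp_pos t).ne', Real.log_exp]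
      exact hs
    exact ((Real.log_lt_log_iff (mul_pos hN (Real.exp_pos t)) hr).1 h2).le
  · rw [div_le_iff₀ (mul_pos hN (Real.exp_pos t)), Real.exp_neg]
    have : (Real.exp t)⁻¹ * (N * Real.exp t) = N := by
      field_simp
    rw [this]
    exact hK

/-! ## E. information -/

theorem ent_mi_nonneg (P : FLaw Ω) (X : Ω → α) (Y : Ω → β) : 0 ≤ P.mi X Y := by
  unfold FLaw.mi
  linarith [ent_pair_le P X Y]

theorem ent_mi_comm (P : FLaw Ω) (X : Ω → α) (Y : Ω → β) : P.mi X Y = P.mi Y X := by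
  unfold FLaw.mi
  rw [ent_pair_comm]
  ring

theorem ent_mi_eq (P : FLaw Ω) (X : Ω → α) (Y : Ω → β) : P.mi X Y = P.ent X - P.entC X Y := by
  unfold FLaw.mi FLaw.entC
  ring

theorem ent_mi_le_left (P : FLaw Ω) (X : Ω → α) (Y : Ω → β) : P.mi X Y ≤ P.ent X := by
  unfold FLaw.mi
  linarith [ent_le_pair_right P X Y]

theorem ent_mi_le_right (P : FLaw Ω) (X : Ω → α) (Y : Ω → β) : P.mi X Y ≤ P.ent Y := by
  unfold FLaw.mi
  linarith [ent_le_pair_left P X Y]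

theorem ent_miC_nonneg (P : FLaw Ω) (X : Ω → α) (Y : Ω → β) (Z : Ω → γ) : 0 ≤ P.miC X Y Z := by
  unfold FLaw.miC
  linarith [ent_submod P X Y Z]

theorem ent_miC_comm (P : FLaw Ω) (X : Ω → α) (Y : Ω → β) (Z : Ω → γ) :
    P.miC X Y Z = P.miC Y X Z := by
  unfold FLaw.miC
  have h : P.ent (pair (pair X Y) Z) = P.ent (pair (pair Y X) Z) := by
    refine ent_congr_ker P _ _ fun ω ω' _ _ => ?_
    simp only [FLaw.pair, Prod.mk.injEq]
    tauto
  rw [h]
  ring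

theorem ent_miC_eq (P : FLaw Ω) (X : Ω → α) (Y : Ω → β) (Z : Ω → γ) :
    P.miC X Y Z = P.entC X Z - P.entC X (pair Y Z) := by
  unfold FLaw.miC FLaw.entC
  rw [ent_pair_assoc]
  ring

theorem ent_miC_le_left (P : FLaw Ω) (X : Ω → α) (Y : Ω → β) (Z : Ω → γ) :
    P.miC X Y Z ≤ P.entC X Z := by
  rw [ent_miC_eq]
  linarith [ent_entC_nonneg P X (pair Y Z)]

theorem ent_miC_le_right (P : FLaw Ω) (X : Ω → α) (Y : Ω → β) (Z : Ω → γ) :
    P.miC X Y Z ≤ P.entC Y Z := by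
  rw [ent_miC_comm]
  exact ent_miC_le_left P Y X Z

theorem ent_miC_const (P : FLaw Ω) (X : Ω → α) (Y : Ω → β) (c : γ) :
    P.miC X Y (fun _ => c) = P.mi X Y := by
  unfold FLaw.miC FLaw.mi
  rw [ent_const, ent_pair_of_ker P X (fun _ : Ω => c) fun _ _ _ _ _ => rfl,
    ent_pair_of_ker P Y (fun _ : Ω => c) fun _ _ _ _ _ => rfl,
    ent_pair_of_ker P (pair X Y) (fun _ : Ω => c) fun _ _ _ _ _ => rfl]
  ring

/-- chain rule `I(X ; Y, Z) = I(X ; Z) + I(X ; Y | Z)` -/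
theorem ent_mi_chain (P : FLaw Ω) (X : Ω → α) (Y : Ω → β) (Z : Ω → γ) :
    P.mi X (pair Y Z) = P.mi X Z + P.miC X Y Z := by
  unfold FLaw.mi FLaw.miC
  rw [ent_pair_assoc]
  ring

/-- chain rule `I(X ; Y, W | Z) = I(X ; W | Z) + I(X ; Y | W, Z)` -/
theorem ent_miC_chain (P : FLaw Ω) (X : Ω → α) (Y : Ω → β) (W : Ω → δ) (Z : Ω → γ) :
    P.miC X (pair Y W) Z = P.miC X W Z + P.miC X Y (pair W Z) := by
  unfold FLaw.miC
  have h1 : P.ent (pair (pair X (pair Y W)) Z) = P.ent (pair (pair X Y) (pair W Z)) := by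
    refine ent_congr_ker P _ _ fun ω ω' _ _ => ?_
    simp only [FLaw.pair, Prod.mk.injEq]
    tauto
  rw [h1, ent_pair_assoc P X W Z, ent_pair_assoc P Y W Z]
  ring

/-- data processing (a.e. kernel form) -/
theorem ent_mi_mono (P : FLaw Ω) (X : Ω → α) (Y : Ω → β) (Y' : Ω → γ)
    (h : ∀ ω ω', P.p ω ≠ 0 → P.p ω' ≠ 0 → Y ω = Y ω' → Y' ω = Y' ω') : P.mi X Y' ≤ P.mi X Y := by
  rw [ent_mi_eq, ent_mi_eq]
  linarith [ent_entC_anti P X Y Y' h]

/-- conditional data processing: `Y'` is a.e. a function of `(Y, Z)` -/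
theorem ent_miC_mono (P : FLaw Ω) (X : Ω → α) (Y : Ω → β) (Y' : Ω → δ) (Z : Ω → γ)
    (h : ∀ ω ω', P.p ω ≠ 0 → P.p ω' ≠ 0 → Y ω = Y ω' → Z ω = Z ω' → Y' ω = Y' ω') :
    P.miC X Y' Z ≤ P.miC X Y Z := by
  rw [ent_miC_eq, ent_miC_eq]
  have h1 := ent_entC_anti P X (pair Y Z) (pair Y' Z) fun ω ω' h3 h4 h5 => by
    simp only [FLaw.pair, Prod.mk.injEq] at h5 ⊢
    exact ⟨h ω ω' h3 h4 h5.1 h5.2, h5.2⟩
  linarith

theorem ent_mi_congr (P : FLaw Ω) (X : Ω → α) (X' : Ω → δ) (Y : Ω → β) (Y' : Ω → γ)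
    (hX : ∀ ω ω', P.p ω ≠ 0 → P.p ω' ≠ 0 → (X ω = X ω' ↔ X' ω = X' ω'))
    (hY : ∀ ω ω', P.p ω ≠ 0 → P.p ω' ≠ 0 → (Y ω = Y ω' ↔ Y' ω = Y' ω')) :
    P.mi X Y = P.mi X' Y' := by
  unfold FLaw.mi
  have h1 : P.ent (pair X Y) = P.ent (pair X' Y') := by
    refine ent_congr_ker P _ _ fun ω ω' h3 h4 => ?_
    simp only [FLaw.pair, Prod.mk.injEq]
    rw [hX ω ω' h3 h4, hY ω ω' h3 h4]
  rw [h1, ent_congr_ker P X X' hX, ent_congr_ker P Y Y' hY]

/-- information density -/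
theorem ent_miC_eq_ev (P : FLaw Ω) (X : Ω → α) (Y : Ω → β) (Z : Ω → γ) :
    P.miC X Y Z = P.ev (fun ω => Real.log (P.fib (pair (pair X Y) Z) ω * P.fib Z ω
      / (P.fib (pair X Z) ω * P.fib (pair Y Z) ω))) := by
  unfold FLaw.miC FLaw.ent
  rw [← ent_ev_add, ← ent_ev_sub, ← ent_ev_sub]
  refine ent_ev_congr P fun ω hω => ?_
  have h1 := ent_fib_pos P (pair (pair X Y) Z) hω
  have h2 := ent_fib_pos P Z hω
  have h3 := ent_fib_pos P (pair X Z) hω
  have h4 := ent_fib_pos P (pair Y Z) hω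
  rw [Real.log_div (mul_pos h1 h2).ne' (mul_pos h3 h4).ne', Real.log_mul h1.ne' h2.ne',
    Real.log_mul h3.ne' h4.ne']
  ring

/-- helper: the conditionally independent coupling has mass `≤ 1` on the support -/
theorem ent_aux_ci_mass (P : FLaw Ω) (U : Ω → α) (V : Ω → β) (Z : Ω → γ) :
    P.ev (fun ω => P.fib (pair U Z) ω * P.fib (pair V Z) ω
      / (P.fib (pair (pair U V) Z) ω * P.fib Z ω)) ≤ 1 := by
  have hm := RW.en_submod_mass P.toPm U V Z
  have hc := RW.en_sum_comp P.toPm (fun ω => (U ω, V ω, Z ω))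
    (fun t => P.toPm.pr (fun ω => (U ω, Z ω)) (t.1, t.2.2) * P.toPm.pr (fun ω => (V ω, Z ω)) (t.2.1, t.2.2)
      / (P.toPm.pr (fun ω => (U ω, V ω, Z ω)) t * P.toPm.pr Z t.2.2))
  have e1 : P.ev (fun ω => P.fib (pair U Z) ω * P.fib (pair V Z) ω
      / (P.fib (pair (pair U V) Z) ω * P.fib Z ω)) =
      ∑ ω, P.toPm.w ω * (P.toPm.pr (fun ω => (U ω, Z ω)) (U ω, Z ω) * P.toPm.pr (fun ω => (V ω, Z ω)) (V ω, Z ω)
      / (P.toPm.pr (fun ω => (U ω, V ω, Z ω)) (U ω, V ω, Z ω) * P.toPm.pr Z (Z ω))) := by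
    refine Finset.sum_congr rfl fun ω _ => ?_
    have a1 : P.fib (pair U Z) ω = P.toPm.pr (fun ω => (U ω, Z ω)) (U ω, Z ω) := by
      rw [ent_fib_eq_pm]
      unfold RW.Pm.pr
      congr
    have a2 : P.fib (pair V Z) ω = P.toPm.pr (fun ω => (V ω, Z ω)) (V ω, Z ω) := by
      rw [ent_fib_eq_pm]
      unfold RW.Pm.pr
      congr
    have a3 : P.fib (pair (pair U V) Z) ω = P.toPm.pr (fun ω => (U ω, V ω, Z ω)) (U ω, V ω, Z ω) := by
      have : P.fib (pair (pair U V) Z) ω = P.fib (pair U (pair V Z)) ω := by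
        refine ent_pr_congr P fun ω' _ => ?_
        simp only [FLaw.pair, Prod.mk.injEq]
        tauto
      rw [this, ent_fib_eq_pm]
      unfold RW.Pm.pr
      congr
    have a4 : P.fib Z ω = P.toPm.pr Z (Z ω) := ent_fib_eq_pm P Z ω
    show P.p ω * (P.fib (pair U Z) ω * P.fib (pair V Z) ω / (P.fib (pair (pair U V) Z) ω * P.fib Z ω)) = _
    rw [a1, a2, a3, a4]
    rfl
  rw [e1, hc]
  refine le_trans (Finset.sum_le_sum fun t _ => ?_) hm
  have b1 := RW.en_pr_nonneg P.toPm (fun ω => (U ω, Z ω)) (t.1, t.2.2)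
  have b2 := RW.en_pr_nonneg P.toPm (fun ω => (V ω, Z ω)) (t.2.1, t.2.2)
  have b3 := RW.en_pr_nonneg P.toPm Z t.2.2
  by_cases h0 : P.toPm.pr (fun ω => (U ω, V ω, Z ω)) t = 0
  · rw [h0, zero_mul]
    positivity
  · refine le_of_eq ?_
    by_cases h1 : P.toPm.pr Z t.2.2 = 0
    · simp [h1]
    · field_simp

theorem ent_ci_iff (P : FLaw Ω) (U : Ω → α) (V : Ω → β) (Z : Ω → γ) :
    P.CI U V Z ↔ P.miC U V Z = 0 := by
  have hfib3 : ∀ ω, P.fib (pair (pair U V) Z) ω = P.pr (fun ω' => U ω' = U ω ∧ V ω' = V ω ∧ Z ω' = Z ω) := by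
    intro ω
    refine ent_pr_congr P fun ω' _ => ?_
    simp only [FLaw.pair, Prod.mk.injEq]
    tauto
  constructor
  · intro h
    rw [ent_miC_eq_ev]
    have : ∀ ω, P.p ω ≠ 0 → Real.log (P.fib (pair (pair U V) Z) ω * P.fib Z ω
        / (P.fib (pair U Z) ω * P.fib (pair V Z) ω)) = 0 := by
      intro ω hω
      have h1 := h (U ω) (V ω) (Z ω)
      rw [hfib3, ent_fib_pair, ent_fib_pair]
      unfold FLaw.fib
      rw [h1, div_self, Real.log_one]
      have h3 := ent_fib_pos P (pair U Z) hω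
      have h4 := ent_fib_pos P (pair V Z) hω
      rw [ent_fib_pair] at h3 h4
      exact (mul_pos h3 h4).ne'
    rw [ent_ev_congr P this]
    exact ent_ev_const P 0
  · intro h0
    -- a.e. equality
    have hae : ∀ ω, P.p ω ≠ 0 → P.fib (pair (pair U V) Z) ω * P.fib Z ω =
        P.fib (pair U Z) ω * P.fib (pair V Z) ω := by
      have hmass := ent_aux_ci_mass P U V Z
      rw [ent_miC_eq_ev] at h0
      have hnn : ∀ ω ∈ (Finset.univ : Finset Ω), 0 ≤ P.p ω * (Real.log (P.fib (pair (pair U V) Z) ω * P.fib Z ω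
          / (P.fib (pair U Z) ω * P.fib (pair V Z) ω)) - 1 + P.fib (pair U Z) ω * P.fib (pair V Z) ω
          / (P.fib (pair (pair U V) Z) ω * P.fib Z ω)) := by
        intro ω _
        by_cases hω : P.p ω = 0
        · simp [hω]
        · refine mul_nonneg (P.nonneg ω) ?_
          have h1 := ent_fib_pos P (pair (pair U V) Z) hω
          have h2 := ent_fib_pos P Z hω
          have h3 := ent_fib_pos P (pair U Z) hω
          have h4 := ent_fib_pos P (pair V Z) hω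
          have h5 := Real.log_le_sub_one_of_pos (div_pos (mul_pos h3 h4) (mul_pos h1 h2))
          rw [Real.log_div (mul_pos h3 h4).ne' (mul_pos h1 h2).ne'] at h5
          rw [Real.log_div (mul_pos h1 h2).ne' (mul_pos h3 h4).ne']
          linarith
      have hsum : ∑ ω, P.p ω * (Real.log (P.fib (pair (pair U V) Z) ω * P.fib Z ω
          / (P.fib (pair U Z) ω * P.fib (pair V Z) ω)) - 1 + P.fib (pair U Z) ω * P.fib (pair V Z) ω
          / (P.fib (pair (pair U V) Z) ω * P.fib Z ω)) ≤ 0 := by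
        have := ent_ev_add P (fun ω => Real.log (P.fib (pair (pair U V) Z) ω * P.fib Z ω
          / (P.fib (pair U Z) ω * P.fib (pair V Z) ω)) - 1) (fun ω => P.fib (pair U Z) ω * P.fib (pair V Z) ω
          / (P.fib (pair (pair U V) Z) ω * P.fib Z ω))
        rw [ent_ev_sub, ent_ev_const, h0] at this
        unfold FLaw.ev at this hmass
        rw [this]
        linarith
      have hzero := (Finset.sum_eq_zero_iff_of_nonneg hnn).1 (le_antisymm hsum (Finset.sum_nonneg hnn))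
      intro ω hω
      have h6 := hzero ω (Finset.mem_univ ω)
      have h1 := ent_fib_pos P (pair (pair U V) Z) hω
      have h2 := ent_fib_pos P Z hω
      have h3 := ent_fib_pos P (pair U Z) hω
      have h4 := ent_fib_pos P (pair V Z) hω
      have h7 := (mul_eq_zero.1 h6).resolve_left hω
      by_contra hne
      have hne' : P.fib (pair U Z) ω * P.fib (pair V Z) ω / (P.fib (pair (pair U V) Z) ω * P.fib Z ω) ≠ 1 := by
        intro h8
        rw [div_eq_one_iff_eq (mul_pos h1 h2).ne'] at h8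
        exact hne h8.symm
      have h9 := Real.log_lt_sub_one_of_pos (div_pos (mul_pos h3 h4) (mul_pos h1 h2)) hne'
      rw [Real.log_div (mul_pos h3 h4).ne' (mul_pos h1 h2).ne'] at h9
      rw [Real.log_div (mul_pos h1 h2).ne' (mul_pos h3 h4).ne'] at h7
      linarith
    intro u v z
    obtain ⟨S, hS⟩ : ∃ S : Finset β, S = Finset.univ.image V := ⟨_, rfl⟩
    have hSmem : ∀ ω, V ω ∈ S := fun ω => hS ▸ Finset.mem_image_of_mem _ (Finset.mem_univ ω)
    have hle : ∀ v' ∈ S, P.pr (fun ω => U ω = u ∧ V ω = v' ∧ Z ω = z) * P.pr (fun ω => Z ω = z) ≤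
        P.pr (fun ω => U ω = u ∧ Z ω = z) * P.pr (fun ω => V ω = v' ∧ Z ω = z) := by
      intro v' _
      by_cases hp : 0 < P.pr (fun ω => U ω = u ∧ V ω = v' ∧ Z ω = z)
      · obtain ⟨ω, ⟨rfl, rfl, rfl⟩, hω⟩ := (ent_pr_pos_iff P _).1 hp
        have := hae ω hω
        rw [hfib3, ent_fib_pair, ent_fib_pair] at this
        exact this.le
      · have : P.pr (fun ω => U ω = u ∧ V ω = v' ∧ Z ω = z) = 0 :=
          le_antisymm (not_lt.1 hp) (ent_pr_nonneg P _)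
        rw [this, zero_mul]
        exact mul_nonneg (ent_pr_nonneg P _) (ent_pr_nonneg P _)
    have hs1 : P.pr (fun ω => U ω = u ∧ Z ω = z) = ∑ v' ∈ S, P.pr (fun ω => U ω = u ∧ V ω = v' ∧ Z ω = z) := by
      rw [ent_pr_sum_values P (fun ω => U ω = u ∧ Z ω = z) V S fun ω _ _ => hSmem ω]
      refine Finset.sum_congr rfl fun v' _ => ent_pr_congr P fun ω _ => ?_
      tauto
    have hs2 : P.pr (fun ω => Z ω = z) = ∑ v' ∈ S, P.pr (fun ω => V ω = v' ∧ Z ω = z) := by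
      rw [ent_pr_sum_values P (fun ω => Z ω = z) V S fun ω _ _ => hSmem ω]
      refine Finset.sum_congr rfl fun v' _ => ent_pr_congr P fun ω _ => ?_
      tauto
    have hsum : ∑ v' ∈ S, P.pr (fun ω => U ω = u ∧ V ω = v' ∧ Z ω = z) * P.pr (fun ω => Z ω = z) =
        ∑ v' ∈ S, P.pr (fun ω => U ω = u ∧ Z ω = z) * P.pr (fun ω => V ω = v' ∧ Z ω = z) := by
      rw [← Finset.sum_mul, ← Finset.mul_sum, ← hs1, ← hs2]
    have hall := (Finset.sum_eq_sum_iff_of_le hle).1 hsum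
    by_cases hv : v ∈ S
    · exact hall v hv
    · have z1 : P.pr (fun ω => U ω = u ∧ V ω = v ∧ Z ω = z) = 0 :=
        ent_pr_eq_zero P fun ω _ h => hv (h.2.1 ▸ hSmem ω)
      have z2 : P.pr (fun ω => V ω = v ∧ Z ω = z) = 0 :=
        ent_pr_eq_zero P fun ω _ h => hv (h.1 ▸ hSmem ω)
      rw [z1, z2, zero_mul, mul_zero]

/-- conditional independence read at sampled points -/
theorem ent_ci_fib (P : FLaw Ω) (U : Ω → α) (V : Ω → β) (Z : Ω → γ) (h : P.CI U V Z) (ω : Ω) :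
    P.fib (pair (pair U V) Z) ω * P.fib Z ω = P.fib (pair U Z) ω * P.fib (pair V Z) ω := by
  have h1 := h (U ω) (V ω) (Z ω)
  have hfib3 : P.fib (pair (pair U V) Z) ω = P.pr (fun ω' => U ω' = U ω ∧ V ω' = V ω ∧ Z ω' = Z ω) := by
    refine ent_pr_congr P fun ω' _ => ?_
    simp only [FLaw.pair, Prod.mk.injEq]
    tauto
  rw [hfib3, ent_fib_pair, ent_fib_pair]
  exact h1

theorem ent_ci_symm (P : FLaw Ω) (U : Ω → α) (V : Ω → β) (Z : Ω → γ) (h : P.CI U V Z) :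
    P.CI V U Z := by
  intro v u z
  have h1 := h u v z
  have e : P.pr (fun ω => V ω = v ∧ U ω = u ∧ Z ω = z) = P.pr (fun ω => U ω = u ∧ V ω = v ∧ Z ω = z) :=
    ent_pr_congr P fun ω _ => by tauto
  rw [e, h1, mul_comm]

/-- functions of conditionally independent observations -/
theorem ent_ci_comp (P : FLaw Ω) (U : Ω → α) (V : Ω → β) (Z : Ω → γ) (h : P.CI U V Z)
    {α' β' : Type} (f : α → γ → α') (g : β → γ → β') :
    P.CI (fun ω => f (U ω) (Z ω)) (fun ω => g (V ω) (Z ω)) Z := by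
  rw [ent_ci_iff] at h ⊢
  have h1 : P.miC (fun ω => f (U ω) (Z ω)) (fun ω => g (V ω) (Z ω)) Z ≤
      P.miC (fun ω => f (U ω) (Z ω)) V Z :=
    ent_miC_mono P _ V _ Z fun ω ω' _ _ h5 h6 => by rw [h5, h6]
  have h2 : P.miC V (fun ω => f (U ω) (Z ω)) Z ≤ P.miC V U Z :=
    ent_miC_mono P _ U _ Z fun ω ω' _ _ h5 h6 => by rw [h5, h6]
  rw [ent_miC_comm P _ V Z] at h1
  rw [ent_miC_comm P V U Z, h] at h2
  exact le_antisymm (h1.trans h2) (ent_miC_nonneg P _ _ _)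

/-! ## F. laws -/

theorem ent_law_ext (P Q : FLaw Ω) (h : ∀ ω, P.p ω = Q.p ω) : P = Q := by
  obtain ⟨p, _, _⟩ := P
  obtain ⟨q, _, _⟩ := Q
  have : p = q := funext h
  subst this
  rfl

theorem ent_exists_supp (P : FLaw Ω) : ∃ ω, P.p ω ≠ 0 := by
  by_contra hcon
  push Not at hcon
  have := P.sum_one
  simp [hcon] at this

theorem ent_cond_p (P : FLaw Ω) (E : Ω → Prop) (h : 0 < P.pr E) (ω : Ω) :
    (P.cond E h).p ω = (if E ω then P.p ω else 0) / P.pr E := by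
  rfl

theorem ent_cnd_eq (P : FLaw Ω) (E : Ω → Prop) (h : 0 < P.pr E) : P.cnd E = P.cond E h := by
  unfold FLaw.cnd
  rw [dif_pos h]

theorem ent_cnd_p (P : FLaw Ω) (E : Ω → Prop) (h : 0 < P.pr E) (ω : Ω) :
    (P.cnd E).p ω = (if E ω then P.p ω else 0) / P.pr E := by
  rw [ent_cnd_eq P E h]
  rfl

theorem ent_cnd_supp (P : FLaw Ω) (E : Ω → Prop) (h : 0 < P.pr E) {ω : Ω} :
    (P.cnd E).p ω ≠ 0 ↔ E ω ∧ P.p ω ≠ 0 := by
  rw [ent_cnd_p P E h]
  by_cases hE : E ω <;> simp [hE, h.ne']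

theorem ent_cnd_pr (P : FLaw Ω) (E : Ω → Prop) (h : 0 < P.pr E) (F : Ω → Prop) :
    (P.cnd E).pr F = P.pr (fun ω => E ω ∧ F ω) / P.pr E := by
  unfold FLaw.pr
  rw [Finset.sum_div]
  refine Finset.sum_congr rfl fun ω _ => ?_
  rw [ent_cnd_p P E h]
  unfold FLaw.pr
  by_cases hE : E ω <;> by_cases hF : F ω <;> simp [hE, hF]

theorem ent_cnd_ev (P : FLaw Ω) (E : Ω → Prop) (h : 0 < P.pr E) (f : Ω → ℝ) :
    (P.cnd E).ev f = P.ev (fun ω => if E ω then f ω else 0) / P.pr E := by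
  unfold FLaw.ev
  rw [Finset.sum_div]
  refine Finset.sum_congr rfl fun ω _ => ?_
  rw [ent_cnd_p P E h]
  by_cases hE : E ω
  · simp only [hE, if_true]
    ring
  · simp [hE]

theorem ent_cnd_dom (P : FLaw Ω) (E : Ω → Prop) (h : 0 < P.pr E) :
    (P.cnd E).Dom (1 / P.pr E) P := by
  intro ω
  rw [ent_cnd_p P E h]
  by_cases hE : E ω
  · simp only [hE, if_true]
    exact le_of_eq (by ring)
  · simp only [hE, if_false, zero_div]
    exact mul_nonneg (div_nonneg zero_le_one h.le) (P.nonneg ω)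

/-- iterated conditioning -/
theorem ent_cnd_cnd (P : FLaw Ω) (E F : Ω → Prop) (h : 0 < P.pr (fun ω => E ω ∧ F ω)) :
    (P.cnd E).cnd F = P.cnd (fun ω => E ω ∧ F ω) := by
  have hE : 0 < P.pr E := h.trans_le (ent_pr_mono P fun ω _ hω => hω.1)
  have hF : 0 < (P.cnd E).pr F := by
    rw [ent_cnd_pr P E hE]
    exact div_pos h hE
  refine ent_law_ext _ _ fun ω => ?_
  rw [ent_cnd_p _ F hF, ent_cnd_p P E hE, ent_cnd_p P _ h, ent_cnd_pr P E hE]
  by_cases h1 : E ω <;> by_cases h2 : F ω <;> simp [h1, h2]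
  field_simp

theorem ent_cnd_congr (P : FLaw Ω) {E F : Ω → Prop} (h : ∀ ω, P.p ω ≠ 0 → (E ω ↔ F ω)) :
    P.cnd E = P.cnd F := by
  have hpr : P.pr E = P.pr F := ent_pr_congr P h
  by_cases hE : 0 < P.pr E
  · refine ent_law_ext _ _ fun ω => ?_
    rw [ent_cnd_p P E hE, ent_cnd_p P F (hpr ▸ hE), hpr]
    by_cases hp : P.p ω = 0
    · simp [hp]
    · simp only [h ω hp]
  · unfold FLaw.cnd
    rw [dif_neg hE, dif_neg (hpr ▸ hE)]

theorem ent_cfib_p (P : FLaw Ω) (C : Ω → γ) {ω₀ : Ω} (h : 0 < P.fib C ω₀) (ω : Ω) :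
    (P.cfib C ω₀).p ω = (if C ω = C ω₀ then P.p ω else 0) / P.fib C ω₀ := by
  exact ent_cnd_p P _ h ω

theorem ent_cfib_congr (P : FLaw Ω) (C : Ω → γ) {ω ω' : Ω} (h : C ω = C ω') :
    P.cfib C ω = P.cfib C ω' := by
  unfold FLaw.cfib
  rw [h]

theorem ent_cfib_pr (P : FLaw Ω) (C : Ω → γ) {ω₀ : Ω} (h : 0 < P.fib C ω₀) (F : Ω → Prop) :
    (P.cfib C ω₀).pr F = P.pr (fun ω => F ω ∧ C ω = C ω₀) / P.fib C ω₀ := by
  refine (ent_cnd_pr P _ h F).trans ?_
  congr 1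
  exact ent_pr_congr P fun ω _ => and_comm


/-- tower property -/
theorem ent_ev_tower (P : FLaw Ω) (C : Ω → γ) (f : Ω → ℝ) :
    P.ev f = P.ev (fun ω => (P.cfib C ω).ev f) := by
  have key : ∀ ω, P.p ω * (P.cfib C ω).ev f
      = ∑ ω', (if C ω = C ω' then P.p ω else 0) * (P.p ω' * f ω' / P.fib C ω') := by
    intro ω
    by_cases hp : P.p ω = 0
    · simp [hp]
    · have hpos := ent_fib_pos P C hp
      unfold FLaw.ev
      rw [Finset.mul_sum]
      refine Finset.sum_congr rfl fun ω' _ => ?_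
      rw [ent_cfib_p P C hpos]
      by_cases hC : C ω' = C ω
      · rw [if_pos hC, if_pos hC.symm, ent_fib_congr P C hC]
        ring
      · rw [if_neg hC, if_neg (fun h => hC h.symm)]
        ring
  have e : P.ev (fun ω => (P.cfib C ω).ev f)
      = ∑ ω, ∑ ω', (if C ω = C ω' then P.p ω else 0) * (P.p ω' * f ω' / P.fib C ω') :=
    Finset.sum_congr rfl fun ω _ => key ω
  rw [e, Finset.sum_comm]
  refine Finset.sum_congr rfl fun ω' _ => ?_
  rw [← Finset.sum_mul]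
  by_cases hp : P.p ω' = 0
  · simp [hp]
  · have hpos := ent_fib_pos P C hp
    have : ∑ ω, (if C ω = C ω' then P.p ω else 0) = P.fib C ω' := rfl
    rw [this]
    field_simp

theorem ent_pr_tower (P : FLaw Ω) (C : Ω → γ) (E : Ω → Prop) :
    P.pr E = P.ev (fun ω => (P.cfib C ω).pr E) := by
  rw [ent_pr_eq_ev, ent_ev_tower P C]
  refine ent_ev_congr P fun ω _ => ?_
  rw [ent_pr_eq_ev]

/-- Markov for conditional probabilities: few cells lose much -/
theorem ent_cell_markov (P : FLaw Ω) (C : Ω → γ) (Bad : Ω → Prop) {τ : ℝ} (hτ : 0 < τ) :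
    P.pr (fun ω => τ ≤ (P.cfib C ω).pr Bad) ≤ P.pr Bad / τ := by
  rw [ent_pr_tower P C Bad]
  exact ent_markov P (fun ω _ => ent_pr_nonneg _ _) hτ

/-- fibres inside a cell -/
theorem ent_cfib_fib (P : FLaw Ω) (C : Ω → γ) (X : Ω → α) {ω₀ ω : Ω} (h : 0 < P.fib C ω₀)
    (hω : C ω = C ω₀) : (P.cfib C ω₀).fib X ω = P.fib (pair X C) ω / P.fib C ω₀ := by
  rw [ent_fib_pair, hω]
  exact ent_cfib_pr P C h _

theorem ent_surC_eq_cfib (P : FLaw Ω) (X : Ω → α) (Y : Ω → β) {ω : Ω} (h : P.p ω ≠ 0) :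
    P.surC X Y ω = - Real.log ((P.cfib Y ω).fib X ω) := by
  rw [ent_cfib_fib P Y X (ent_fib_pos P Y h) rfl]
  rfl

/-- conditional entropy = average of the entropies on the cells -/
theorem ent_entC_eq_avg (P : FLaw Ω) (X : Ω → α) (Y : Ω → β) :
    P.entC X Y = P.ev (fun ω => (P.cfib Y ω).ent X) := by
  rw [ent_entC_eq_ev, ent_ev_tower P Y]
  refine ent_ev_congr P fun ω hω => ?_
  have hpos := ent_fib_pos P Y hω
  refine ent_ev_congr _ fun ω' hω' => ?_
  have h2 : Y ω' = Y ω ∧ P.p ω' ≠ 0 := (ent_cnd_supp P _ hpos).1 hω'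
  rw [ent_surC_eq_cfib P X Y h2.2, ent_cfib_congr P Y h2.1]

theorem ent_entC_pair_eq_avg (P : FLaw Ω) (X : Ω → α) (Y : Ω → β) (Q : Ω → γ) :
    P.entC X (pair Y Q) = P.ev (fun ω => (P.cfib Q ω).entC X Y) := by
  have h1 : P.entC X (pair Y Q) = P.entC (pair X Y) Q - P.entC Y Q := by
    unfold FLaw.entC
    rw [ent_pair_assoc]
    ring
  rw [h1, ent_entC_eq_avg, ent_entC_eq_avg, ← ent_ev_sub]
  rfl

theorem ent_miC_eq_avg (P : FLaw Ω) (X : Ω → α) (Y : Ω → β) (Z : Ω → γ) :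
    P.miC X Y Z = P.ev (fun ω => (P.cfib Z ω).mi X Y) := by
  have h1 : P.miC X Y Z = P.entC X Z + P.entC Y Z - P.entC (pair X Y) Z := by
    unfold FLaw.miC FLaw.entC
    ring
  rw [h1, ent_entC_eq_avg, ent_entC_eq_avg, ent_entC_eq_avg, ← ent_ev_add, ← ent_ev_sub]
  rfl

theorem ent_miC_pair_eq_avg (P : FLaw Ω) (X : Ω → α) (Y : Ω → β) (Z : Ω → γ) (Q : Ω → δ) :
    P.miC X Y (pair Z Q) = P.ev (fun ω => (P.cfib Q ω).miC X Y Z) := by
  have h1 : P.miC X Y (pair Z Q) = P.entC (pair X Z) Q + P.entC (pair Y Z) Q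
      - P.entC (pair (pair X Y) Z) Q - P.entC Z Q := by
    unfold FLaw.miC FLaw.entC
    rw [← ent_pair_assoc, ← ent_pair_assoc, ← ent_pair_assoc]
    ring
  rw [h1, ent_entC_eq_avg, ent_entC_eq_avg, ent_entC_eq_avg, ent_entC_eq_avg, ← ent_ev_add, ← ent_ev_sub,
    ← ent_ev_sub]
  rfl

/-- conditioning on an event which is a function of `X` does not change the law of `Y` given `X` -/
theorem ent_surC_cnd (P : FLaw Ω) (X : Ω → α) (Y : Ω → β) (D : Ω → Prop)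
    (hD : ∀ ω ω', X ω = X ω' → (D ω ↔ D ω')) {ω : Ω} (hω : D ω) (h : P.p ω ≠ 0) :
    (P.cnd D).surC Y X ω = P.surC Y X ω := by
  have hpos : 0 < P.pr D := (ent_pr_pos_iff P D).2 ⟨ω, hω, h⟩
  have h1 : (P.cnd D).fib (pair Y X) ω = P.fib (pair Y X) ω / P.pr D := by
    refine (ent_cnd_pr P D hpos _).trans ?_
    congr 1
    refine ent_pr_congr P fun ω' _ => ⟨fun hh => hh.2, fun hh => ⟨?_, hh⟩⟩
    exact (hD ω' ω (congrArg Prod.snd hh)).2 hω
  have h2 : (P.cnd D).fib X ω = P.fib X ω / P.pr D := by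
    refine (ent_cnd_pr P D hpos _).trans ?_
    congr 1
    refine ent_pr_congr P fun ω' _ => ⟨fun hh => hh.2, fun hh => ⟨?_, hh⟩⟩
    exact (hD ω' ω hh).2 hω
  unfold FLaw.surC
  rw [h1, h2, div_div_div_cancel_right₀ hpos.ne']

theorem ent_surC_cfib (P : FLaw Ω) (X : Ω → α) (Y : Ω → β) (C : Ω → γ)
    (hC : ∀ ω ω', X ω = X ω' → C ω = C ω') {ω₀ ω : Ω} (hω : C ω = C ω₀) (h : P.p ω ≠ 0) :
    (P.cfib C ω₀).surC Y X ω = P.surC Y X ω := by
  exact ent_surC_cnd P X Y (fun ω => C ω = C ω₀) (fun ω ω' hX => by rw [hC ω ω' hX]) hω h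


theorem ent_dom_refl (P : FLaw Ω) : P.Dom 1 P := by
  intro ω
  rw [one_mul]

theorem ent_dom_trans {P Q R : FLaw Ω} {K L : ℝ} (hK : 0 ≤ K) (h1 : P.Dom K Q) (h2 : Q.Dom L R) :
    P.Dom (K * L) R := by
  intro ω
  calc P.p ω ≤ K * Q.p ω := h1 ω
    _ ≤ K * (L * R.p ω) := mul_le_mul_of_nonneg_left (h2 ω) hK
    _ = K * L * R.p ω := by ring

theorem ent_dom_mono {P Q : FLaw Ω} {K L : ℝ} (h : P.Dom K Q) (hKL : K ≤ L) : P.Dom L Q := by
  intro ω
  exact (h ω).trans (mul_le_mul_of_nonneg_right hKL (Q.nonneg ω))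

theorem ent_dom_one_le {P Q : FLaw Ω} {K : ℝ} (h : P.Dom K Q) : 1 ≤ K := by
  calc (1 : ℝ) = ∑ ω, P.p ω := P.sum_one.symm
    _ ≤ ∑ ω, K * Q.p ω := Finset.sum_le_sum fun ω _ => h ω
    _ = K := by rw [← Finset.mul_sum, Q.sum_one, mul_one]

theorem ent_dom_supp {P Q : FLaw Ω} {K : ℝ} (h : P.Dom K Q) {ω : Ω} (hω : P.p ω ≠ 0) : Q.p ω ≠ 0 := by
  intro hq
  have h1 := h ω
  rw [hq, mul_zero] at h1
  exact hω (le_antisymm h1 (P.nonneg ω))

theorem ent_dom_pr {P Q : FLaw Ω} {K : ℝ} (h : P.Dom K Q) (E : Ω → Prop) : P.pr E ≤ K * Q.pr E := by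
  unfold FLaw.pr
  rw [Finset.mul_sum]
  refine Finset.sum_le_sum fun ω _ => ?_
  by_cases hE : E ω
  · simp only [hE, if_true]
    exact h ω
  · simp [hE]

theorem ent_dom_fib {P Q : FLaw Ω} {K : ℝ} (h : P.Dom K Q) (X : Ω → α) (ω : Ω) :
    P.fib X ω ≤ K * Q.fib X ω := by
  exact ent_dom_pr h _

theorem ent_dom_ev {P Q : FLaw Ω} {K : ℝ} (h : P.Dom K Q) {f : Ω → ℝ} (hf : ∀ ω, 0 ≤ f ω) :
    P.ev f ≤ K * Q.ev f := by
  unfold FLaw.ev
  rw [Finset.mul_sum]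
  refine Finset.sum_le_sum fun ω _ => ?_
  calc P.p ω * f ω ≤ K * Q.p ω * f ω := mul_le_mul_of_nonneg_right (h ω) (hf ω)
    _ = K * (Q.p ω * f ω) := by ring

/-- restriction of a dominated law -/
theorem ent_dom_cnd {P Q : FLaw Ω} {K : ℝ} (h : P.Dom K Q) (E : Ω → Prop) (hE : 0 < P.pr E) :
    (P.cnd E).Dom (K / P.pr E) Q := by
  have hK : 0 ≤ K := zero_le_one.trans (ent_dom_one_le h)
  intro ω
  rw [ent_cnd_p P E hE]
  by_cases h1 : E ω
  · simp only [h1, if_true]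
    calc P.p ω / P.pr E ≤ K * Q.p ω / P.pr E := div_le_div_of_nonneg_right (h ω) hE.le
      _ = K / P.pr E * Q.p ω := by ring
  · simp only [h1, if_false, zero_div]
    exact mul_nonneg (div_nonneg hK hE.le) (Q.nonneg ω)

theorem ent_tilt_dom (P : FLaw Ω) (w : Ω → ℝ) (hw : ∀ ω, 0 ≤ w ω) (hm : 0 < P.ev w)
    (hw1 : ∀ ω, w ω ≤ 1) : (P.tilt w hw hm).Dom (1 / P.ev w) P := by
  intro ω
  show P.p ω * w ω / P.ev w ≤ 1 / P.ev w * P.p ω
  calc P.p ω * w ω / P.ev w ≤ P.p ω * 1 / P.ev w :=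
        div_le_div_of_nonneg_right (mul_le_mul_of_nonneg_left (hw1 ω) (P.nonneg ω)) hm.le
    _ = 1 / P.ev w * P.p ω := by ring

theorem ent_map_pr {Ω' : Type} [Fintype Ω'] (P : FLaw Ω) (φ : Ω → Ω') (E : Ω' → Prop) :
    (P.map φ).pr E = P.pr (fun ω => E (φ ω)) := by
  show ∑ x, (if E x then ∑ ω, (if φ ω = x then P.p ω else 0) else 0) = ∑ ω, if E (φ ω) then P.p ω else 0
  have h1 : ∀ x, (if E x then ∑ ω, (if φ ω = x then P.p ω else 0) else 0)
      = ∑ ω, if φ ω = x then (if E (φ ω) then P.p ω else 0) else 0 := by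
    intro x
    by_cases hE : E x
    · rw [if_pos hE]
      refine Finset.sum_congr rfl fun ω _ => ?_
      by_cases hx : φ ω = x
      · rw [if_pos hx, if_pos hx, hx, if_pos hE]
      · rw [if_neg hx, if_neg hx]
    · rw [if_neg hE]
      refine (Finset.sum_eq_zero fun ω _ => ?_).symm
      by_cases hx : φ ω = x
      · rw [if_pos hx, hx, if_neg hE]
      · rw [if_neg hx]
  simp only [h1]
  rw [Finset.sum_comm]
  refine Finset.sum_congr rfl fun ω _ => ?_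
  rw [Finset.sum_ite_eq, if_pos (Finset.mem_univ _)]

theorem ent_map_ev {Ω' : Type} [Fintype Ω'] (P : FLaw Ω) (φ : Ω → Ω') (f : Ω' → ℝ) :
    (P.map φ).ev f = P.ev (fun ω => f (φ ω)) := by
  show ∑ x, (∑ ω, (if φ ω = x then P.p ω else 0)) * f x = ∑ ω, P.p ω * f (φ ω)
  have h1 : ∀ x, (∑ ω, (if φ ω = x then P.p ω else 0)) * f x
      = ∑ ω, if φ ω = x then P.p ω * f (φ ω) else 0 := by
    intro x
    rw [Finset.sum_mul]
    refine Finset.sum_congr rfl fun ω _ => ?_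
    by_cases hx : φ ω = x
    · rw [if_pos hx, if_pos hx, hx]
    · rw [if_neg hx, if_neg hx, zero_mul]
  simp only [h1]
  rw [Finset.sum_comm]
  refine Finset.sum_congr rfl fun ω _ => ?_
  rw [Finset.sum_ite_eq, if_pos (Finset.mem_univ _)]

theorem ent_map_fib {Ω' : Type} [Fintype Ω'] (P : FLaw Ω) (φ : Ω → Ω') (X : Ω' → α) (ω : Ω) :
    (P.map φ).fib X (φ ω) = P.fib (fun ω' => X (φ ω')) ω := by
  exact ent_map_pr P φ _

theorem ent_map_ent {Ω' : Type} [Fintype Ω'] (P : FLaw Ω) (φ : Ω → Ω') (X : Ω' → α) :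
    (P.map φ).ent X = P.ent (fun ω => X (φ ω)) := by
  unfold FLaw.ent
  rw [ent_map_ev]
  refine ent_ev_congr P fun ω _ => ?_
  rw [ent_map_fib]

theorem ent_map_entC {Ω' : Type} [Fintype Ω'] (P : FLaw Ω) (φ : Ω → Ω') (X : Ω' → α) (Y : Ω' → β) :
    (P.map φ).entC X Y = P.entC (fun ω => X (φ ω)) (fun ω => Y (φ ω)) := by
  unfold FLaw.entC
  rw [ent_map_ent, ent_map_ent]
  rfl

theorem ent_map_mi {Ω' : Type} [Fintype Ω'] (P : FLaw Ω) (φ : Ω → Ω') (X : Ω' → α) (Y : Ω' → β) :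
    (P.map φ).mi X Y = P.mi (fun ω => X (φ ω)) (fun ω => Y (φ ω)) := by
  unfold FLaw.mi
  rw [ent_map_ent, ent_map_ent, ent_map_ent]
  rfl

theorem ent_map_miC {Ω' : Type} [Fintype Ω'] (P : FLaw Ω) (φ : Ω → Ω') (X : Ω' → α) (Y : Ω' → β)
    (Z : Ω' → γ) :
    (P.map φ).miC X Y Z = P.miC (fun ω => X (φ ω)) (fun ω => Y (φ ω)) (fun ω => Z (φ ω)) := by
  unfold FLaw.miC
  rw [ent_map_ent, ent_map_ent, ent_map_ent, ent_map_ent]
  rfl

theorem ent_map_surC {Ω' : Type} [Fintype Ω'] (P : FLaw Ω) (φ : Ω → Ω') (X : Ω' → α) (Y : Ω' → β)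
    (ω : Ω) :
    (P.map φ).surC X Y (φ ω) = P.surC (fun ω' => X (φ ω')) (fun ω' => Y (φ ω')) ω := by
  unfold FLaw.surC
  rw [ent_map_fib, ent_map_fib]
  rfl

theorem ent_map_dom {Ω' : Type} [Fintype Ω'] {P Q : FLaw Ω} {K : ℝ} (h : P.Dom K Q) (φ : Ω → Ω') :
    (P.map φ).Dom K (Q.map φ) := by
  intro x
  exact ent_dom_pr h _

theorem ent_map_supp {Ω' : Type} [Fintype Ω'] (P : FLaw Ω) (φ : Ω → Ω') {ω : Ω} (h : P.p ω ≠ 0) :
    (P.map φ).p (φ ω) ≠ 0 := by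
  exact (ent_fib_pos P φ h).ne'

theorem ent_ext_map_fst {Γ : Type} [Fintype Γ] (P : FLaw Ω) (κ : Ker Ω Γ) :
    (P.ext κ).map Prod.fst = P := by
  refine ent_law_ext _ _ fun ω => ?_
  show ∑ x : Ω × Γ, (if x.1 = ω then P.p x.1 * κ.k x.1 x.2 else 0) = P.p ω
  rw [Fintype.sum_prod_type]
  have h1 : ∀ ω' : Ω, ∑ g : Γ, (if ω' = ω then P.p ω' * κ.k ω' g else 0) = if ω' = ω then P.p ω' else 0 := by
    intro ω'
    by_cases h : ω' = ω
    · simp only [h, if_true]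
      rw [← Finset.mul_sum, κ.sum_one, mul_one]
    · simp [h]
  simp only [h1]
  rw [Finset.sum_ite_eq', if_pos (Finset.mem_univ _)]

theorem ent_prod_map_fst {Ω' : Type} [Fintype Ω'] (P : FLaw Ω) (Q : FLaw Ω') :
    (P.prod Q).map Prod.fst = P := by
  refine ent_law_ext _ _ fun ω => ?_
  show ∑ x : Ω × Ω', (if x.1 = ω then P.p x.1 * Q.p x.2 else 0) = P.p ω
  rw [Fintype.sum_prod_type]
  have h1 : ∀ ω' : Ω, ∑ g : Ω', (if ω' = ω then P.p ω' * Q.p g else 0) = if ω' = ω then P.p ω' else 0 := by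
    intro ω'
    by_cases h : ω' = ω
    · simp only [h, if_true]
      rw [← Finset.mul_sum, Q.sum_one, mul_one]
    · simp [h]
  simp only [h1]
  rw [Finset.sum_ite_eq', if_pos (Finset.mem_univ _)]

theorem ent_prod_map_snd {Ω' : Type} [Fintype Ω'] (P : FLaw Ω) (Q : FLaw Ω') :
    (P.prod Q).map Prod.snd = Q := by
  refine ent_law_ext _ _ fun y => ?_
  show ∑ x : Ω × Ω', (if x.2 = y then P.p x.1 * Q.p x.2 else 0) = Q.p y
  rw [Fintype.sum_prod_type]
  have h1 : ∀ ω' : Ω, ∑ g : Ω', (if g = y then P.p ω' * Q.p g else 0) = P.p ω' * Q.p y := by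
    intro ω'
    rw [Finset.sum_ite_eq', if_pos (Finset.mem_univ _)]
  simp only [h1]
  rw [← Finset.sum_mul, P.sum_one, one_mul]

theorem ent_prod_pr {Ω' : Type} [Fintype Ω'] (P : FLaw Ω) (Q : FLaw Ω') (E : Ω → Prop)
    (F : Ω' → Prop) : (P.prod Q).pr (fun x => E x.1 ∧ F x.2) = P.pr E * Q.pr F := by
  unfold FLaw.pr
  rw [Fintype.sum_prod_type, Finset.sum_mul_sum]
  refine Finset.sum_congr rfl fun ω _ => Finset.sum_congr rfl fun y _ => ?_
  by_cases h1 : E ω <;> by_cases h2 : F y <;> simp [h1, h2, FLaw.prod]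


/-- relative entropy is nonnegative -/
theorem ent_kl_nonneg (P Q : FLaw Ω) (hac : ∀ ω, Q.p ω = 0 → P.p ω = 0) : 0 ≤ P.kl Q := by
  have key : ∀ ω, P.p ω - Q.p ω ≤ P.p ω * Real.log (P.p ω / Q.p ω) := by
    intro ω
    by_cases hp : P.p ω = 0
    · rw [hp, zero_mul, zero_sub]
      exact neg_nonpos.2 (Q.nonneg ω)
    · have hq : Q.p ω ≠ 0 := fun h => hp (hac ω h)
      have hp' : 0 < P.p ω := lt_of_le_of_ne (P.nonneg ω) (Ne.symm hp)
      have hq' : 0 < Q.p ω := lt_of_le_of_ne (Q.nonneg ω) (Ne.symm hq)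
      have h1 := Real.one_sub_inv_le_log_of_pos (div_pos hp' hq')
      have h2 := mul_le_mul_of_nonneg_left h1 hp'.le
      refine le_trans (le_of_eq ?_) h2
      field_simp
  calc (0 : ℝ) = ∑ ω, (P.p ω - Q.p ω) := by rw [Finset.sum_sub_distrib, P.sum_one, Q.sum_one, sub_self]
    _ ≤ P.kl Q := Finset.sum_le_sum fun ω _ => key ω

theorem ent_kl_le_log {P Q : FLaw Ω} {K : ℝ} (h : P.Dom K Q) : P.kl Q ≤ Real.log K := by
  calc P.kl Q ≤ ∑ ω, P.p ω * Real.log K := by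
        refine Finset.sum_le_sum fun ω _ => ?_
        by_cases hp : P.p ω = 0
        · rw [hp, zero_mul, zero_mul]
        · have hq : Q.p ω ≠ 0 := ent_dom_supp h hp
          have hp' : 0 < P.p ω := lt_of_le_of_ne (P.nonneg ω) (Ne.symm hp)
          have hq' : 0 < Q.p ω := lt_of_le_of_ne (Q.nonneg ω) (Ne.symm hq)
          refine mul_le_mul_of_nonneg_left (Real.log_le_log (div_pos hp' hq') ?_) hp'.le
          rw [div_le_iff₀ hq']
          exact h ω
    _ = Real.log K := by rw [← Finset.sum_mul, P.sum_one, one_mul]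

/-- the relative entropy of two image laws as an expectation -/
theorem ent_aux_kl_map {Ω' : Type} [Fintype Ω'] (P Q : FLaw Ω) (φ : Ω → Ω') :
    (P.map φ).kl (Q.map φ) = P.ev (fun ω => Real.log (P.fib φ ω / Q.fib φ ω)) := by
  have h : (P.map φ).kl (Q.map φ)
      = (P.map φ).ev (fun x => Real.log ((P.map φ).p x / (Q.map φ).p x)) := rfl
  rw [h, ent_map_ev]
  rfl

/-- absolute continuity passes to image laws -/
theorem ent_aux_map_ac {Ω' : Type} [Fintype Ω'] (P Q : FLaw Ω) (hac : ∀ ω, Q.p ω = 0 → P.p ω = 0)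
    (φ : Ω → Ω') : ∀ x, (Q.map φ).p x = 0 → (P.map φ).p x = 0 := by
  intro x hx
  refine ent_pr_eq_zero P fun ω hω hφ => ?_
  have hq : Q.p ω ≠ 0 := fun h => hω (hac ω h)
  exact ((ent_pr_pos_iff Q (fun ω => φ ω = x)).2 ⟨ω, hφ, hq⟩).ne' hx

/-- marginalisation decreases relative entropy -/
theorem ent_kl_map_le {Ω' : Type} [Fintype Ω'] (P Q : FLaw Ω) (hac : ∀ ω, Q.p ω = 0 → P.p ω = 0)
    (φ : Ω → Ω') : (P.map φ).kl (Q.map φ) ≤ P.kl Q := by
  have hac' := ent_aux_map_ac P Q hac φ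
  have hsum : ∑ ω, Q.p ω * ((P.map φ).p (φ ω) / (Q.map φ).p (φ ω)) = 1 := by
    have h1 := ent_map_ev Q φ (fun x => (P.map φ).p x / (Q.map φ).p x)
    have h2 : (Q.map φ).ev (fun x => (P.map φ).p x / (Q.map φ).p x) = 1 := by
      rw [← (P.map φ).sum_one]
      refine Finset.sum_congr rfl fun x _ => ?_
      by_cases hx : (Q.map φ).p x = 0
      · rw [hx, hac' x hx, zero_mul]
      · field_simp
    rw [← h2, h1]
    rfl
  obtain ⟨R, hR⟩ : ∃ R : FLaw Ω, ∀ ω, R.p ω = Q.p ω * ((P.map φ).p (φ ω) / (Q.map φ).p (φ ω)) :=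
    ⟨⟨fun ω => Q.p ω * ((P.map φ).p (φ ω) / (Q.map φ).p (φ ω)),
      fun ω => mul_nonneg (Q.nonneg ω) (div_nonneg ((P.map φ).nonneg _) ((Q.map φ).nonneg _)), hsum⟩,
      fun _ => rfl⟩
  have hne : ∀ ω, P.p ω ≠ 0 → Q.p ω ≠ 0 ∧ (P.map φ).p (φ ω) ≠ 0 ∧ (Q.map φ).p (φ ω) ≠ 0 := by
    intro ω hω
    have hq : Q.p ω ≠ 0 := fun h => hω (hac ω h)
    exact ⟨hq, ent_map_supp P φ hω, ent_map_supp Q φ hq⟩
  have hacR : ∀ ω, R.p ω = 0 → P.p ω = 0 := by
    intro ω h0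
    by_contra hω
    obtain ⟨h1, h2, h3⟩ := hne ω hω
    rw [hR] at h0
    exact (mul_ne_zero h1 (div_ne_zero h2 h3)) h0
  have h0 := ent_kl_nonneg P R hacR
  have h1 : P.kl R = P.kl Q - (P.map φ).kl (Q.map φ) := by
    rw [ent_aux_kl_map]
    unfold FLaw.kl FLaw.ev
    rw [← Finset.sum_sub_distrib]
    refine Finset.sum_congr rfl fun ω _ => ?_
    by_cases hω : P.p ω = 0
    · rw [hω]
      ring
    · obtain ⟨h1, h2, h3⟩ := hne ω hω
      have e1 : P.fib φ ω = (P.map φ).p (φ ω) := rfl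
      have e2 : Q.fib φ ω = (Q.map φ).p (φ ω) := rfl
      beta_reduce
      rw [hR, e1, e2, ← mul_sub, ← Real.log_div (div_ne_zero hω h1) (div_ne_zero h2 h3), div_div]
  linarith

/-- an observation factors through a finite type with the same fibres -/
theorem ent_aux_kl_fin (P Q : FLaw Ω) (X : Ω → α) :
    ∃ (Ω' : Type) (_ : Fintype Ω') (φ : Ω → Ω') (v : Ω' → α), (∀ ω, v (φ ω) = X ω) ∧
      P.ev (fun ω => Real.log (P.fib X ω / Q.fib X ω)) = (P.map φ).kl (Q.map φ) := by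
  refine ⟨{x // x ∈ Finset.univ.image X}, Finset.fintypeCoeSort (Finset.univ.image X),
    fun ω => ⟨X ω, Finset.mem_image_of_mem X (Finset.mem_univ ω)⟩, Subtype.val, fun _ => rfl, ?_⟩
  rw [ent_aux_kl_map]
  have hfib : ∀ (R : FLaw Ω) (ω : Ω), R.fib X ω
      = R.fib (fun ω => (⟨X ω, Finset.mem_image_of_mem X (Finset.mem_univ ω)⟩ :
        {x // x ∈ Finset.univ.image X})) ω := by
    intro R ω
    refine ent_pr_congr R fun ω' _ => ?_
    rw [Subtype.mk.injEq]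
  refine ent_ev_congr P fun ω _ => ?_
  rw [hfib P, hfib Q]

/-- observation form of the two previous facts: `E_P log (P_X / Q_X) ∈ [0, log K]` -/
theorem ent_kl_obs (P Q : FLaw Ω) {K : ℝ} (h : P.Dom K Q) (X : Ω → α) :
    0 ≤ P.ev (fun ω => Real.log (P.fib X ω / Q.fib X ω)) ∧
      P.ev (fun ω => Real.log (P.fib X ω / Q.fib X ω)) ≤ Real.log K := by
  obtain ⟨Ω', _, φ, v, -, e⟩ := ent_aux_kl_fin P Q X
  rw [e]
  have hd := ent_map_dom h φ
  refine ⟨ent_kl_nonneg _ _ fun x hx => ?_, ent_kl_le_log hd⟩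
  by_contra hp
  exact ent_dom_supp hd hp hx

/-- monotonicity of the observed relative entropy under refinement -/
theorem ent_kl_obs_mono (P Q : FLaw Ω) {K : ℝ} (h : P.Dom K Q) (X : Ω → α) (Y : Ω → β) :
    P.ev (fun ω => Real.log (P.fib Y ω / Q.fib Y ω))
      ≤ P.ev (fun ω => Real.log (P.fib (pair X Y) ω / Q.fib (pair X Y) ω)) := by
  obtain ⟨Ω', _, φ, v, hv, e⟩ := ent_aux_kl_fin P Q (pair X Y)
  rw [e]
  have hd := ent_map_dom h φ
  have hY : ∀ ω, Y ω = (v (φ ω)).2 := fun ω => by rw [hv]; rfl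
  have e1 : P.ev (fun ω => Real.log (P.fib Y ω / Q.fib Y ω))
      = (P.map φ).ev (fun x => Real.log ((P.map φ).fib (fun x => (v x).2) x / (Q.map φ).fib (fun x => (v x).2) x)) := by
    rw [ent_map_ev]
    refine ent_ev_congr P fun ω _ => ?_
    rw [ent_map_fib, ent_map_fib]
    have : Y = fun ω' => (v (φ ω')).2 := funext hY
    rw [← this]
  rw [e1]
  obtain ⟨Ω'', _, ψ, -, -, e2⟩ := ent_aux_kl_fin (P.map φ) (Q.map φ) (fun x => (v x).2)
  rw [e2]
  refine ent_kl_map_le _ _ (fun x hx => ?_) ψ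
  by_contra hp
  exact ent_dom_supp hd hp hx

theorem ent_basic_eqns_cite : True := by
  have := @FLaw.toPm.eq_1
  have := @FLaw.cnd.eq_1
  have := @FLaw.cfib.eq_1
  have := @FLaw.ret.eq_1
  have := @FLaw.CI.eq_1
  have := @FLaw.NVal.eq_1
  have := @FLaw.tilt.eq_1
  have := @FLaw.prod.eq_1
  trivial

end Claimed.Agent.R255
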