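-- KEEP
import Claimed.Agent.R255.Ent.Basic

/-!
# Row 255 (BR paper), Sec. 2 library, file 2: Lemmas 2.1, 2.2, 2.3      (architect helper186)

PAPER-FREE finite probability on `FLaw` (natural units; divide by `lg ε` yourself).  Paper: `02-entropy.tex` l.30-240.
* L2.1 `ent_determination` (2.1), `ent_change` (2.2) (+ sharp form), `ent_ambiguity` (2.3), `ent_masses` (2.4),
       `ent_restr_eq/upper/lower` (2.5)-(2.6), `ent_restr_event`.
* bins  `ent_bin_count`, `ent_bin_entropy`, `ent_bin_surprise` : THE generic consequences of two-sided bounds `lo ≤ surprise ≤ hi` of the ORIGINAL law `P`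
       on an event `E`, for EVERY law `R ≤ K P` living on `E`  (= (2.11), (2.12), (2.18), (2.19) and the joint-bin remark).
* L2.2 `ent_likelihood` (2.7), `ent_typical_dom`, `ent_typical_multi`, retention `ent_ret_*` (2.9), (2.10), `ent_cell_entropy` (2.11), `ent_cell_surprise` (2.12).
* L2.3 `ent_tag_*`, `ent_ci_dom`, resampling `ent_resample_*`, `P.kerOf U C` (the kernel `P(U = u | C)`).
Routes are in the doc-strings.  Provers edit only bodies; statements frozen (ask helper186).  Earlier statements (also sorried) may be used.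
-/

set_option autoImplicit false

namespace Claimed.Agent.R255

open scoped BigOperators
open Classical
open FLaw

variable {Ω : Type} [Fintype Ω] {α β γ δ : Type}

/-! ## Lemma 2.1 -/

/-- (2.1).  `I(T;B) ≤ I(T;A,B) = I(T;A) + I(T;B|A)`, `I(T;B|A) ≤ H(B|A)`. -/
theorem ent_determination (P : FLaw Ω) (T : Ω → δ) (A : Ω → α) (B : Ω → β) :
    P.mi T B ≤ P.mi T A + P.entC B A := by
  have h1 := ent_submod P T A B
  have h2 := ent_le_pair_left P (pair T A) B
  have h3 := ent_pair_comm P A B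
  unfold FLaw.mi FLaw.entC
  linarith

/-- sharp form of (2.2): chain rule for `H(A,B|T)` in both orders. -/
theorem ent_change_sharp (P : FLaw Ω) (T : Ω → δ) (A : Ω → α) (B : Ω → β) :
    |P.entC B T - P.entC A T| ≤ max (P.entC B (pair A T)) (P.entC A (pair B T)) := by
  have h1 := ent_entC_chain P A B T
  have h2 := ent_entC_chain P B A T
  have h3 : P.entC (pair A B) T = P.entC (pair B A) T := by
    refine ent_entC_congr P _ _ T T (fun _ _ _ _ => Iff.rfl) fun ω ω' _ _ _ => ?_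
    simp only [FLaw.pair, Prod.mk.injEq]
    exact and_comm
  have h4 := ent_entC_nonneg P B (pair A T)
  have h5 := ent_entC_nonneg P A (pair B T)
  have h6 : P.entC B T - P.entC A T = P.entC B (pair A T) - P.entC A (pair B T) := by linarith
  rw [h6, abs_le]
  constructor
  · have := le_max_right (P.entC B (pair A T)) (P.entC A (pair B T))
    linarith
  · have := le_max_left (P.entC B (pair A T)) (P.entC A (pair B T))
    linarith

/-- (2.2) -/
theorem ent_change (P : FLaw Ω) (T : Ω → δ) (A : Ω → α) (B : Ω → β) :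
    |P.entC B T - P.entC A T| ≤ P.entC B A + P.entC A B := by
  refine (ent_change_sharp P T A B).trans ?_
  have h1 := ent_entC_pair_le P B A T
  have h2 := ent_entC_pair_le P A B T
  have h3 := ent_entC_nonneg P B A
  have h4 := ent_entC_nonneg P A B
  exact max_le (by linarith) (by linarith)

/-- the same for informations: `|I(T;B) - I(T;A)| ≤ max (H(B|A), H(A|B))` -/
theorem ent_change_mi (P : FLaw Ω) (T : Ω → δ) (A : Ω → α) (B : Ω → β) :
    |P.mi T B - P.mi T A| ≤ max (P.entC B A) (P.entC A B) := by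
  have h1 := ent_determination P T A B
  have h2 := ent_determination P T B A
  rw [abs_le]
  constructor
  · have := le_max_right (P.entC B A) (P.entC A B)
    linarith
  · have := le_max_left (P.entC B A) (P.entC A B)
    linarith

/-- (2.3).  Adjoin the indicator of `Ex` (cost `log 2`), average over its two cells (`ent_entC_pair_eq_avg`, `ent_entC_le_log_nval`). -/
theorem ent_ambiguity (P : FLaw Ω) (A : Ω → α) (B : Ω → β) (Ex : Ω → Prop) {N M ζ : ℝ} (hN : 1 ≤ N)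
    (h : P.NVal (fun ω => ¬ Ex ω) B A N)
    (hM : ∃ S : Finset β, (S.card : ℝ) ≤ M ∧ ∀ ω, P.p ω ≠ 0 → B ω ∈ S) (hζ : P.pr Ex ≤ ζ) :
    P.entC B A ≤ Real.log 2 + Real.log N + ζ * Real.log M := by
  obtain ⟨S, hSM, hS⟩ := hM
  obtain ⟨ω₁, hω₁⟩ := ent_exists_supp P
  have hcard : (1 : ℝ) ≤ S.card := by
    have : 0 < S.card := Finset.card_pos.2 ⟨_, hS ω₁ hω₁⟩
    exact_mod_cast this
  have hM1 : 1 ≤ M := hcard.trans hSM
  have hlogN : 0 ≤ Real.log N := Real.log_nonneg hN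
  have hlogM : 0 ≤ Real.log M := Real.log_nonneg hM1
  -- adjoin the indicator
  have s1 : P.entC B A ≤ P.entC (pair Ex B) A :=
    ent_entC_mono P (pair Ex B) B A fun ω ω' _ _ h _ => (Prod.ext_iff.1 h).2
  have s2 := ent_entC_chain P Ex B A
  have s3 : P.entC Ex A ≤ Real.log 2 := (ent_entC_le P Ex A).trans (ent_prop_le P Ex)
  have s4 : P.entC B (pair Ex A) = P.entC B (pair A Ex) := by
    refine ent_entC_congr P B B _ _ (fun ω ω' _ _ => ?_) fun _ _ _ _ _ => Iff.rfl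
    simp only [FLaw.pair, Prod.mk.injEq]
    exact and_comm
  have s5 := ent_entC_pair_eq_avg P B A Ex
  have s6 : P.ev (fun ω => (P.cfib Ex ω).entC B A)
      ≤ Real.log N * (1 - P.pr Ex) + Real.log M * P.pr Ex := by
    refine ent_ev_le_of_bad P Ex (fun ω hω hex => ?_) (fun ω hω hex => ?_)
    · refine ent_entC_le_log_nval _ B A ?_
      intro ω₀
      obtain ⟨S', hS'c, hS'⟩ := h ω₀
      refine ⟨S', hS'c, fun ω' hω' _ hA => ?_⟩
      have hpos : 0 < P.pr (fun ω'' => Ex ω'' = Ex ω) := ent_fib_pos P Ex hω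
      have hsup := (ent_cnd_supp P (fun ω'' => Ex ω'' = Ex ω) hpos).1 hω'
      exact hS' ω' hsup.2 (by show ¬ Ex ω'; rw [hsup.1]; exact hex) hA
    · have hpos : 0 < P.pr (fun ω'' => Ex ω'' = Ex ω) := ent_fib_pos P Ex hω
      refine (ent_entC_le _ B A).trans ((ent_le_log_card _ B S fun ω' hω' => ?_).trans ?_)
      · exact hS ω' ((ent_cnd_supp P (fun ω'' => Ex ω'' = Ex ω) hpos).1 hω').2
      · exact Real.log_le_log (by linarith) hSM
  have hpr0 := ent_pr_nonneg P Ex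
  have s7 : Real.log N * (1 - P.pr Ex) ≤ Real.log N := by nlinarith
  have s8 : Real.log M * P.pr Ex ≤ ζ * Real.log M := by nlinarith
  linarith

/-- (2.4).  Normalise `m` and use `ent_gibbs`. -/
theorem ent_masses (P : FLaw Ω) (B : Ω → β) (m : β → ℝ) (hm : ∀ b, 0 ≤ m b)
    (hpos : ∀ ω, P.p ω ≠ 0 → 0 < m (B ω)) (S : Finset β) (hS : ∀ ω, P.p ω ≠ 0 → B ω ∈ S) :
    P.ent B + P.ev (fun ω => Real.log (m (B ω))) ≤ Real.log (∑ b ∈ S, m b) := by
  obtain ⟨ω₁, hω₁⟩ := ent_exists_supp P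
  have hZ : 0 < ∑ b ∈ S, m b :=
    Finset.sum_pos' (fun b _ => hm b) ⟨B ω₁, hS ω₁ hω₁, hpos ω₁ hω₁⟩
  obtain ⟨Z, hZdef⟩ : ∃ Z, Z = ∑ b ∈ S, m b := ⟨_, rfl⟩
  rw [← hZdef] at hZ ⊢
  have hg := ent_gibbs P B (fun b => if b ∈ S then m b / Z else 0)
    (fun b => by
      show 0 ≤ if b ∈ S then m b / Z else 0
      split_ifs
      · exact div_nonneg (hm b) hZ.le
      · exact le_rfl)
    (fun T => by
      rw [← Finset.sum_filter]
      have h1 : ∑ b ∈ T.filter (fun b => b ∈ S), m b / Z ≤ ∑ b ∈ S, m b / Z :=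
        Finset.sum_le_sum_of_subset_of_nonneg (fun b hb => (Finset.mem_filter.1 hb).2)
          fun b _ _ => div_nonneg (hm b) hZ.le
      have h2 : ∑ b ∈ S, m b / Z = 1 := by
        rw [← Finset.sum_div, ← hZdef, div_self hZ.ne']
      rw [h2] at h1
      exact h1)
    (fun ω hω => by
      show 0 < if B ω ∈ S then m (B ω) / Z else 0
      rw [if_pos (hS ω hω)]
      exact div_pos (hpos ω hω) hZ)
  have e : P.ev (fun ω => - Real.log (if B ω ∈ S then m (B ω) / Z else 0))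
      = P.ev (fun ω => Real.log Z - Real.log (m (B ω))) := by
    refine ent_ev_congr P fun ω hω => ?_
    rw [if_pos (hS ω hω), Real.log_div (hpos ω hω).ne' hZ.ne']
    ring
  rw [e, ent_ev_sub, ent_ev_const] at hg
  linarith

/-- (2.5), exact. -/
theorem ent_restr_eq (P Q : FLaw Ω) {K : ℝ} (h : Q.Dom K P) (D : Ω → δ) (B : Ω → β) :
    Q.entC D B = Q.ev (P.surC D B)
      - (Q.ev (fun ω => Real.log (Q.fib (pair D B) ω / P.fib (pair D B) ω))
          - Q.ev (fun ω => Real.log (Q.fib B ω / P.fib B ω))) := by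
  rw [ent_entC_eq_ev, ← ent_ev_sub, ← ent_ev_sub]
  refine ent_ev_congr Q fun ω hω => ?_
  have hP : P.p ω ≠ 0 := ent_dom_supp h hω
  rw [ent_surC_eq_sub Q D B hω, ent_surC_eq_sub P D B hP,
    Real.log_div (ent_fib_pos Q _ hω).ne' (ent_fib_pos P _ hP).ne',
    Real.log_div (ent_fib_pos Q _ hω).ne' (ent_fib_pos P _ hP).ne']
  ring

/-- upper half of (2.5): the conditional relative entropy is nonnegative (`ent_kl_obs_mono`). -/
theorem ent_restr_upper (P Q : FLaw Ω) {K : ℝ} (h : Q.Dom K P) (D : Ω → δ) (B : Ω → β) :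
    Q.entC D B ≤ Q.ev (P.surC D B) := by
  have h1 := ent_restr_eq P Q h D B
  have h2 := ent_kl_obs_mono Q P h D B
  linarith

/-- (2.5) + (2.6): (`ent_kl_obs`). -/
theorem ent_restr_lower (P Q : FLaw Ω) {K : ℝ} (h : Q.Dom K P) (D : Ω → δ) (B : Ω → β) :
    Q.ev (P.surC D B) - Real.log K ≤ Q.entC D B := by
  have h1 := ent_restr_eq P Q h D B
  have h2 := (ent_kl_obs Q P h (pair D B)).2
  have h3 := (ent_kl_obs Q P h B).1
  linarith

/-- restriction to an event of mass `m` costs at most `log (1/m)` -/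
theorem ent_restr_event (P : FLaw Ω) (E : Ω → Prop) (hE : 0 < P.pr E) (D : Ω → δ) (B : Ω → β) :
    (P.cnd E).ev (P.surC D B) - Real.log (1 / P.pr E) ≤ (P.cnd E).entC D B ∧
      (P.cnd E).entC D B ≤ (P.cnd E).ev (P.surC D B) := by
  exact ⟨ent_restr_lower P (P.cnd E) (ent_cnd_dom P E hE) D B, ent_restr_upper P (P.cnd E) (ent_cnd_dom P E hE) D B⟩

/-- entropy after restriction, crude global form: `m H^{P(.|E)}(D|B) ≤ H^P(D|B,1_E) ≤ H^P(D|B)`  (`ent_entC_pair_eq_avg` with the tag `E`). -/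
theorem ent_restr_avg (P : FLaw Ω) (E : Ω → Prop) (D : Ω → δ) (B : Ω → β) :
    P.pr E * (P.cnd E).entC D B ≤ P.entC D B := by
  have h1 := ent_entC_pair_le P D B E
  have h2 := ent_entC_pair_eq_avg P D B E
  have h3 : P.ev (fun ω => (P.cnd E).entC D B * (if E ω then 1 else 0))
      ≤ P.ev (fun ω => (P.cfib E ω).entC D B) := by
    refine ent_ev_mono P fun ω hω => ?_
    by_cases hE : E ω
    · rw [if_pos hE, mul_one]
      have e : P.cfib E ω = P.cnd E := by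
        unfold FLaw.cfib
        refine ent_cnd_congr P fun ω' _ => ?_
        constructor
        · intro h
          rw [h]
          exact hE
        · intro h
          exact propext ⟨fun _ => hE, fun _ => h⟩
      rw [e]
    · rw [if_neg hE, mul_zero]
      exact ent_entC_nonneg _ D B
  rw [ent_ev_mul_left, ← ent_pr_eq_ev] at h3
  linarith

/-! ## bins: consequences of uniform surprise bounds on a retained event -/

/-- support count: `P(y|x) ≥ exp (-hi)` on the retained pairs, sum the masses (`ent_count`). -/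
theorem ent_bin_count (P : FLaw Ω) (E : Ω → Prop) (X : Ω → α) (Y : Ω → β) {hi : ℝ}
    (h : ∀ ω, P.p ω ≠ 0 → E ω → P.surC Y X ω ≤ hi) : P.NVal E Y X (Real.exp hi) := by
  intro ω₀
  refine ⟨(Finset.univ.filter fun ω => P.p ω ≠ 0 ∧ E ω ∧ X ω = X ω₀).image Y, ?_, fun ω h1 h2 h3 =>
    Finset.mem_image.2 ⟨ω, Finset.mem_filter.2 ⟨Finset.mem_univ _, h1, h2, h3⟩, rfl⟩⟩
  rcases (Finset.univ.filter fun ω => P.p ω ≠ 0 ∧ E ω ∧ X ω = X ω₀).eq_empty_or_nonempty with he | ⟨ω₁, hω₁⟩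
  · rw [he]
    simpa using (Real.exp_pos hi).le
  · obtain ⟨-, hp1, -, hX1⟩ := Finset.mem_filter.1 hω₁
    have hx : 0 < P.pr (fun ω => X ω = X ω₀) := by
      have := ent_fib_pos P X hp1
      rw [ent_fib_congr P X hX1] at this
      exact this
    have hc := ent_count P X Y (X ω₀)
      ((Finset.univ.filter fun ω => P.p ω ≠ 0 ∧ E ω ∧ X ω = X ω₀).image Y) (c := Real.exp (-hi))
      (Real.exp_pos _) hx (fun y hy => by
        obtain ⟨ω, hω, rfl⟩ := Finset.mem_image.1 hy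
        obtain ⟨-, hp, hE, hX⟩ := Finset.mem_filter.1 hω
        have e1 := ent_exp_neg_surC P Y X hp
        have e2 : Real.exp (-hi) ≤ Real.exp (- P.surC Y X ω) :=
          Real.exp_le_exp.2 (neg_le_neg (h ω hp hE))
        rw [e1, le_div_iff₀ (ent_fib_pos P X hp), ent_fib_pair] at e2
        have e3 : P.fib X ω = P.pr (fun ω' => X ω' = X ω₀) := by
          rw [ent_fib_congr P X hX]
          rfl
        rw [e3, hX] at e2
        exact e2)
    rwa [Real.exp_neg, one_div, inv_inv] at hc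

/-- a support count passes to every dominated law living on the event -/
theorem ent_nval_dom {P R : FLaw Ω} {K : ℝ} (hR : R.Dom K P) {E : Ω → Prop}
    (hE : ∀ ω, R.p ω ≠ 0 → E ω) {X : Ω → α} {Y : Ω → β} {N : ℝ} (h : P.NVal E Y X N) :
    R.NVal (fun _ => True) Y X N := by
  intro ω₀
  obtain ⟨S, hS, hS'⟩ := h ω₀
  exact ⟨S, hS, fun ω hω _ hX => hS' ω (ent_dom_supp hR hω) (hE ω hω) hX⟩

/-- (2.18) / (2.11).  Upper bound: support count + `ent_entC_le_log_nval`.  Lower bound: `ent_restr_lower`. -/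
theorem ent_bin_entropy (P R : FLaw Ω) {K : ℝ} (hR : R.Dom K P) (E : Ω → Prop)
    (hE : ∀ ω, R.p ω ≠ 0 → E ω) (X : Ω → α) (Y : Ω → β) {lo hi : ℝ}
    (h : ∀ ω, P.p ω ≠ 0 → E ω → lo ≤ P.surC Y X ω ∧ P.surC Y X ω ≤ hi) :
    lo - Real.log K ≤ R.entC Y X ∧ R.entC Y X ≤ hi := by
  constructor
  · have h1 := ent_restr_lower P R hR Y X
    have h2 : R.ev (fun _ => lo) ≤ R.ev (P.surC Y X) :=
      ent_ev_mono R fun ω hω => (h ω (ent_dom_supp hR hω) (hE ω hω)).1
    rw [ent_ev_const] at h2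
    linarith
  · have h1 := ent_entC_le_log_nval R Y X
      (ent_nval_dom hR hE (ent_bin_count P E X Y fun ω hω hEω => (h ω hω hEω).2))
    rwa [Real.log_exp] at h1

/-- helper (= (2.7), used by `ent_bin_surprise`): sum `U_C(c) < η V_C(c)` over the values. -/
theorem ent_aux_likelihood (U V : FLaw Ω) (C : Ω → γ) {η : ℝ} (hη : 0 ≤ η) :
    U.pr (fun ω => U.fib C ω < η * V.fib C ω) ≤ η := by
  rw [ent_pr_sum_values U _ C (Finset.univ.image C) fun ω _ _ => Finset.mem_image_of_mem C (Finset.mem_univ ω)]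
  have h1 : ∀ c ∈ Finset.univ.image C, U.pr (fun ω => U.fib C ω < η * V.fib C ω ∧ C ω = c)
      ≤ η * V.pr (fun ω => C ω = c) := by
    intro c _
    by_cases hex : ∃ ω, U.fib C ω < η * V.fib C ω ∧ C ω = c
    · obtain ⟨ω, hω, rfl⟩ := hex
      refine le_trans (ent_pr_mono U fun ω' _ h => h.2) hω.le
    · rw [ent_pr_eq_zero U fun ω _ h => hex ⟨ω, h⟩]
      exact mul_nonneg hη (ent_pr_nonneg V _)
  refine (Finset.sum_le_sum h1).trans ?_
  rw [← Finset.mul_sum]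
  have := ent_aux_sum_pr_le V C (Finset.univ.image C)
  nlinarith

/-- (2.19) / (2.12).  Lower: discard `R_X < η₁ P_X` (`ent_likelihood`), elsewhere `R(y|x) ≤ (K/η₁) P(y|x)`.  Upper: `ent_surC_tail` with `N = exp hi`, `t = log (1/η₂)`. -/
theorem ent_bin_surprise (P R : FLaw Ω) {K : ℝ} (hR : R.Dom K P) (E : Ω → Prop)
    (hE : ∀ ω, R.p ω ≠ 0 → E ω) (X : Ω → α) (Y : Ω → β) {lo hi : ℝ}
    (h : ∀ ω, P.p ω ≠ 0 → E ω → lo ≤ P.surC Y X ω ∧ P.surC Y X ω ≤ hi)
    {η₁ η₂ : ℝ} (h1 : 0 < η₁) (h2 : 0 < η₂) :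
    1 - (η₁ + η₂) ≤ R.pr (fun ω => lo - Real.log (K / η₁) ≤ R.surC Y X ω ∧
      R.surC Y X ω ≤ hi + Real.log (1 / η₂)) := by
  have hK : 1 ≤ K := ent_dom_one_le hR
  have b1 : R.pr (fun ω => R.fib X ω < η₁ * P.fib X ω) ≤ η₁ := ent_aux_likelihood R P X h1.le
  have b2 := ent_surC_tail R Y X (Real.exp_pos hi)
    (ent_nval_dom hR hE (ent_bin_count P E X Y fun ω hω hEω => (h ω hω hEω).2)) (Real.log (1 / η₂))
  rw [Real.log_exp, one_div, Real.log_inv, neg_neg, Real.exp_log h2] at b2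
  have g := ent_pr_and_ge R (fun ω => ¬ R.fib X ω < η₁ * P.fib X ω)
    (fun ω => ¬ hi + -Real.log η₂ < R.surC Y X ω)
  rw [ent_pr_not, ent_pr_not] at g
  have m := ent_pr_mono R (E := fun ω => ¬ R.fib X ω < η₁ * P.fib X ω ∧ ¬ hi + -Real.log η₂ < R.surC Y X ω)
    (F := fun ω => lo - Real.log (K / η₁) ≤ R.surC Y X ω ∧ R.surC Y X ω ≤ hi + Real.log (1 / η₂))
    (fun ω hω hg => by
      obtain ⟨g1, g2⟩ := hg
      have hP : P.p ω ≠ 0 := ent_dom_supp hR hω
      refine ⟨?_, ?_⟩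
      · have g1' : η₁ * P.fib X ω ≤ R.fib X ω := not_lt.1 g1
        have f1 := ent_dom_fib hR (pair Y X) ω
        have pR := ent_fib_pos R X hω
        have pP := ent_fib_pos P X hP
        have pR2 := ent_fib_pos R (pair Y X) hω
        have pP2 := ent_fib_pos P (pair Y X) hP
        have l1 : Real.log η₁ + Real.log (P.fib X ω) ≤ Real.log (R.fib X ω) := by
          rw [← Real.log_mul h1.ne' pP.ne']
          exact Real.log_le_log (mul_pos h1 pP) g1'
        have l2 : Real.log (R.fib (pair Y X) ω) ≤ Real.log K + Real.log (P.fib (pair Y X) ω) := by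
          rw [← Real.log_mul (by linarith) pP2.ne']
          exact Real.log_le_log pR2 f1
        have l3 := (h ω hP (hE ω hω)).1
        rw [ent_surC_eq_sub P Y X hP] at l3
        rw [ent_surC_eq_sub R Y X hω, Real.log_div (by linarith) h1.ne']
        linarith
      · rw [one_div, Real.log_inv]
        exact not_lt.1 g2)
  linarith

/-- joint bins (remark after Lemma 2.4): bins for `B | G` and `(D,B) | G` give a bin for `D | (B,G)` (`ent_surC_chain`). -/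
theorem ent_joint_bin (P : FLaw Ω) (G : Ω → γ) (B : Ω → β) (D : Ω → δ) {b0 d0 a : ℝ} {ω : Ω}
    (hω : P.p ω ≠ 0) (hB : |P.surC B G ω - b0| ≤ a) (hD : |P.surC (pair B D) G ω - d0| ≤ a) :
    |P.surC D (pair B G) ω - (d0 - b0)| ≤ 2 * a := by
  have h1 := ent_surC_chain P B D G hω
  have e : P.surC D (pair B G) ω - (d0 - b0) = (P.surC (pair B D) G ω - d0) - (P.surC B G ω - b0) := by
    rw [h1]
    ring
  rw [e]
  have := abs_sub (P.surC (pair B D) G ω - d0) (P.surC B G ω - b0)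
  linarith

/-! ## Lemma 2.2 -/

/-- (2.7).  Sum `U_C(c) < η V_C(c)` over the values (`ent_pr_sum_values`). -/
theorem ent_likelihood (U V : FLaw Ω) (C : Ω → γ) {η : ℝ} (hη : 0 ≤ η) :
    U.pr (fun ω => U.fib C ω < η * V.fib C ω) ≤ η := by
  obtain ⟨S, hS⟩ : ∃ S : Finset γ, S = Finset.univ.image C := ⟨_, rfl⟩
  have hSmem : ∀ ω, C ω ∈ S := fun ω => hS ▸ Finset.mem_image_of_mem _ (Finset.mem_univ ω)
  rw [ent_pr_sum_values U _ C S fun ω _ _ => hSmem ω]
  have h1 : ∀ c ∈ S, U.pr (fun ω => U.fib C ω < η * V.fib C ω ∧ C ω = c) ≤ η * V.pr (fun ω => C ω = c) := by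
    intro c _
    by_cases hex : ∃ ω, U.fib C ω < η * V.fib C ω ∧ C ω = c
    · obtain ⟨ω, hω, rfl⟩ := hex
      exact le_trans (ent_pr_mono U fun ω' _ h => h.2) hω.le
    · push Not at hex
      rw [ent_pr_eq_zero U fun ω _ h => hex ω h.1 h.2]
      exact mul_nonneg hη (ent_pr_nonneg V _)
  refine (Finset.sum_le_sum h1).trans ?_
  rw [← Finset.mul_sum]
  calc η * ∑ c ∈ S, V.pr (fun ω => C ω = c) ≤ η * 1 :=
        mul_le_mul_of_nonneg_left (ent_aux_sum_pr_le V C S) hη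
    _ = η := mul_one η

/-- the display after (2.7) -/
theorem ent_typical_dom {U V : FLaw Ω} {A η : ℝ} (h : U.Dom A V) (C : Ω → γ) (hη : 0 < η) {ω₀ : Ω}
    (hpos : 0 < U.fib C ω₀) (hω : η * V.fib C ω₀ ≤ U.fib C ω₀) :
    (U.cfib C ω₀).Dom (A / η) (V.cfib C ω₀) := by
  have hA : 0 ≤ A := le_trans zero_le_one (ent_dom_one_le h)
  have hV : 0 < V.fib C ω₀ := by
    have h1 := ent_dom_fib h C ω₀
    by_contra hcon
    have h2 : V.fib C ω₀ = 0 := le_antisymm (not_lt.1 hcon) (ent_fib_nonneg V C ω₀)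
    rw [h2, mul_zero] at h1
    linarith
  intro ω
  rw [ent_cfib_p U C hpos, ent_cfib_p V C hV]
  by_cases hc : C ω = C ω₀
  · rw [if_pos hc, if_pos hc]
    have h1 := h ω
    have h2 := V.nonneg ω
    rw [div_le_iff₀ hpos]
    calc U.p ω ≤ A * V.p ω := h1
      _ = A / η * (V.p ω / V.fib C ω₀) * (η * V.fib C ω₀) := by field_simp
      _ ≤ A / η * (V.p ω / V.fib C ω₀) * U.fib C ω₀ :=
          mul_le_mul_of_nonneg_left hω (by positivity)
  · rw [if_neg hc, if_neg hc]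
    simp

/-- finitely many comparison laws at once -/
theorem ent_typical_multi {ι : Type} [Fintype ι] (U : FLaw Ω) (V : ι → FLaw Ω) (C : Ω → γ) {η : ℝ}
    (hη : 0 ≤ η) :
    1 - Fintype.card ι * η ≤ U.pr (fun ω => ∀ i, η * (V i).fib C ω ≤ U.fib C ω) := by
  have h1 := ent_pr_forall_ge U Finset.univ (fun i ω => η * (V i).fib C ω ≤ U.fib C ω)
  have h2 : ∑ i : ι, (1 - U.pr (fun ω => η * (V i).fib C ω ≤ U.fib C ω)) ≤ Fintype.card ι * η := by
    calc ∑ i : ι, (1 - U.pr (fun ω => η * (V i).fib C ω ≤ U.fib C ω)) ≤ ∑ _i : ι, η := by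
          refine Finset.sum_le_sum fun i _ => ?_
          rw [← ent_pr_not]
          refine le_trans (le_of_eq (ent_pr_congr U fun ω _ => ?_)) (ent_likelihood U (V i) C hη)
          exact not_le
      _ = Fintype.card ι * η := by rw [Finset.sum_const, nsmul_eq_mul]; rfl
  refine le_trans (by linarith) (h1.trans (le_of_eq (ent_pr_congr U fun ω _ => ?_)))
  simp

/-- Lemma 2.2, first part, in one statement -/
theorem ent_typical {ι : Type} [Fintype ι] (U : FLaw Ω) (V : ι → FLaw Ω) (A : ι → ℝ)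
    (h : ∀ i, U.Dom (A i) (V i)) (C : Ω → γ) {η : ℝ} (hη : 0 < η) :
    1 - Fintype.card ι * η ≤ U.pr (fun ω => ∀ i, (U.cfib C ω).Dom (A i / η) ((V i).cfib C ω)) := by
  refine (ent_typical_multi U V C hη.le).trans (ent_pr_mono U fun ω hω hall i => ?_)
  exact ent_typical_dom (h i) C hη (ent_fib_pos U C hω) (hall i)

theorem ent_ret_nonneg (P : FLaw Ω) (E : Ω → Prop) (C : Ω → γ) (ω : Ω) : 0 ≤ P.ret E C ω := by
  exact div_nonneg (ent_pr_nonneg P _) (ent_fib_nonneg P _ _)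

theorem ent_ret_le_one (P : FLaw Ω) (E : Ω → Prop) (C : Ω → γ) (ω : Ω) : P.ret E C ω ≤ 1 := by
  exact div_le_one_of_le₀ (ent_pr_mono P fun ω' _ h => h.2) (ent_fib_nonneg P _ _)

theorem ent_ret_pos (P : FLaw Ω) (E : Ω → Prop) (C : Ω → γ) {ω : Ω} (hω : E ω) (h : P.p ω ≠ 0) :
    0 < P.ret E C ω := by
  exact div_pos ((ent_pr_pos_iff P _).2 ⟨ω, ⟨hω, rfl⟩, h⟩) (ent_fib_pos P C h)

theorem ent_ret_eq_cfib (P : FLaw Ω) (E : Ω → Prop) (C : Ω → γ) {ω : Ω} (h : 0 < P.fib C ω) :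
    P.ret E C ω = (P.cfib C ω).pr E := by
  rw [ent_cfib_pr P C h]
  rfl

/-- (2.9), first identity -/
theorem ent_ret_fib (P : FLaw Ω) (E : Ω → Prop) (hE : 0 < P.pr E) (C : Ω → γ) (ω : Ω) :
    (P.cnd E).fib C ω = P.fib C ω * P.ret E C ω / P.pr E := by
  unfold FLaw.ret
  have h1 : (P.cnd E).fib C ω = P.pr (fun ω' => E ω' ∧ C ω' = C ω) / P.pr E := ent_cnd_pr P E hE _
  rw [h1]
  by_cases h0 : P.fib C ω = 0
  · have h2 : P.pr (fun ω' => E ω' ∧ C ω' = C ω) = 0 :=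
      le_antisymm (h0 ▸ ent_pr_mono P fun ω' _ h => h.2) (ent_pr_nonneg P _)
    rw [h2, h0]
    simp
  · rw [mul_div_cancel₀ _ h0]

/-- (2.9), second assertion -/
theorem ent_ret_tail (P : FLaw Ω) (E : Ω → Prop) (hE : 0 < P.pr E) (C : Ω → γ) {t : ℝ} (ht : 0 ≤ t) :
    (P.cnd E).pr (fun ω => P.ret E C ω < t) ≤ t / P.pr E := by
  have h1 := ent_likelihood (P.cnd E) P C (η := t / P.pr E) (div_nonneg ht hE.le)
  refine le_trans (ent_pr_mono _ fun ω hω hr => ?_) h1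
  have hp : P.p ω ≠ 0 := ((ent_cnd_supp P E hE).1 hω).2
  have hf := ent_fib_pos P C hp
  rw [ent_ret_fib P E hE C ω, div_mul_eq_mul_div, div_lt_div_iff_of_pos_right hE, mul_comm]
  exact mul_lt_mul_of_pos_right hr hf

/-- (2.9), third assertion -/
theorem ent_ret_dom (P : FLaw Ω) (E : Ω → Prop) (hE : 0 < P.pr E) (C : Ω → γ) {ω₀ : Ω}
    (hpos : 0 < (P.cnd E).fib C ω₀) :
    ((P.cnd E).cfib C ω₀).Dom (1 / P.ret E C ω₀) (P.cfib C ω₀) := by
  have hfibE := ent_ret_fib P E hE C ω₀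
  have hf : 0 < P.fib C ω₀ := by
    by_contra hcon
    have h2 : P.fib C ω₀ = 0 := le_antisymm (not_lt.1 hcon) (ent_fib_nonneg P C ω₀)
    rw [hfibE, h2] at hpos
    simp at hpos
  have hr : 0 < P.ret E C ω₀ := by
    by_contra hcon
    have h2 : P.ret E C ω₀ = 0 := le_antisymm (not_lt.1 hcon) (ent_ret_nonneg P E C ω₀)
    rw [hfibE, h2] at hpos
    simp at hpos
  intro ω
  rw [ent_cfib_p _ C hpos, ent_cfib_p P C hf, ent_cnd_p P E hE, hfibE]
  have hp := P.nonneg ω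
  by_cases hc : C ω = C ω₀
  · rw [if_pos hc, if_pos hc]
    by_cases he : E ω
    · rw [if_pos he]
      refine le_of_eq ?_
      field_simp
    · rw [if_neg he]
      simp only [zero_div]
      positivity
  · rw [if_neg hc, if_neg hc]
    simp

/-- the cell of the restricted law is the restriction of the cell -/
theorem ent_cnd_cfib (P : FLaw Ω) (E : Ω → Prop) (hE : 0 < P.pr E) (C : Ω → γ) {ω₀ : Ω}
    (hpos : 0 < (P.cnd E).fib C ω₀) : (P.cnd E).cfib C ω₀ = (P.cfib C ω₀).cnd E := by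
  have h1 : (P.cnd E).fib C ω₀ = P.pr (fun ω' => E ω' ∧ C ω' = C ω₀) / P.pr E := ent_cnd_pr P E hE _
  have h2 : 0 < P.pr (fun ω' => E ω' ∧ C ω' = C ω₀) := by
    rw [h1] at hpos
    by_contra hcon
    have h3 : P.pr (fun ω' => E ω' ∧ C ω' = C ω₀) = 0 := le_antisymm (not_lt.1 hcon) (ent_pr_nonneg P _)
    rw [h3] at hpos
    simp at hpos
  have h4 : 0 < P.pr (fun ω' => C ω' = C ω₀ ∧ E ω') := by
    rwa [ent_pr_congr P (F := fun ω' => E ω' ∧ C ω' = C ω₀) fun ω _ => and_comm]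
  unfold FLaw.cfib
  rw [ent_cnd_cnd P E _ h2, ent_cnd_cnd P _ E h4]
  exact ent_cnd_congr P fun ω _ => and_comm

/-- "outside `U_C`-mass `η₀` the domination constants are at most `1/(m η₀)`" -/
theorem ent_ret_typical (P : FLaw Ω) (E : Ω → Prop) (hE : 0 < P.pr E) (C : Ω → γ) {η₀ : ℝ}
    (hη : 0 < η₀) :
    1 - η₀ ≤ (P.cnd E).pr (fun ω => P.pr E * η₀ ≤ P.ret E C ω ∧
      ((P.cnd E).cfib C ω).Dom (1 / (P.pr E * η₀)) (P.cfib C ω)) := by
  have h1 := ent_ret_tail P E hE C (t := P.pr E * η₀) (by positivity)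
  have h2 : P.pr E * η₀ / P.pr E = η₀ := by field_simp
  rw [h2] at h1
  have h3 := ent_pr_not (P.cnd E) (fun ω => P.ret E C ω < P.pr E * η₀)
  refine le_trans (by linarith) (le_trans (le_of_eq h3.symm) (ent_pr_mono _ fun ω hω hr => ?_))
  have hr' : P.pr E * η₀ ≤ P.ret E C ω := not_lt.1 hr
  refine ⟨hr', ?_⟩
  refine ent_dom_mono (ent_ret_dom P E hE C (ent_fib_pos _ C hω)) ?_
  exact one_div_le_one_div_of_le (by positivity) hr'

/-- (2.10): `U_{X|c}(x) = P_{X|c}(x) r_X(x) / r_C(c)`, sum over `r_X < η₁ r_C(c)`. -/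
theorem ent_ret_nested (P : FLaw Ω) (E : Ω → Prop) (hE : 0 < P.pr E) (X : Ω → α) (C : Ω → γ)
    (hC : ∀ ω ω', X ω = X ω' → C ω = C ω') {ω₀ : Ω} (hpos : 0 < (P.cnd E).fib C ω₀) {η₁ : ℝ}
    (hη : 0 ≤ η₁) :
    ((P.cnd E).cfib C ω₀).pr (fun ω => P.ret E X ω < η₁ * P.ret E C ω₀) ≤ η₁ := by
  have hfibE := ent_ret_fib P E hE C ω₀
  have hf : 0 < P.fib C ω₀ := by
    by_contra hcon
    have h2 : P.fib C ω₀ = 0 := le_antisymm (not_lt.1 hcon) (ent_fib_nonneg P C ω₀)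
    rw [hfibE, h2] at hpos
    simp at hpos
  have hr : 0 < P.ret E C ω₀ := by
    by_contra hcon
    have h2 : P.ret E C ω₀ = 0 := le_antisymm (not_lt.1 hcon) (ent_ret_nonneg P E C ω₀)
    rw [hfibE, h2] at hpos
    simp at hpos
  have hprE : (P.cfib C ω₀).pr E = P.ret E C ω₀ := (ent_ret_eq_cfib P E C hf).symm
  have hprE0 : 0 < (P.cfib C ω₀).pr E := hprE ▸ hr
  have h1 := ent_likelihood ((P.cnd E).cfib C ω₀) (P.cfib C ω₀) X hη
  refine le_trans (ent_pr_mono _ fun ω hω hlt => ?_) h1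
  rw [ent_cnd_cfib P E hE C hpos] at hω ⊢
  obtain ⟨-, hω2⟩ := (ent_cnd_supp _ E hprE0).1 hω
  have hcell : C ω = C ω₀ ∧ P.p ω ≠ 0 := (ent_cnd_supp P _ hf).1 hω2
  have hfx := ent_fib_pos (P.cfib C ω₀) X hω2
  rw [ent_ret_fib _ E hprE0 X ω, hprE]
  have hret : (P.cfib C ω₀).ret E X ω = P.ret E X ω := by
    unfold FLaw.ret FLaw.fib
    rw [ent_cfib_pr P C hf, ent_cfib_pr P C hf]
    have e1 : P.pr (fun ω' => (E ω' ∧ X ω' = X ω) ∧ C ω' = C ω₀) = P.pr (fun ω' => E ω' ∧ X ω' = X ω) :=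
      ent_pr_congr P fun ω' _ => ⟨fun h => h.1, fun h => ⟨h, (hC ω' ω h.2).trans hcell.1⟩⟩
    have e2 : P.pr (fun ω' => X ω' = X ω ∧ C ω' = C ω₀) = P.pr (fun ω' => X ω' = X ω) :=
      ent_pr_congr P fun ω' _ => ⟨fun h => h.1, fun h => ⟨h, (hC ω' ω h).trans hcell.1⟩⟩
    rw [e1, e2]
    have hf' : P.pr (fun ω' => C ω' = C ω₀) ≠ 0 := hf.ne'
    field_simp
  rw [hret, div_lt_iff₀ hr]
  calc (P.cfib C ω₀).fib X ω * P.ret E X ω < (P.cfib C ω₀).fib X ω * (η₁ * P.ret E C ω₀) :=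
        mul_lt_mul_of_pos_left hlt hfx
    _ = η₁ * (P.cfib C ω₀).fib X ω * P.ret E C ω₀ := by ring

/-- (2.11).  `ent_bin_entropy` for the base law `P.cfib C ω₀` (`ent_surC_cfib`), `R = U_c`, `K = 1 / r_C(c)` (`ent_ret_dom`). -/
theorem ent_cell_entropy (P : FLaw Ω) (E : Ω → Prop) (hE : 0 < P.pr E) (X : Ω → α) (Y : Ω → β)
    (C : Ω → γ) (hC : ∀ ω ω', X ω = X ω' → C ω = C ω') {lo hi : ℝ}
    (h : ∀ ω, P.p ω ≠ 0 → E ω → lo ≤ P.surC Y X ω ∧ P.surC Y X ω ≤ hi) {ω₀ : Ω}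
    (hpos : 0 < (P.cnd E).fib C ω₀) :
    lo - Real.log (1 / P.ret E C ω₀) ≤ ((P.cnd E).cfib C ω₀).entC Y X ∧
      ((P.cnd E).cfib C ω₀).entC Y X ≤ hi := by
  have hfibE := ent_ret_fib P E hE C ω₀
  have hf : 0 < P.fib C ω₀ := by
    by_contra hcon
    have h2 : P.fib C ω₀ = 0 := le_antisymm (not_lt.1 hcon) (ent_fib_nonneg P C ω₀)
    rw [hfibE, h2] at hpos
    simp at hpos
  have hr : 0 < P.ret E C ω₀ := by
    by_contra hcon
    have h2 : P.ret E C ω₀ = 0 := le_antisymm (not_lt.1 hcon) (ent_ret_nonneg P E C ω₀)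
    rw [hfibE, h2] at hpos
    simp at hpos
  have hprE0 : 0 < (P.cfib C ω₀).pr E := (ent_ret_eq_cfib P E C hf) ▸ hr
  refine ent_bin_entropy (P.cfib C ω₀) ((P.cnd E).cfib C ω₀) (ent_ret_dom P E hE C hpos) E ?_ X Y ?_
  · intro ω hω
    rw [ent_cnd_cfib P E hE C hpos] at hω
    exact ((ent_cnd_supp _ E hprE0).1 hω).1
  · intro ω hω hEω
    have hcell : C ω = C ω₀ ∧ P.p ω ≠ 0 := (ent_cnd_supp P _ hf).1 hω
    rw [ent_surC_cfib P X Y C hC hcell.1 hcell.2]
    exact h ω hcell.2 hEω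

/-- (2.12).  `ent_bin_surprise` in the same way. -/
theorem ent_cell_surprise (P : FLaw Ω) (E : Ω → Prop) (hE : 0 < P.pr E) (X : Ω → α) (Y : Ω → β)
    (C : Ω → γ) (hC : ∀ ω ω', X ω = X ω' → C ω = C ω') {lo hi : ℝ}
    (h : ∀ ω, P.p ω ≠ 0 → E ω → lo ≤ P.surC Y X ω ∧ P.surC Y X ω ≤ hi) {ω₀ : Ω}
    (hpos : 0 < (P.cnd E).fib C ω₀) {η₁ η₂ : ℝ} (h1 : 0 < η₁) (h2 : 0 < η₂) :
    1 - (η₁ + η₂) ≤ ((P.cnd E).cfib C ω₀).pr (fun ω =>
      lo - Real.log (1 / (η₁ * P.ret E C ω₀)) ≤ ((P.cnd E).cfib C ω₀).surC Y X ω ∧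
      ((P.cnd E).cfib C ω₀).surC Y X ω ≤ hi + Real.log (1 / η₂)) := by
  have hfibE := ent_ret_fib P E hE C ω₀
  have hf : 0 < P.fib C ω₀ := by
    by_contra hcon
    have h2 : P.fib C ω₀ = 0 := le_antisymm (not_lt.1 hcon) (ent_fib_nonneg P C ω₀)
    rw [hfibE, h2] at hpos
    simp at hpos
  have hr : 0 < P.ret E C ω₀ := by
    by_contra hcon
    have h2 : P.ret E C ω₀ = 0 := le_antisymm (not_lt.1 hcon) (ent_ret_nonneg P E C ω₀)
    rw [hfibE, h2] at hpos
    simp at hpos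
  have hprE0 : 0 < (P.cfib C ω₀).pr E := (ent_ret_eq_cfib P E C hf) ▸ hr
  have hmain := ent_bin_surprise (P.cfib C ω₀) ((P.cnd E).cfib C ω₀) (ent_ret_dom P E hE C hpos) E
    (fun ω hω => by
      rw [ent_cnd_cfib P E hE C hpos] at hω
      exact ((ent_cnd_supp _ E hprE0).1 hω).1) X Y (lo := lo) (hi := hi)
    (fun ω hω hEω => by
      have hcell : C ω = C ω₀ ∧ P.p ω ≠ 0 := (ent_cnd_supp P _ hf).1 hω
      rw [ent_surC_cfib P X Y C hC hcell.1 hcell.2]
      exact h ω hcell.2 hEω) h1 h2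
  have e : 1 / P.ret E C ω₀ / η₁ = 1 / (η₁ * P.ret E C ω₀) := by
    field_simp
  rw [e] at hmain
  exact hmain

/-! ## Lemma 2.3 -/

/-- first line: the difference is `I(D;Q|B)`. -/
theorem ent_tag_entC (P : FLaw Ω) (D : Ω → δ) (B : Ω → β) (Q : Ω → γ) :
    0 ≤ P.entC D B - P.entC D (pair B Q) ∧ P.entC D B - P.entC D (pair B Q) ≤ P.ent Q := by
  have h1 := ent_miC_eq P D Q B
  have h2 : P.entC D (pair Q B) = P.entC D (pair B Q) :=
    ent_entC_congr P D D _ _ (fun ω ω' _ _ => by simp only [FLaw.pair, Prod.mk.injEq]; exact and_comm)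
      (fun _ _ _ _ _ => Iff.rfl)
  rw [h2] at h1
  rw [← h1]
  exact ⟨ent_miC_nonneg P D Q B, (ent_miC_le_right P D Q B).trans (ent_entC_le P Q B)⟩

/-- second line: `I(T;D|Q) - I(T;D) = I(T;Q|D) - I(T;Q)`. -/
theorem ent_tag_mi (P : FLaw Ω) (T : Ω → α) (D : Ω → δ) (Q : Ω → γ) :
    |P.miC T D Q - P.mi T D| ≤ P.ent Q := by
  have h1 := ent_mi_chain P T D Q
  have h2 := ent_mi_chain P T Q D
  have h3 : P.mi T (pair D Q) = P.mi T (pair Q D) :=
    ent_mi_congr P T T _ _ (fun _ _ _ _ => Iff.rfl)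
      (fun ω ω' _ _ => by simp only [FLaw.pair, Prod.mk.injEq]; exact and_comm)
  have a1 := ent_miC_nonneg P T Q D
  have a2 := (ent_miC_le_right P T Q D).trans (ent_entC_le P Q D)
  have a3 := ent_mi_nonneg P T Q
  have a4 := ent_mi_le_right P T Q
  rw [abs_le]
  constructor <;> linarith

/-- helper: the exact identity behind the third line of Lemma 2.3 -/
theorem ent_aux_tag_miC (P : FLaw Ω) (U : Ω → α) (V : Ω → β) (Z : Ω → γ) (Q : Ω → δ) :
    P.miC U V (pair Z Q) - P.miC U V Z = P.miC U Q (pair V Z) - P.miC U Q Z := by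
  unfold FLaw.miC
  have e1 : P.ent (pair U (pair Z Q)) = P.ent (pair (pair U Q) Z) := by
    refine ent_congr_ker P _ _ fun ω ω' _ _ => ?_
    simp only [FLaw.pair, Prod.mk.injEq]
    tauto
  have e2 : P.ent (pair V (pair Z Q)) = P.ent (pair Q (pair V Z)) := by
    refine ent_congr_ker P _ _ fun ω ω' _ _ => ?_
    simp only [FLaw.pair, Prod.mk.injEq]
    tauto
  have e3 : P.ent (pair (pair U V) (pair Z Q)) = P.ent (pair (pair U Q) (pair V Z)) := by
    refine ent_congr_ker P _ _ fun ω ω' _ _ => ?_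
    simp only [FLaw.pair, Prod.mk.injEq]
    tauto
  have e4 : P.ent (pair Z Q) = P.ent (pair Q Z) := ent_pair_comm P Z Q
  have e5 : P.ent (pair (pair U V) Z) = P.ent (pair U (pair V Z)) := ent_pair_assoc P U V Z
  rw [e1, e2, e3, e4, e5]
  ring

/-- third line: `I(U;V|Z,Q) - I(U;V|Z) = I(U;Q|V,Z) - I(U;Q|Z)`. -/
theorem ent_tag_miC (P : FLaw Ω) (U : Ω → α) (V : Ω → β) (Z : Ω → γ) (Q : Ω → δ) :
    P.miC U V (pair Z Q) ≤ P.miC U V Z + P.ent Q := by
  have h1 := ent_aux_tag_miC P U V Z Q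
  have a1 := (ent_miC_le_right P U Q (pair V Z)).trans (ent_entC_le P Q (pair V Z))
  have a2 := ent_miC_nonneg P U Q Z
  linarith

/-- two-sided form of the third line -/
theorem ent_tag_miC_abs (P : FLaw Ω) (U : Ω → α) (V : Ω → β) (Z : Ω → γ) (Q : Ω → δ) :
    |P.miC U V (pair Z Q) - P.miC U V Z| ≤ P.ent Q := by
  have h1 := ent_aux_tag_miC P U V Z Q
  have a1 := (ent_miC_le_right P U Q (pair V Z)).trans (ent_entC_le P Q (pair V Z))
  have a2 := ent_miC_nonneg P U Q Z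
  have a3 := (ent_miC_le_right P U Q Z).trans (ent_entC_le P Q Z)
  have a4 := ent_miC_nonneg P U Q (pair V Z)
  rw [abs_le]
  constructor <;> linarith

/-- a law dominated by a conditionally independent one.
`I^R(U;V|Z) = E_R log [R(u,v,z) R(z) / (R(u,z) R(v,z))]`; insert `P(u,v,z) P(z) = P(u,z) P(v,z)`:
`= KL_{UVZ} - KL_{UZ} - KL_{VZ} + KL_Z ≤ KL_{UVZ} ≤ log K` since `KL_Z ≤ KL_{UZ}` and `0 ≤ KL_{VZ}` (`ent_kl_obs`, `ent_kl_obs_mono`). -/
theorem ent_ci_dom (P R : FLaw Ω) {K : ℝ} (h : R.Dom K P) (U : Ω → α) (V : Ω → β) (Z : Ω → γ)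
    (hci : P.CI U V Z) : R.miC U V Z ≤ Real.log K := by
  rw [ent_miC_eq_ev]
  have k3 := (ent_kl_obs R P h (pair (pair U V) Z)).2
  have kv := (ent_kl_obs R P h (pair V Z)).1
  have km := ent_kl_obs_mono R P h U Z
  have hsplit : R.ev (fun ω => Real.log (R.fib (pair (pair U V) Z) ω * R.fib Z ω
      / (R.fib (pair U Z) ω * R.fib (pair V Z) ω))) =
      R.ev (fun ω => Real.log (R.fib (pair (pair U V) Z) ω / P.fib (pair (pair U V) Z) ω))
      + R.ev (fun ω => Real.log (R.fib Z ω / P.fib Z ω))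
      - R.ev (fun ω => Real.log (R.fib (pair U Z) ω / P.fib (pair U Z) ω))
      - R.ev (fun ω => Real.log (R.fib (pair V Z) ω / P.fib (pair V Z) ω)) := by
    rw [← ent_ev_add, ← ent_ev_sub, ← ent_ev_sub]
    refine ent_ev_congr R fun ω hω => ?_
    have hp := ent_dom_supp h hω
    have r1 := ent_fib_pos R (pair (pair U V) Z) hω
    have r2 := ent_fib_pos R Z hω
    have r3 := ent_fib_pos R (pair U Z) hω
    have r4 := ent_fib_pos R (pair V Z) hω
    have p1 := ent_fib_pos P (pair (pair U V) Z) hp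
    have p2 := ent_fib_pos P Z hp
    have p3 := ent_fib_pos P (pair U Z) hp
    have p4 := ent_fib_pos P (pair V Z) hp
    have hci' := ent_ci_fib P U V Z hci ω
    have hl : Real.log (P.fib (pair (pair U V) Z) ω) + Real.log (P.fib Z ω) =
        Real.log (P.fib (pair U Z) ω) + Real.log (P.fib (pair V Z) ω) := by
      rw [← Real.log_mul p1.ne' p2.ne', ← Real.log_mul p3.ne' p4.ne', hci']
    rw [Real.log_div (mul_pos r1 r2).ne' (mul_pos r3 r4).ne', Real.log_mul r1.ne' r2.ne',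
      Real.log_mul r3.ne' r4.ne', Real.log_div r1.ne' p1.ne', Real.log_div r2.ne' p2.ne',
      Real.log_div r3.ne' p3.ne', Real.log_div r4.ne' p4.ne']
    linarith
  rw [hsplit]
  linarith

theorem ent_ext_pr_fst {Γ : Type} [Fintype Γ] (P : FLaw Ω) (κ : Ker Ω Γ) (E : Ω → Prop) :
    (P.ext κ).pr (fun x => E x.1) = P.pr E := by
  have h := ent_map_pr (P.ext κ) Prod.fst E
  rw [ent_ext_map_fst] at h
  exact h.symm

theorem ent_ext_ev_fst {Γ : Type} [Fintype Γ] (P : FLaw Ω) (κ : Ker Ω Γ) (f : Ω → ℝ) :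
    (P.ext κ).ev (fun x => f x.1) = P.ev f := by
  have h := ent_map_ev (P.ext κ) Prod.fst f
  rw [ent_ext_map_fst] at h
  exact h.symm

theorem ent_ext_ent_fst {Γ : Type} [Fintype Γ] (P : FLaw Ω) (κ : Ker Ω Γ) (X : Ω → α) :
    (P.ext κ).ent (fun x => X x.1) = P.ent X := by
  have h := ent_map_ent (P.ext κ) Prod.fst X
  rw [ent_ext_map_fst] at h
  exact h.symm

theorem ent_ext_entC_fst {Γ : Type} [Fintype Γ] (P : FLaw Ω) (κ : Ker Ω Γ) (X : Ω → α) (Y : Ω → β) :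
    (P.ext κ).entC (fun x => X x.1) (fun x => Y x.1) = P.entC X Y := by
  have h := ent_map_entC (P.ext κ) Prod.fst X Y
  rw [ent_ext_map_fst] at h
  exact h.symm

theorem ent_ext_mi_fst {Γ : Type} [Fintype Γ] (P : FLaw Ω) (κ : Ker Ω Γ) (X : Ω → α) (Y : Ω → β) :
    (P.ext κ).mi (fun x => X x.1) (fun x => Y x.1) = P.mi X Y := by
  have h := ent_map_mi (P.ext κ) Prod.fst X Y
  rw [ent_ext_map_fst] at h
  exact h.symm

theorem ent_ext_miC_fst {Γ : Type} [Fintype Γ] (P : FLaw Ω) (κ : Ker Ω Γ) (X : Ω → α) (Y : Ω → β)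
    (Z : Ω → γ) :
    (P.ext κ).miC (fun x => X x.1) (fun x => Y x.1) (fun x => Z x.1) = P.miC X Y Z := by
  have h := ent_map_miC (P.ext κ) Prod.fst X Y Z
  rw [ent_ext_map_fst] at h
  exact h.symm

/-- helper: the mass of `{new label = u} ∩ F` -/
theorem ent_aux_ext_pr {Γ : Type} [Fintype Γ] (P : FLaw Ω) (κ : Ker Ω Γ) (F : Ω → Prop) (u : Γ) :
    (P.ext κ).pr (fun x => x.2 = u ∧ F x.1) = P.ev (fun ω => if F ω then κ.k ω u else 0) := by
  unfold FLaw.pr FLaw.ev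
  rw [Fintype.sum_prod_type]
  refine Finset.sum_congr rfl fun ω _ => ?_
  by_cases hF : F ω
  · rw [Finset.sum_eq_single u]
    · simp [hF, FLaw.ext]
    · intro g _ hg
      simp [hg]
    · intro h
      exact absurd (Finset.mem_univ u) h
  · simp [hF]

/-- helper: the same when the kernel is constant on `F` -/
theorem ent_aux_ext_pr_const {Γ : Type} [Fintype Γ] (P : FLaw Ω) (κ : Ker Ω Γ) (C : Ω → γ)
    (hκ : ∀ ω ω', C ω = C ω' → κ.k ω = κ.k ω') (ω₀ : Ω) (u : Γ) (F : Ω → Prop)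
    (hF : ∀ ω, F ω → C ω = C ω₀) :
    (P.ext κ).pr (fun x => x.2 = u ∧ F x.1) = κ.k ω₀ u * P.pr F := by
  rw [ent_aux_ext_pr, ent_pr_eq_ev, ← ent_ev_mul_left]
  refine ent_ev_congr P fun ω _ => ?_
  by_cases h : F ω
  · rw [if_pos h, if_pos h, mul_one, hκ ω ω₀ (hF ω h)]
  · rw [if_neg h, if_neg h, mul_zero]

/-- resampling: the new label is conditionally independent of EVERYTHING old given the observation the kernel depends on -/
theorem ent_resample_ci {Γ : Type} [Fintype Γ] (P : FLaw Ω) (κ : Ker Ω Γ) (C : Ω → γ)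
    (hκ : ∀ ω ω', C ω = C ω' → κ.k ω = κ.k ω') (V : Ω → δ) :
    (P.ext κ).CI (fun x => x.2) (fun x => V x.1) (fun x => C x.1) := by
  intro u v z
  by_cases hz : ∃ ω₀, C ω₀ = z
  · obtain ⟨ω₀, rfl⟩ := hz
    rw [ent_aux_ext_pr_const P κ C hκ ω₀ u (fun ω => V ω = v ∧ C ω = C ω₀) (fun ω h => h.2),
      ent_aux_ext_pr_const P κ C hκ ω₀ u (fun ω => C ω = C ω₀) (fun ω h => h),
      ent_ext_pr_fst P κ (fun ω => C ω = C ω₀), ent_ext_pr_fst P κ (fun ω => V ω = v ∧ C ω = C ω₀)]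
    ring
  · rw [ent_pr_eq_zero (P.ext κ) (E := fun x => x.2 = u ∧ V x.1 = v ∧ C x.1 = z)
        (fun x _ h => hz ⟨x.1, h.2.2⟩),
      ent_pr_eq_zero (P.ext κ) (E := fun x => x.2 = u ∧ C x.1 = z) (fun x _ h => hz ⟨x.1, h.2⟩)]
    ring

/-- resampling: the joint law of the new label with that observation is the kernel law -/
theorem ent_resample_joint {Γ : Type} [Fintype Γ] (P : FLaw Ω) (κ : Ker Ω Γ) (C : Ω → γ)
    (hκ : ∀ ω ω', C ω = C ω' → κ.k ω = κ.k ω') (ω : Ω) (u : Γ) :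
    (P.ext κ).pr (fun x => x.2 = u ∧ C x.1 = C ω) = κ.k ω u * P.fib C ω := by
  exact ent_aux_ext_pr_const P κ C hκ ω u (fun ω' => C ω' = C ω) (fun ω' h => h)

namespace FLaw

/-- the kernel `P(U = u | C)` -/
noncomputable def kerOf {Γ : Type} [Fintype Γ] (P : FLaw Ω) (U : Ω → Γ) (C : Ω → γ) : Ker Ω Γ where
  k := fun ω u => ((P.cfib C ω).map U).p u
  nonneg := fun ω u => ((P.cfib C ω).map U).nonneg u
  sum_one := fun ω => ((P.cfib C ω).map U).sum_one

end FLaw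

theorem ent_kerOf_congr {Γ : Type} [Fintype Γ] (P : FLaw Ω) (U : Ω → Γ) (C : Ω → γ) {ω ω' : Ω}
    (h : C ω = C ω') : (P.kerOf U C).k ω = (P.kerOf U C).k ω' := by
  funext u
  show ((P.cfib C ω).map U).p u = ((P.cfib C ω').map U).p u
  rw [ent_cfib_congr P C h]

/-- a conditionally independent copy of `U` given `C`: same joint law with `C` -/
theorem ent_kerOf_joint {Γ : Type} [Fintype Γ] (P : FLaw Ω) (U : Ω → Γ) (C : Ω → γ) (u : Γ) (c : γ) :
    (P.ext (P.kerOf U C)).pr (fun x => x.2 = u ∧ C x.1 = c) = P.pr (fun ω => U ω = u ∧ C ω = c) := by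
  by_cases hc : ∃ ω₀, C ω₀ = c
  · obtain ⟨ω₀, rfl⟩ := hc
    rw [ent_resample_joint P (P.kerOf U C) C (fun ω ω' h => ent_kerOf_congr P U C h) ω₀ u]
    show (P.cfib C ω₀).pr (fun ω => U ω = u) * P.fib C ω₀ = _
    rcases (ent_fib_nonneg P C ω₀).eq_or_lt with h0 | hpos
    · rw [← h0, mul_zero]
      have h1 : P.pr (fun ω => U ω = u ∧ C ω = C ω₀) ≤ P.fib C ω₀ := ent_pr_mono P fun ω _ h => h.2
      rw [← h0] at h1
      exact le_antisymm (ent_pr_nonneg P _) h1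
    · rw [ent_cfib_pr P C hpos, div_mul_cancel₀ _ hpos.ne']
  · rw [ent_pr_eq_zero _ (fun x _ h => hc ⟨x.1, h.2⟩), ent_pr_eq_zero _ (fun ω _ h => hc ⟨ω, h.2⟩)]

/-- helper: `(new label, C)` under the extension has the law of `(U, C)` -/
theorem ent_aux_kerOf_pr {Γ : Type} [Fintype Γ] (P : FLaw Ω) (U : Ω → Γ) (C : Ω → γ) (F : Γ → γ → Prop) :
    (P.ext (P.kerOf U C)).pr (fun x => F x.2 (C x.1)) = P.pr (fun ω => F (U ω) (C ω)) := by
  rw [ent_pr_sum_values (P.ext (P.kerOf U C)) _ (fun x => (x.2, C x.1))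
      ((Finset.univ : Finset (Γ × Ω)).image (fun p => (p.1, C p.2)))
      (fun x _ _ => Finset.mem_image.2 ⟨(x.2, x.1), Finset.mem_univ _, rfl⟩),
    ent_pr_sum_values P _ (fun ω => (U ω, C ω))
      ((Finset.univ : Finset (Γ × Ω)).image (fun p => (p.1, C p.2)))
      (fun ω _ _ => Finset.mem_image.2 ⟨(U ω, ω), Finset.mem_univ _, rfl⟩)]
  refine Finset.sum_congr rfl fun uc _ => ?_
  obtain ⟨u, c⟩ := uc
  by_cases hF : F u c
  · rw [ent_pr_congr (P.ext (P.kerOf U C)) (F := fun x => x.2 = u ∧ C x.1 = c) (fun x _ => by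
        simp only [Prod.mk.injEq]
        constructor
        · exact fun h => h.2
        · rintro ⟨rfl, rfl⟩
          exact ⟨hF, rfl, rfl⟩),
      ent_pr_congr P (F := fun ω => U ω = u ∧ C ω = c) (fun ω _ => by
        simp only [Prod.mk.injEq]
        constructor
        · exact fun h => h.2
        · rintro ⟨rfl, rfl⟩
          exact ⟨hF, rfl, rfl⟩),
      ent_kerOf_joint]
  · rw [ent_pr_eq_zero _ (fun x _ h => by
        simp only [Prod.mk.injEq] at h
        obtain ⟨h1, rfl, rfl⟩ := h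
        exact hF h1),
      ent_pr_eq_zero _ (fun ω _ h => by
        simp only [Prod.mk.injEq] at h
        obtain ⟨h1, rfl, rfl⟩ := h
        exact hF h1)]

theorem ent_kerOf_ent {Γ : Type} [Fintype Γ] (P : FLaw Ω) (U : Ω → Γ) (C : Ω → γ)
    (g : Γ → γ → δ) :
    (P.ext (P.kerOf U C)).ent (fun x => g x.2 (C x.1)) = P.ent (fun ω => g (U ω) (C ω)) := by
  have hS1 : ∀ x : Ω × Γ, (P.ext (P.kerOf U C)).p x ≠ 0 → g x.2 (C x.1)
      ∈ (Finset.univ : Finset (Γ × Ω)).image (fun p => g p.1 (C p.2)) := fun x _ =>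
    Finset.mem_image.2 ⟨(x.2, x.1), Finset.mem_univ _, rfl⟩
  have hS2 : ∀ ω : Ω, P.p ω ≠ 0 → g (U ω) (C ω)
      ∈ (Finset.univ : Finset (Γ × Ω)).image (fun p => g p.1 (C p.2)) := fun ω _ =>
    Finset.mem_image.2 ⟨(U ω, ω), Finset.mem_univ _, rfl⟩
  rw [ent_eq_sum _ _ _ hS1, ent_eq_sum _ _ _ hS2]
  refine Finset.sum_congr rfl fun d _ => ?_
  rw [ent_aux_kerOf_pr P U C (fun u c => g u c = d)]

theorem ent_kerOf_entC {Γ : Type} [Fintype Γ] (P : FLaw Ω) (U : Ω → Γ) (C : Ω → γ)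
    (g : Γ → γ → δ) (g' : Γ → γ → α) :
    (P.ext (P.kerOf U C)).entC (fun x => g x.2 (C x.1)) (fun x => g' x.2 (C x.1))
      = P.entC (fun ω => g (U ω) (C ω)) (fun ω => g' (U ω) (C ω)) := by
  unfold FLaw.entC
  have e1 := ent_kerOf_ent P U C (fun u c => (g u c, g' u c))
  have e2 := ent_kerOf_ent P U C g'
  rw [e2]
  exact congrArg (fun t => t - P.ent (fun ω => g' (U ω) (C ω))) e1

theorem ent_restr_eqns_cite : True := by
  have := @FLaw.kerOf.eq_1
  trivial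

end Claimed.Agent.R255
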