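-- KEEP
import Claimed.Agent.R255.Ent.Restr

/-!
# Row 255 (BR paper), Sec. 2 library, file 3: Lemma 2.4 (finite homogenization)      (architect helper186)

PAPER-FREE.  Paper: `02-entropy.tex` l.242-330.  NATURAL units: mesh `w = a ℓ`, cut-offs `L j = (A_j + σ) ℓ`, so `card (S j) * exp (-(L j)) ≤ ε^σ` when `card (S j) ≤ ε^{-A_j}`.
The parts `E_z` are EXPLICIT: the cells of the observation `P.bins Y X w : Ω → (ι → ℕ)` (integer parts of surprise / mesh).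
* `P.bin Y X w ω = ⌊ surprise(Y|X)(ω) / w ⌋`, `d_{j,z} ℓ = bin * w`
* `hJ L w = ∏_j (1 + ⌊L j / w⌋)`  (≤ the `J` of the paper)
* `P.HGood Y X w L θ ω` : all bins of `ω` are `≤ L j` and the cell of `ω` has mass `≥ θ / J`.  The retained parts are the cells inside `HGood`.
* `ent_homog` : `P(HGood) ≥ 1 - Σ_j card (S j) exp (-(L j)) - θ`;  `ent_homog_parts` : at most `J` parts.
* `ent_homog_bin` (2.17), `ent_homog_entropy` (2.18), `ent_homog_surprise` (2.19), `ent_homog_count` : on EVERY cell of positive mass, for every `R ≤ K P(.|cell)`.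
Provers edit only bodies; statements frozen (ask helper186).
-/

set_option autoImplicit false

namespace Claimed.Agent.R255

open scoped BigOperators
open Classical
open FLaw

variable {Ω : Type} [Fintype Ω] {α β γ δ : Type}

namespace FLaw

/-- bin index of the conditional surprise of `Y` given `X` at mesh `w` -/
noncomputable def bin (P : FLaw Ω) (Y : Ω → β) (X : Ω → α) (w : ℝ) (ω : Ω) : ℕ :=
  ⌊P.surC Y X ω / w⌋₊

/-- the vector of all bin indices of a finite list -/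
noncomputable def bins {ι : Type} {α β : ι → Type} (P : FLaw Ω) (Y : ∀ j, Ω → β j)
    (X : ∀ j, Ω → α j) (w : ℝ) : Ω → (ι → ℕ) := fun ω j => P.bin (Y j) (X j) w ω

end FLaw

/-- number of admissible bin vectors -/
noncomputable def hJ {ι : Type} [Fintype ι] (L : ι → ℝ) (w : ℝ) : ℕ := ∏ j, (1 + ⌊L j / w⌋₊)

namespace FLaw

/-- the union of the retained parts -/
def HGood {ι : Type} [Fintype ι] {α β : ι → Type} (P : FLaw Ω) (Y : ∀ j, Ω → β j)
    (X : ∀ j, Ω → α j) (w : ℝ) (L : ι → ℝ) (θ : ℝ) (ω : Ω) : Prop :=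
  (∀ j, (P.bin (Y j) (X j) w ω : ℝ) * w ≤ L j) ∧ θ / (hJ L w : ℝ) ≤ P.fib (P.bins Y X w) ω

end FLaw

theorem ent_bin_bounds (P : FLaw Ω) (Y : Ω → β) (X : Ω → α) {w : ℝ} (hw : 0 < w) {ω : Ω}
    (h : P.p ω ≠ 0) :
    (P.bin Y X w ω : ℝ) * w ≤ P.surC Y X ω ∧ P.surC Y X ω ≤ ((P.bin Y X w ω : ℝ) + 1) * w := by
  have h0 : 0 ≤ P.surC Y X ω / w := div_nonneg (ent_surC_nonneg P Y X h) hw.le
  unfold FLaw.bin
  constructor
  · exact (le_div_iff₀ hw).1 (Nat.floor_le h0)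
  · exact ((div_lt_iff₀ hw).1 (Nat.lt_floor_add_one _)).le

/-- the tail discarded in the proof of Lemma 2.4 (`ent_surC_tail` with `t = L - log card`) -/
theorem ent_tail_alphabet (P : FLaw Ω) (Y : Ω → β) (X : Ω → α) (S : Finset β)
    (hS : ∀ ω, P.p ω ≠ 0 → Y ω ∈ S) (L : ℝ) :
    P.pr (fun ω => L < P.surC Y X ω) ≤ S.card * Real.exp (- L) := by
  obtain ⟨ω₁, hω₁⟩ := ent_exists_supp P
  have hN : (0 : ℝ) < S.card := by
    have : 0 < S.card := Finset.card_pos.2 ⟨_, hS ω₁ hω₁⟩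
    exact_mod_cast this
  have h := ent_surC_tail P Y X hN (fun _ => ⟨S, le_rfl, fun ω hω _ _ => hS ω hω⟩) (L - Real.log S.card)
  have e1 : Real.log (S.card : ℝ) + (L - Real.log S.card) = L := by ring
  have e2 : Real.exp (-(L - Real.log (S.card : ℝ))) = S.card * Real.exp (-L) := by
    rw [neg_sub, sub_eq_add_neg, Real.exp_add, Real.exp_log hN]
  rwa [e1, e2] at h

theorem ent_hJ_pos {ι : Type} [Fintype ι] (L : ι → ℝ) (w : ℝ) : 0 < hJ L w := by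
  unfold hJ
  exact Finset.prod_pos fun j _ => by omega

/-- at most `J` retained parts -/
theorem ent_homog_parts {ι : Type} [Fintype ι] {α β : ι → Type} (P : FLaw Ω) (Y : ∀ j, Ω → β j)
    (X : ∀ j, Ω → α j) {w : ℝ} (hw : 0 < w) (L : ι → ℝ) :
    ∃ S : Finset (ι → ℕ), S.card ≤ hJ L w ∧
      ∀ ω, (∀ j, (P.bin (Y j) (X j) w ω : ℝ) * w ≤ L j) → P.bins Y X w ω ∈ S := by
  refine ⟨Fintype.piFinset fun j => Finset.range (1 + ⌊L j / w⌋₊), ?_, fun ω h => ?_⟩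
  · rw [Fintype.card_piFinset]
    simp [hJ]
  · rw [Fintype.mem_piFinset]
    intro j
    rw [Finset.mem_range]
    have h1 : P.bin (Y j) (X j) w ω ≤ ⌊L j / w⌋₊ := Nat.le_floor ((le_div_iff₀ hw).2 (h j))
    show P.bin (Y j) (X j) w ω < _
    omega

/-- Lemma 2.4, first assertions.  Bad = (some surprise `> L j`: `ent_tail_alphabet`, union bound) or (admissible cell of mass `< θ/J`: at most `J` such cells, `ent_pr_sum_values`). -/
theorem ent_homog {ι : Type} [Fintype ι] {α β : ι → Type} (P : FLaw Ω) (Y : ∀ j, Ω → β j)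
    (X : ∀ j, Ω → α j) (S : ∀ j, Finset (β j)) (hS : ∀ j ω, P.p ω ≠ 0 → Y j ω ∈ S j)
    (L : ι → ℝ) {w θ : ℝ} (hw : 0 < w) (hθ : 0 ≤ θ) :
    1 - ∑ j, ((S j).card : ℝ) * Real.exp (- (L j)) - θ ≤ P.pr (P.HGood Y X w L θ) := by
  have hJ0 : (0 : ℝ) < hJ L w := by exact_mod_cast ent_hJ_pos L w
  -- first bad event
  have b1 : P.pr (fun ω => ∃ j ∈ (Finset.univ : Finset ι), L j < P.surC (Y j) (X j) ω)
      ≤ ∑ j, ((S j).card : ℝ) * Real.exp (- (L j)) :=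
    (ent_pr_exists_le P Finset.univ fun j ω => L j < P.surC (Y j) (X j) ω).trans
      (Finset.sum_le_sum fun j _ => ent_tail_alphabet P (Y j) (X j) (S j) (hS j) (L j))
  -- second bad event
  obtain ⟨T, hTc, hT⟩ := ent_homog_parts P Y X hw L
  have b2 : P.pr (fun ω => (∀ j, (P.bin (Y j) (X j) w ω : ℝ) * w ≤ L j)
      ∧ P.fib (P.bins Y X w) ω < θ / (hJ L w : ℝ)) ≤ θ := by
    rw [ent_pr_sum_values P _ (P.bins Y X w) T fun ω _ h => hT ω h.1]
    have h1 : ∀ z ∈ T, P.pr (fun ω => ((∀ j, (P.bin (Y j) (X j) w ω : ℝ) * w ≤ L j)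
        ∧ P.fib (P.bins Y X w) ω < θ / (hJ L w : ℝ)) ∧ P.bins Y X w ω = z) ≤ θ / (hJ L w : ℝ) := by
      intro z _
      by_cases hex : ∃ ω, ((∀ j, (P.bin (Y j) (X j) w ω : ℝ) * w ≤ L j)
          ∧ P.fib (P.bins Y X w) ω < θ / (hJ L w : ℝ)) ∧ P.bins Y X w ω = z
      · obtain ⟨ω, hω, rfl⟩ := hex
        exact le_trans (ent_pr_mono P fun ω' _ h => h.2) hω.2.le
      · rw [ent_pr_eq_zero P fun ω _ h => hex ⟨ω, h⟩]
        exact div_nonneg hθ hJ0.le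
    refine (Finset.sum_le_sum h1).trans ?_
    rw [Finset.sum_const, nsmul_eq_mul]
    have h2 : (T.card : ℝ) ≤ hJ L w := by exact_mod_cast hTc
    calc (T.card : ℝ) * (θ / (hJ L w : ℝ)) ≤ (hJ L w : ℝ) * (θ / (hJ L w : ℝ)) :=
          mul_le_mul_of_nonneg_right h2 (div_nonneg hθ hJ0.le)
      _ = θ := mul_div_cancel₀ _ hJ0.ne'
  have b3 : P.pr (fun ω => ¬ P.HGood Y X w L θ ω)
      ≤ P.pr (fun ω => (∃ j ∈ (Finset.univ : Finset ι), L j < P.surC (Y j) (X j) ω) ∨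
        ((∀ j, (P.bin (Y j) (X j) w ω : ℝ) * w ≤ L j)
          ∧ P.fib (P.bins Y X w) ω < θ / (hJ L w : ℝ))) := by
    refine ent_pr_mono P fun ω hω hbad => ?_
    by_cases hadm : ∀ j, (P.bin (Y j) (X j) w ω : ℝ) * w ≤ L j
    · right
      refine ⟨hadm, ?_⟩
      by_contra hcon
      exact hbad ⟨hadm, not_lt.1 hcon⟩
    · left
      push Not at hadm
      obtain ⟨j, hj⟩ := hadm
      exact ⟨j, Finset.mem_univ j, hj.trans_le (ent_bin_bounds P (Y j) (X j) hw hω).1⟩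
  have b4 := ent_pr_or_le P (fun ω => ∃ j ∈ (Finset.univ : Finset ι), L j < P.surC (Y j) (X j) ω)
    (fun ω => (∀ j, (P.bin (Y j) (X j) w ω : ℝ) * w ≤ L j)
      ∧ P.fib (P.bins Y X w) ω < θ / (hJ L w : ℝ))
  rw [ent_pr_not] at b3
  linarith

/-- `HGood` is a union of cells -/
theorem ent_homog_union {ι : Type} [Fintype ι] {α β : ι → Type} (P : FLaw Ω) (Y : ∀ j, Ω → β j)
    (X : ∀ j, Ω → α j) (w : ℝ) (L : ι → ℝ) (θ : ℝ) {ω ω' : Ω}
    (h : P.bins Y X w ω = P.bins Y X w ω') : P.HGood Y X w L θ ω ↔ P.HGood Y X w L θ ω' := by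
  unfold FLaw.HGood
  have h1 : ∀ j, P.bin (Y j) (X j) w ω = P.bin (Y j) (X j) w ω' := fun j => congrFun h j
  rw [ent_fib_congr P _ h]
  simp only [h1]

/-- the tag of the part costs at most `log J` -/
theorem ent_homog_tag {ι : Type} [Fintype ι] {α β : ι → Type} (P : FLaw Ω) (Y : ∀ j, Ω → β j)
    (X : ∀ j, Ω → α j) {w : ℝ} (hw : 0 < w) (L : ι → ℝ) (θ : ℝ) (R : FLaw Ω)
    (hR : ∀ ω, R.p ω ≠ 0 → P.HGood Y X w L θ ω) :
    R.ent (P.bins Y X w) ≤ Real.log (hJ L w) := by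
  obtain ⟨T, hTc, hT⟩ := ent_homog_parts P Y X hw L
  obtain ⟨ω₁, hω₁⟩ := ent_exists_supp R
  have hpos : (0 : ℝ) < T.card := by
    have : 0 < T.card := Finset.card_pos.2 ⟨_, hT ω₁ (hR ω₁ hω₁).1⟩
    exact_mod_cast this
  refine (ent_le_log_card R _ T fun ω hω => hT ω (hR ω hω).1).trans ?_
  exact Real.log_le_log hpos (by exact_mod_cast hTc)

/-- (2.17) on the cell through `ω₀` -/
theorem ent_homog_bin {ι : Type} {α β : ι → Type} (P : FLaw Ω) (Y : ∀ j, Ω → β j)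
    (X : ∀ j, Ω → α j) {w : ℝ} (hw : 0 < w) (ω₀ : Ω) {ω : Ω} (h : P.p ω ≠ 0)
    (hω : P.bins Y X w ω = P.bins Y X w ω₀) (j : ι) :
    (P.bin (Y j) (X j) w ω₀ : ℝ) * w ≤ P.surC (Y j) (X j) ω ∧
      P.surC (Y j) (X j) ω ≤ (P.bin (Y j) (X j) w ω₀ : ℝ) * w + w := by
  have h1 : P.bin (Y j) (X j) w ω = P.bin (Y j) (X j) w ω₀ := congrFun hω j
  have h2 := ent_bin_bounds P (Y j) (X j) hw h
  rw [h1] at h2
  refine ⟨h2.1, h2.2.trans (le_of_eq ?_)⟩
  ring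

/-- support count on the cell -/
theorem ent_homog_count {ι : Type} {α β : ι → Type} (P : FLaw Ω) (Y : ∀ j, Ω → β j)
    (X : ∀ j, Ω → α j) {w : ℝ} (hw : 0 < w) (ω₀ : Ω) (j : ι) :
    P.NVal (fun ω => P.bins Y X w ω = P.bins Y X w ω₀) (Y j) (X j)
      (Real.exp ((P.bin (Y j) (X j) w ω₀ : ℝ) * w + w)) := by
  exact ent_bin_count P _ (X j) (Y j) fun ω hω hE => (ent_homog_bin P Y X hw ω₀ hω hE j).2

/-- a law dominated by the normalised part is dominated by `P` and lives on the part -/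
theorem ent_homog_dom {ι : Type} {α β : ι → Type} (P : FLaw Ω) (Y : ∀ j, Ω → β j)
    (X : ∀ j, Ω → α j) (w : ℝ) {ω₀ : Ω} (hpos : 0 < P.fib (P.bins Y X w) ω₀) {R : FLaw Ω} {K : ℝ}
    (hR : R.Dom K (P.cfib (P.bins Y X w) ω₀)) :
    R.Dom (K / P.fib (P.bins Y X w) ω₀) P ∧
      ∀ ω, R.p ω ≠ 0 → P.bins Y X w ω = P.bins Y X w ω₀ := by
  have hK : 1 ≤ K := ent_dom_one_le hR
  constructor
  · intro ω
    have h1 := hR ω
    rw [ent_cfib_p P _ hpos] at h1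
    refine h1.trans ?_
    split_ifs
    · exact le_of_eq (by ring)
    · rw [zero_div, mul_zero]
      exact mul_nonneg (div_nonneg (by linarith) hpos.le) (P.nonneg ω)
  · intro ω hω
    have h1 := ent_dom_supp hR hω
    rw [ent_cfib_p P _ hpos] at h1
    by_contra hne
    rw [if_neg hne, zero_div] at h1
    exact h1 rfl

/-- (2.18) (`ent_bin_entropy`) -/
theorem ent_homog_entropy {ι : Type} {α β : ι → Type} (P : FLaw Ω) (Y : ∀ j, Ω → β j)
    (X : ∀ j, Ω → α j) {w : ℝ} (hw : 0 < w) {ω₀ : Ω} (hpos : 0 < P.fib (P.bins Y X w) ω₀)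
    {R : FLaw Ω} {K : ℝ} (hR : R.Dom K (P.cfib (P.bins Y X w) ω₀)) (j : ι) :
    (P.bin (Y j) (X j) w ω₀ : ℝ) * w - Real.log (K / P.fib (P.bins Y X w) ω₀) ≤ R.entC (Y j) (X j) ∧
      R.entC (Y j) (X j) ≤ (P.bin (Y j) (X j) w ω₀ : ℝ) * w + w := by
  obtain ⟨h1, h2⟩ := ent_homog_dom P Y X w hpos hR
  exact ent_bin_entropy P R h1 _ h2 (X j) (Y j) fun ω hω hE => ent_homog_bin P Y X hw ω₀ hω hE j

/-- (2.19) (`ent_bin_surprise`) -/
theorem ent_homog_surprise {ι : Type} {α β : ι → Type} (P : FLaw Ω) (Y : ∀ j, Ω → β j)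
    (X : ∀ j, Ω → α j) {w : ℝ} (hw : 0 < w) {ω₀ : Ω} (hpos : 0 < P.fib (P.bins Y X w) ω₀)
    {R : FLaw Ω} {K : ℝ} (hR : R.Dom K (P.cfib (P.bins Y X w) ω₀)) (j : ι) {η : ℝ} (hη : 0 < η) :
    1 - 2 * η ≤ R.pr (fun ω =>
      (P.bin (Y j) (X j) w ω₀ : ℝ) * w - Real.log (K / (P.fib (P.bins Y X w) ω₀ * η))
          ≤ R.surC (Y j) (X j) ω ∧
      R.surC (Y j) (X j) ω ≤ (P.bin (Y j) (X j) w ω₀ : ℝ) * w + w + Real.log (1 / η)) := by
  obtain ⟨h1, h2⟩ := ent_homog_dom P Y X w hpos hR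
  have h3 := ent_bin_surprise P R h1 _ h2 (X j) (Y j)
    (fun ω hω hE => ent_homog_bin P Y X hw ω₀ hω hE j) hη hη
  rw [div_div] at h3
  linarith

/-- all listed observations at once -/
theorem ent_homog_surprise_all {ι : Type} [Fintype ι] {α β : ι → Type} (P : FLaw Ω)
    (Y : ∀ j, Ω → β j) (X : ∀ j, Ω → α j) {w : ℝ} (hw : 0 < w) {ω₀ : Ω}
    (hpos : 0 < P.fib (P.bins Y X w) ω₀) {R : FLaw Ω} {K : ℝ}
    (hR : R.Dom K (P.cfib (P.bins Y X w) ω₀)) {η : ℝ} (hη : 0 < η) :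
    1 - 2 * Fintype.card ι * η ≤ R.pr (fun ω => ∀ j,
      (P.bin (Y j) (X j) w ω₀ : ℝ) * w - Real.log (K / (P.fib (P.bins Y X w) ω₀ * η))
          ≤ R.surC (Y j) (X j) ω ∧
      R.surC (Y j) (X j) ω ≤ (P.bin (Y j) (X j) w ω₀ : ℝ) * w + w + Real.log (1 / η)) := by
  have h1 := ent_pr_forall_ge R (Finset.univ : Finset ι) (fun j ω =>
      (P.bin (Y j) (X j) w ω₀ : ℝ) * w - Real.log (K / (P.fib (P.bins Y X w) ω₀ * η))
          ≤ R.surC (Y j) (X j) ω ∧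
      R.surC (Y j) (X j) ω ≤ (P.bin (Y j) (X j) w ω₀ : ℝ) * w + w + Real.log (1 / η))
  have h2 : ∑ j : ι, (1 - R.pr (fun ω =>
      (P.bin (Y j) (X j) w ω₀ : ℝ) * w - Real.log (K / (P.fib (P.bins Y X w) ω₀ * η))
          ≤ R.surC (Y j) (X j) ω ∧
      R.surC (Y j) (X j) ω ≤ (P.bin (Y j) (X j) w ω₀ : ℝ) * w + w + Real.log (1 / η)))
      ≤ ∑ _j : ι, 2 * η := Finset.sum_le_sum fun j _ => by
    have := ent_homog_surprise P Y X hw hpos hR j hη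
    linarith
  rw [Finset.sum_const, nsmul_eq_mul, Finset.card_univ] at h2
  have h3 : R.pr (fun ω => ∀ j ∈ (Finset.univ : Finset ι),
      (P.bin (Y j) (X j) w ω₀ : ℝ) * w - Real.log (K / (P.fib (P.bins Y X w) ω₀ * η))
          ≤ R.surC (Y j) (X j) ω ∧
      R.surC (Y j) (X j) ω ≤ (P.bin (Y j) (X j) w ω₀ : ℝ) * w + w + Real.log (1 / η))
      ≤ R.pr (fun ω => ∀ j,
      (P.bin (Y j) (X j) w ω₀ : ℝ) * w - Real.log (K / (P.fib (P.bins Y X w) ω₀ * η))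
          ≤ R.surC (Y j) (X j) ω ∧
      R.surC (Y j) (X j) ω ≤ (P.bin (Y j) (X j) w ω₀ : ℝ) * w + w + Real.log (1 / η)) :=
    ent_pr_mono R fun ω _ h j => h j (Finset.mem_univ j)
  linarith

theorem ent_homog_eqns_cite : True := by
  have := @FLaw.bin.eq_1
  have := @FLaw.bins.eq_1
  have := @hJ.eq_1
  have := @FLaw.HGood.eq_1
  trivial

end Claimed.Agent.R255
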