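-- KEEP
import Claimed.Agent.R255.Ent.Restr

/-!
# Row 255 (BR paper), Sec. 2 library, file 4: Lemma 2.5 (zero information) and Lemma 2.6 (marginal core)      (architect helper186)

PAPER-FREE.  Paper: `02-entropy.tex` l.332-415.
A COMPARISON WEIGHT on a value type `α` is a function `μ : α → ℝ`, `IsW μ` : nonnegative with all finite sums `≤ 1` (any probability or sub-probability law, no `Fintype α` needed).
A SUB-PROBABILITY is `ν = P 1_E` (`P : FLaw Ω`, `E` an event).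
* `P.PDom E T F μ A` : `ν_{(F_i)_{i ∈ T}} ≤ A ∏_{i ∈ T} μ_i`     ((2.22); `ι` = the set of FACTOR OCCURRENCES, `T` = one tuple)
* `P.act F i` : the actual marginal weight `v ↦ P(F_i = v)`
* `P.Core E F μ η` : every surviving factor value has `ν'`-marginal `≥ η μ_i(v)`
* L2.5 `ent_tail_weight` (general form of (2.20)), `ent_likelihood_tail` (2.20), `ent_info_tail`, `ent_zero_info(_mi)`, converse `ent_total_corr` (2.21), `ent_mi_le_of_prod`, `ent_miC_le_of_prod`.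
* L2.6 `ent_core_exists`, `ent_core_actual` (2.23), `ent_core_mass`, `ent_core_half` (the form quoted in Theorem 2.7).
Provers edit only bodies; statements frozen (ask helper186).
-/

set_option autoImplicit false

namespace Claimed.Agent.R255

open scoped BigOperators
open Classical
open FLaw

variable {Ω : Type} [Fintype Ω] {α β γ δ : Type}

/-- comparison weight: nonnegative, all finite sums at most one -/
def IsW (μ : α → ℝ) : Prop := (∀ v, 0 ≤ μ v) ∧ ∀ S : Finset α, ∑ v ∈ S, μ v ≤ 1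

namespace FLaw

/-- the law of an observation as a weight -/
noncomputable def wt (P : FLaw Ω) (X : Ω → α) : α → ℝ := fun v => P.pr (fun ω => X ω = v)

/-- `ν_{(F_i)_{i∈T}} ≤ A ∏_{i∈T} μ_i` for `ν = P 1_E` -/
def PDom {ι : Type} {α : ι → Type} (P : FLaw Ω) (E : Ω → Prop) (T : Finset ι) (F : ∀ i, Ω → α i)
    (μ : ∀ i, α i → ℝ) (A : ℝ) : Prop :=
  ∀ ω, P.pr (fun ω' => E ω' ∧ ∀ i ∈ T, F i ω' = F i ω) ≤ A * ∏ i ∈ T, μ i (F i ω)

/-- stability of the retained event under the removal rule of Lemma 2.6 -/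
def Core {ι : Type} {α : ι → Type} (P : FLaw Ω) (E : Ω → Prop) (F : ∀ i, Ω → α i)
    (μ : ∀ i, α i → ℝ) (η : ℝ) : Prop :=
  ∀ i ω, E ω → P.p ω ≠ 0 → η * μ i (F i ω) ≤ P.pr (fun ω' => E ω' ∧ F i ω' = F i ω)

end FLaw

theorem ent_wt_isW (P : FLaw Ω) (X : Ω → α) : IsW (P.wt X) := by
  exact ⟨fun v => ent_pr_nonneg P _, fun S => ent_aux_sum_pr_le P X S⟩

theorem ent_wt_apply (P : FLaw Ω) (X : Ω → α) (ω : Ω) : P.wt X (X ω) = P.fib X ω := by
  rfl

theorem ent_law_isW (P : FLaw Ω) : IsW P.p := by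
  refine ⟨P.nonneg, fun S => ?_⟩
  rw [← P.sum_one]
  exact Finset.sum_le_sum_of_subset_of_nonneg (Finset.subset_univ S) fun ω _ _ => P.nonneg ω

/-- helper: skew product of weights -/
theorem ent_aux_isW_skew {ν : γ → ℝ} (hν : IsW ν) {μ : γ → α → ℝ} (hμ : ∀ c, IsW (μ c)) :
    IsW (fun x : α × γ => ν x.2 * μ x.2 x.1) := by
  refine ⟨fun x => mul_nonneg (hν.1 _) ((hμ _).1 _), fun S => ?_⟩
  have hsub : S ⊆ (S.image Prod.fst) ×ˢ (S.image Prod.snd) := by
    intro x hx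
    exact Finset.mem_product.2 ⟨Finset.mem_image_of_mem _ hx, Finset.mem_image_of_mem _ hx⟩
  refine (Finset.sum_le_sum_of_subset_of_nonneg hsub fun x _ _ =>
    mul_nonneg (hν.1 _) ((hμ _).1 _)).trans ?_
  rw [Finset.sum_product_right]
  calc ∑ c ∈ S.image Prod.snd, ∑ a ∈ S.image Prod.fst, ν c * μ c a
      = ∑ c ∈ S.image Prod.snd, ν c * ∑ a ∈ S.image Prod.fst, μ c a := by
        refine Finset.sum_congr rfl fun c _ => ?_
        rw [Finset.mul_sum]
    _ ≤ ∑ c ∈ S.image Prod.snd, ν c * 1 :=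
        Finset.sum_le_sum fun c _ => mul_le_mul_of_nonneg_left ((hμ c).2 _) (hν.1 c)
    _ ≤ 1 := by
        simp only [mul_one]
        exact hν.2 _

/-- product of two weights -/
theorem ent_isW_prod {μ : α → ℝ} {lam : β → ℝ} (h1 : IsW μ) (h2 : IsW lam) :
    IsW (fun x : α × β => μ x.1 * lam x.2) := by
  have h := ent_aux_isW_skew h2 (μ := fun _ => μ) (fun _ => h1)
  refine ⟨fun x => mul_nonneg (h1.1 _) (h2.1 _), fun S => ?_⟩
  have h3 := h.2 S
  refine le_trans (le_of_eq ?_) h3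
  exact Finset.sum_congr rfl fun x _ => mul_comm _ _

/-- product of finitely many weights -/
theorem ent_isW_pi {ι : Type} [Fintype ι] {α : ι → Type} {μ : ∀ i, α i → ℝ} (h : ∀ i, IsW (μ i)) :
    IsW (fun x : ∀ i, α i => ∏ i, μ i (x i)) := by
  refine ⟨fun x => Finset.prod_nonneg fun i _ => (h i).1 _, fun S => ?_⟩
  have hsub : S ⊆ Fintype.piFinset (fun i => S.image (fun x => x i)) := by
    intro x hx
    exact Fintype.mem_piFinset.2 fun i => Finset.mem_image_of_mem _ hx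
  refine (Finset.sum_le_sum_of_subset_of_nonneg hsub fun x _ _ =>
    Finset.prod_nonneg fun i _ => (h i).1 _).trans ?_
  rw [← Finset.prod_univ_sum]
  exact Finset.prod_le_one (fun i _ => Finset.sum_nonneg fun v _ => (h i).1 v) fun i _ => (h i).2 _

/-! ## Lemma 2.5 -/

/-- helper: `log r ≤ r / e` -/
theorem ent_aux_log_le (r : ℝ) (hr : 0 < r) : max 0 (Real.log r) ≤ r * Real.exp (-1) := by
  refine max_le (by positivity) ?_
  have h := Real.log_le_sub_one_of_pos (mul_pos hr (Real.exp_pos (-1)))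
  rw [Real.log_mul hr.ne' (Real.exp_pos _).ne', Real.log_exp] at h
  linarith

/-- helper: the reciprocal likelihood ratio against a weight has mean `≤ 1` -/
theorem ent_aux_wt_mass (π : FLaw Ω) (X : Ω → α) (q : α → ℝ) (hq : IsW q) :
    π.ev (fun ω => q (X ω) / π.fib X ω) ≤ 1 := by
  obtain ⟨S, hS⟩ : ∃ S : Finset α, S = Finset.univ.image X := ⟨_, rfl⟩
  have hSmem : ∀ ω, X ω ∈ S := fun ω => hS ▸ Finset.mem_image_of_mem _ (Finset.mem_univ ω)
  have h1 : π.ev (fun ω => q (X ω) / π.fib X ω) =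
      ∑ x ∈ S, π.pr (fun ω => X ω = x) * (q x / π.pr (fun ω => X ω = x)) :=
    ent_ev_comp π X S (fun ω _ => hSmem ω) (fun x => q x / π.pr (fun ω => X ω = x))
  rw [h1]
  refine le_trans (Finset.sum_le_sum fun x _ => ?_) (hq.2 S)
  by_cases h0 : π.pr (fun ω => X ω = x) = 0
  · rw [h0, zero_mul]
    exact hq.1 x
  · rw [mul_div_cancel₀ _ h0]

/-- helper: tail of `- log r` when `E r ≤ 1` -/
theorem ent_aux_tail (π : FLaw Ω) (r : Ω → ℝ) (hpos : ∀ ω, π.p ω ≠ 0 → 0 < r ω) (hE : π.ev r ≤ 1)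
    {v : ℝ} (hv : 0 < v) :
    π.pr (fun ω => v < - Real.log (r ω)) ≤ (π.ev (fun ω => - Real.log (r ω)) + Real.exp (-1)) / v := by
  have hm := ent_markov π (f := fun ω => max 0 (- Real.log (r ω))) (fun ω _ => le_max_left _ _) hv
  refine le_trans (ent_pr_mono π fun ω _ h => le_trans h.le (le_max_right _ _)) (hm.trans ?_)
  refine div_le_div_of_nonneg_right ?_ hv.le
  have h1 : π.ev (fun ω => max 0 (- Real.log (r ω))) ≤
      π.ev (fun ω => - Real.log (r ω) + r ω * Real.exp (-1)) := by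
    refine ent_ev_mono π fun ω hω => ?_
    have h2 := ent_aux_log_le (r ω) (hpos ω hω)
    have h3 : max 0 (- Real.log (r ω)) = - Real.log (r ω) + max 0 (Real.log (r ω)) := by
      rcases le_total 0 (Real.log (r ω)) with h | h
      · rw [max_eq_left (by linarith), max_eq_right h]
        ring
      · rw [max_eq_right (by linarith), max_eq_left h]
        ring
    linarith
  refine h1.trans ?_
  rw [ent_ev_add]
  have h4 : π.ev (fun ω => r ω * Real.exp (-1)) = Real.exp (-1) * π.ev r := by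
    rw [← ent_ev_mul_left]
    exact ent_ev_congr π fun ω _ => mul_comm _ _
  rw [h4]
  have := mul_le_mul_of_nonneg_left hE (Real.exp_pos (-1)).le
  linarith

/-- `E (log L)_- ≤ 1/e` : `x log (1/x) ≤ 1/e` on `[0,1]`, summed against the weight. -/
theorem ent_neg_part (π : FLaw Ω) (X : Ω → α) (q : α → ℝ) (hq : IsW q)
    (hpos : ∀ ω, π.p ω ≠ 0 → 0 < q (X ω)) :
    π.ev (fun ω => max 0 (- Real.log (π.fib X ω / q (X ω)))) ≤ Real.exp (-1) := by
  have h1 : π.ev (fun ω => max 0 (- Real.log (π.fib X ω / q (X ω)))) ≤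
      π.ev (fun ω => q (X ω) / π.fib X ω * Real.exp (-1)) := by
    refine ent_ev_mono π fun ω hω => ?_
    have hf := ent_fib_pos π X hω
    have h2 := ent_aux_log_le _ (div_pos (hpos ω hω) hf)
    rw [Real.log_div (hpos ω hω).ne' hf.ne'] at h2
    rw [Real.log_div hf.ne' (hpos ω hω).ne', neg_sub]
    exact h2
  refine h1.trans ?_
  have h4 : π.ev (fun ω => q (X ω) / π.fib X ω * Real.exp (-1)) =
      Real.exp (-1) * π.ev (fun ω => q (X ω) / π.fib X ω) := by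
    rw [← ent_ev_mul_left]
    exact ent_ev_congr π fun ω _ => mul_comm _ _
  rw [h4]
  have := mul_le_mul_of_nonneg_left (ent_aux_wt_mass π X q hq) (Real.exp_pos (-1)).le
  linarith

/-- general form of (2.20): likelihood ratio of the law of an observation against a comparison weight. -/
theorem ent_tail_weight (π : FLaw Ω) (X : Ω → α) (q : α → ℝ) (hq : IsW q)
    (hpos : ∀ ω, π.p ω ≠ 0 → 0 < q (X ω)) {v : ℝ} (hv : 0 < v) :
    π.pr (fun ω => v < Real.log (π.fib X ω / q (X ω)))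
      ≤ (π.ev (fun ω => Real.log (π.fib X ω / q (X ω))) + Real.exp (-1)) / v := by
  have h := ent_aux_tail π (fun ω => q (X ω) / π.fib X ω)
    (fun ω hω => div_pos (hpos ω hω) (ent_fib_pos π X hω)) (ent_aux_wt_mass π X q hq) hv
  have e : ∀ ω, π.p ω ≠ 0 → - Real.log (q (X ω) / π.fib X ω) = Real.log (π.fib X ω / q (X ω)) := by
    intro ω hω
    rw [Real.log_div (hpos ω hω).ne' (ent_fib_pos π X hω).ne',
      Real.log_div (ent_fib_pos π X hω).ne' (hpos ω hω).ne']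
    ring
  rw [ent_ev_congr π e, ent_pr_congr π (F := fun ω => v < Real.log (π.fib X ω / q (X ω)))
    (fun ω hω => by rw [e ω hω])] at h
  exact h

/-- (2.20) -/
theorem ent_likelihood_tail (π Λ : FLaw Ω) (hac : ∀ ω, Λ.p ω = 0 → π.p ω = 0) {v : ℝ} (hv : 0 < v) :
    π.pr (fun ω => v < Real.log (π.p ω / Λ.p ω)) ≤ (π.kl Λ + Real.exp (-1)) / v := by
  have h := ent_tail_weight π (fun ω => ω) Λ.p (ent_law_isW Λ)
    (fun ω hω => lt_of_le_of_ne (Λ.nonneg ω) fun h0 => hω (hac ω h0.symm)) hv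
  simp only [ent_fib_id] at h
  exact h

/-- the remaining sub-probability is bounded by `e^v Λ` -/
theorem ent_likelihood_rest (π Λ : FLaw Ω) (hac : ∀ ω, Λ.p ω = 0 → π.p ω = 0) {v : ℝ} {ω : Ω}
    (h : ¬ v < Real.log (π.p ω / Λ.p ω)) : π.p ω ≤ Real.exp v * Λ.p ω := by
  by_cases h0 : π.p ω = 0
  · rw [h0]
    exact mul_nonneg (Real.exp_pos v).le (Λ.nonneg ω)
  · have hl : 0 < Λ.p ω := lt_of_le_of_ne (Λ.nonneg ω) fun h1 => h0 (hac ω h1.symm)
    have hp : 0 < π.p ω := lt_of_le_of_ne (π.nonneg ω) (Ne.symm h0)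
    have h2 : Real.log (π.p ω / Λ.p ω) ≤ v := not_lt.1 h
    have h3 := (Real.log_le_iff_le_exp (div_pos hp hl)).1 h2
    rwa [div_le_iff₀ hl] at h3

/-- (2.20) for `Λ(a,b,c) = π_C π_{A|C} π_{B|C}`, `D = I(A;B|C)`  (`ent_tail_weight` for `X = ((A,B),C)`, `ent_miC_eq_ev`). -/
theorem ent_zero_info (π : FLaw Ω) (A : Ω → α) (B : Ω → β) (C : Ω → γ) {v : ℝ} (hv : 0 < v) :
    1 - (π.miC A B C + Real.exp (-1)) / v ≤ π.pr (fun ω =>
      π.fib (pair (pair A B) C) ω * π.fib C ω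
        ≤ Real.exp v * (π.fib (pair A C) ω * π.fib (pair B C) ω)) := by
  have h := ent_aux_tail π (fun ω => π.fib (pair A C) ω * π.fib (pair B C) ω
      / (π.fib (pair (pair A B) C) ω * π.fib C ω))
    (fun ω hω => div_pos (mul_pos (ent_fib_pos π _ hω) (ent_fib_pos π _ hω))
      (mul_pos (ent_fib_pos π _ hω) (ent_fib_pos π _ hω))) (ent_aux_ci_mass π A B C) hv
  have e : ∀ ω, π.p ω ≠ 0 → - Real.log (π.fib (pair A C) ω * π.fib (pair B C) ω
      / (π.fib (pair (pair A B) C) ω * π.fib C ω)) =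
      Real.log (π.fib (pair (pair A B) C) ω * π.fib C ω / (π.fib (pair A C) ω * π.fib (pair B C) ω)) := by
    intro ω hω
    have h1 := mul_pos (ent_fib_pos π (pair A C) hω) (ent_fib_pos π (pair B C) hω)
    have h2 := mul_pos (ent_fib_pos π (pair (pair A B) C) hω) (ent_fib_pos π C hω)
    rw [Real.log_div h1.ne' h2.ne', Real.log_div h2.ne' h1.ne']
    ring
  rw [ent_ev_congr π e, ← ent_miC_eq_ev] at h
  have h3 := ent_pr_not π (fun ω => v < - Real.log (π.fib (pair A C) ω * π.fib (pair B C) ω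
      / (π.fib (pair (pair A B) C) ω * π.fib C ω)))
  refine le_trans (by linarith) (le_trans (le_of_eq h3.symm) (ent_pr_mono π fun ω hω hn => ?_))
  have h1 := mul_pos (ent_fib_pos π (pair A C) hω) (ent_fib_pos π (pair B C) hω)
  have h2 := mul_pos (ent_fib_pos π (pair (pair A B) C) hω) (ent_fib_pos π C hω)
  rw [e ω hω, not_lt, Real.log_le_iff_le_exp (div_pos h2 h1), div_le_iff₀ h1] at hn
  exact hn

/-- unconditional form -/
theorem ent_zero_info_mi (π : FLaw Ω) (A : Ω → α) (B : Ω → β) {v : ℝ} (hv : 0 < v) :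
    1 - (π.mi A B + Real.exp (-1)) / v ≤ π.pr (fun ω =>
      π.fib (pair A B) ω ≤ Real.exp v * (π.fib A ω * π.fib B ω)) := by
  have h := ent_tail_weight π (pair A B) (fun x => π.wt A x.1 * π.wt B x.2)
    (ent_isW_prod (ent_wt_isW π A) (ent_wt_isW π B))
    (fun ω hω => mul_pos (ent_fib_pos π A hω) (ent_fib_pos π B hω)) hv
  have e : π.ev (fun ω => Real.log (π.fib (pair A B) ω / (π.wt A (pair A B ω).1 * π.wt B (pair A B ω).2))) =
      π.mi A B := by
    unfold FLaw.mi FLaw.ent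
    rw [← ent_ev_add, ← ent_ev_sub]
    refine ent_ev_congr π fun ω hω => ?_
    have h1 := ent_fib_pos π A hω
    have h2 := ent_fib_pos π B hω
    have h3 := ent_fib_pos π (pair A B) hω
    show Real.log (π.fib (pair A B) ω / (π.fib A ω * π.fib B ω)) = _
    rw [Real.log_div h3.ne' (mul_pos h1 h2).ne', Real.log_mul h1.ne' h2.ne']
    ring
  rw [e] at h
  have h3 := ent_pr_not π (fun ω => v < Real.log (π.fib (pair A B) ω /
    (π.wt A (pair A B ω).1 * π.wt B (pair A B ω).2)))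
  refine le_trans (by linarith) (le_trans (le_of_eq h3.symm) (ent_pr_mono π fun ω hω hn => ?_))
  have h1 := mul_pos (ent_fib_pos π A hω) (ent_fib_pos π B hω)
  have h2 := ent_fib_pos π (pair A B) hω
  have hn' : ¬ v < Real.log (π.fib (pair A B) ω / (π.fib A ω * π.fib B ω)) := hn
  rw [not_lt, Real.log_le_iff_le_exp (div_pos h2 h1), div_le_iff₀ h1] at hn'
  exact hn'

/-- (2.21): `Σ H(F_i) - H(F) = E log [ρ(F)/∏μ_i] - Σ_i E log [ρ_i/μ_i] ≤ log K` (`ent_gibbs` for each factor). -/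
theorem ent_total_corr {ι : Type} [Fintype ι] {α : ι → Type} (ρ : FLaw Ω) (F : ∀ i, Ω → α i)
    (μ : ∀ i, α i → ℝ) (hμ : ∀ i, IsW (μ i)) {K : ℝ}
    (h : ∀ ω, ρ.p ω ≠ 0 → ρ.fib (fun ω' => (fun i => F i ω' : ∀ i, α i)) ω ≤ K * ∏ i, μ i (F i ω)) :
    ∑ i, ρ.ent (F i) - ρ.ent (fun ω => (fun i => F i ω : ∀ i, α i)) ≤ Real.log K := by
  have hpos : ∀ ω, ρ.p ω ≠ 0 → 0 < K ∧ ∀ i, 0 < μ i (F i ω) := by
    intro ω hω
    have h1 := ent_fib_pos ρ (fun ω' => (fun i => F i ω' : ∀ i, α i)) hω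
    have h2 := lt_of_lt_of_le h1 (h ω hω)
    have h3 : 0 ≤ ∏ i, μ i (F i ω) := Finset.prod_nonneg fun i _ => (hμ i).1 _
    have h4 : 0 < ∏ i, μ i (F i ω) := by
      rcases h3.lt_or_eq with h5 | h5
      · exact h5
      · rw [← h5, mul_zero] at h2
        exact absurd h2 (lt_irrefl 0)
    refine ⟨?_, fun i => ?_⟩
    · by_contra hK
      have : K * ∏ i, μ i (F i ω) ≤ 0 := mul_nonpos_of_nonpos_of_nonneg (not_lt.1 hK) h3
      linarith
    · refine lt_of_le_of_ne ((hμ i).1 _) fun h0 => ?_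
      rw [Finset.prod_eq_zero (Finset.mem_univ i) h0.symm] at h4
      exact lt_irrefl 0 h4
  have hg : ∀ i, ρ.ent (F i) ≤ ρ.ev (fun ω => - Real.log (μ i (F i ω))) := fun i =>
    ent_gibbs ρ (F i) (μ i) (hμ i).1 (hμ i).2 fun ω hω => (hpos ω hω).2 i
  have hF : ρ.ev (fun ω => - Real.log K - ∑ i, Real.log (μ i (F i ω))) ≤
      ρ.ent (fun ω => (fun i => F i ω : ∀ i, α i)) := by
    refine ent_ev_mono ρ fun ω hω => ?_
    obtain ⟨hK, hm⟩ := hpos ω hω
    have h1 := ent_fib_pos ρ (fun ω' => (fun i => F i ω' : ∀ i, α i)) hω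
    have h2 := Real.log_le_log h1 (h ω hω)
    rw [Real.log_mul hK.ne' (Finset.prod_pos fun i _ => hm i).ne',
      Real.log_prod fun i _ => (hm i).ne'] at h2
    linarith
  rw [ent_ev_sub, ent_ev_const, ent_ev_sum] at hF
  have hs : ∑ i, ρ.ent (F i) ≤ - ∑ i, ρ.ev (fun ω => Real.log (μ i (F i ω))) := by
    rw [← Finset.sum_neg_distrib]
    refine Finset.sum_le_sum fun i _ => ?_
    rw [← ent_ev_neg]
    exact hg i
  linarith

theorem ent_mi_le_of_prod (ρ : FLaw Ω) (A : Ω → α) (B : Ω → β) (μ : α → ℝ) (lam : β → ℝ)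
    (hμ : IsW μ) (hl : IsW lam) {K : ℝ}
    (h : ∀ ω, ρ.p ω ≠ 0 → ρ.fib (pair A B) ω ≤ K * (μ (A ω) * lam (B ω))) :
    ρ.mi A B ≤ Real.log K := by
  have hpos : ∀ ω, ρ.p ω ≠ 0 → 0 < K ∧ 0 < μ (A ω) ∧ 0 < lam (B ω) := by
    intro ω hω
    have h1 := ent_fib_pos ρ (pair A B) hω
    have h2 := lt_of_lt_of_le h1 (h ω hω)
    have a1 := hμ.1 (A ω)
    have a2 := hl.1 (B ω)
    have h3 : 0 ≤ μ (A ω) * lam (B ω) := mul_nonneg a1 a2
    refine ⟨?_, ?_, ?_⟩
    · by_contra hK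
      have : K * (μ (A ω) * lam (B ω)) ≤ 0 := mul_nonpos_of_nonpos_of_nonneg (not_lt.1 hK) h3
      linarith
    · refine lt_of_le_of_ne a1 fun h0 => ?_
      rw [← h0] at h2
      simp at h2
    · refine lt_of_le_of_ne a2 fun h0 => ?_
      rw [← h0] at h2
      simp at h2
  have g1 := ent_gibbs ρ A μ hμ.1 hμ.2 fun ω hω => (hpos ω hω).2.1
  have g2 := ent_gibbs ρ B lam hl.1 hl.2 fun ω hω => (hpos ω hω).2.2
  have hF : ρ.ev (fun ω => - Real.log K - (Real.log (μ (A ω)) + Real.log (lam (B ω)))) ≤ ρ.ent (pair A B) := by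
    refine ent_ev_mono ρ fun ω hω => ?_
    obtain ⟨hK, hm1, hm2⟩ := hpos ω hω
    have h1 := ent_fib_pos ρ (pair A B) hω
    have h2 := Real.log_le_log h1 (h ω hω)
    rw [Real.log_mul hK.ne' (mul_pos hm1 hm2).ne', Real.log_mul hm1.ne' hm2.ne'] at h2
    linarith
  rw [ent_ev_sub, ent_ev_const, ent_ev_add] at hF
  rw [ent_ev_neg] at g1 g2
  unfold FLaw.mi
  linarith

/-- conditional form: comparison weights may depend on the value of `C` -/
theorem ent_miC_le_of_prod (ρ : FLaw Ω) (A : Ω → α) (B : Ω → β) (C : Ω → γ) (μ : γ → α → ℝ)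
    (lam : γ → β → ℝ) (hμ : ∀ c, IsW (μ c)) (hl : ∀ c, IsW (lam c)) {K : ℝ}
    (h : ∀ ω, ρ.p ω ≠ 0 →
      ρ.fib (pair (pair A B) C) ω ≤ K * (ρ.fib C ω * (μ (C ω) (A ω) * lam (C ω) (B ω)))) :
    ρ.miC A B C ≤ Real.log K := by
  have hpos : ∀ ω, ρ.p ω ≠ 0 → 0 < K ∧ 0 < μ (C ω) (A ω) ∧ 0 < lam (C ω) (B ω) := by
    intro ω hω
    have h1 := ent_fib_pos ρ (pair (pair A B) C) hω
    have h2 := lt_of_lt_of_le h1 (h ω hω)
    have a0 := ent_fib_nonneg ρ C ω
    have a1 := (hμ (C ω)).1 (A ω)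
    have a2 := (hl (C ω)).1 (B ω)
    have h3 : 0 ≤ ρ.fib C ω * (μ (C ω) (A ω) * lam (C ω) (B ω)) := mul_nonneg a0 (mul_nonneg a1 a2)
    refine ⟨?_, ?_, ?_⟩
    · by_contra hK
      have : K * (ρ.fib C ω * (μ (C ω) (A ω) * lam (C ω) (B ω))) ≤ 0 :=
        mul_nonpos_of_nonpos_of_nonneg (not_lt.1 hK) h3
      linarith
    · refine lt_of_le_of_ne a1 fun h0 => ?_
      rw [← h0] at h2
      simp at h2
    · refine lt_of_le_of_ne a2 fun h0 => ?_
      rw [← h0] at h2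
      simp at h2
  have w1 := ent_aux_isW_skew (ent_wt_isW ρ C) hμ
  have w2 := ent_aux_isW_skew (ent_wt_isW ρ C) hl
  have g1 := ent_gibbs ρ (pair A C) _ w1.1 w1.2 fun ω hω =>
    mul_pos (ent_fib_pos ρ C hω) (hpos ω hω).2.1
  have g2 := ent_gibbs ρ (pair B C) _ w2.1 w2.2 fun ω hω =>
    mul_pos (ent_fib_pos ρ C hω) (hpos ω hω).2.2
  have e1 : ρ.ev (fun ω => - Real.log (ρ.wt C (pair A C ω).2 * μ (pair A C ω).2 (pair A C ω).1)) =
      ρ.ent C - ρ.ev (fun ω => Real.log (μ (C ω) (A ω))) := by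
    unfold FLaw.ent
    rw [← ent_ev_sub]
    refine ent_ev_congr ρ fun ω hω => ?_
    show - Real.log (ρ.fib C ω * μ (C ω) (A ω)) = _
    rw [Real.log_mul (ent_fib_pos ρ C hω).ne' (hpos ω hω).2.1.ne']
    ring
  have e2 : ρ.ev (fun ω => - Real.log (ρ.wt C (pair B C ω).2 * lam (pair B C ω).2 (pair B C ω).1)) =
      ρ.ent C - ρ.ev (fun ω => Real.log (lam (C ω) (B ω))) := by
    unfold FLaw.ent
    rw [← ent_ev_sub]
    refine ent_ev_congr ρ fun ω hω => ?_
    show - Real.log (ρ.fib C ω * lam (C ω) (B ω)) = _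
    rw [Real.log_mul (ent_fib_pos ρ C hω).ne' (hpos ω hω).2.2.ne']
    ring
  rw [e1] at g1
  rw [e2] at g2
  have hF : ρ.ev (fun ω => - Real.log K + - Real.log (ρ.fib C ω)
      - (Real.log (μ (C ω) (A ω)) + Real.log (lam (C ω) (B ω)))) ≤ ρ.ent (pair (pair A B) C) := by
    refine ent_ev_mono ρ fun ω hω => ?_
    obtain ⟨hK, hm1, hm2⟩ := hpos ω hω
    have hc := ent_fib_pos ρ C hω
    have h1 := ent_fib_pos ρ (pair (pair A B) C) hω
    have h2 := Real.log_le_log h1 (h ω hω)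
    rw [Real.log_mul hK.ne' (mul_pos hc (mul_pos hm1 hm2)).ne', Real.log_mul hc.ne' (mul_pos hm1 hm2).ne',
      Real.log_mul hm1.ne' hm2.ne'] at h2
    linarith
  rw [ent_ev_sub, ent_ev_add, ent_ev_const, ent_ev_add] at hF
  have hC : ρ.ev (fun ω => - Real.log (ρ.fib C ω)) = ρ.ent C := rfl
  rw [hC] at hF
  unfold FLaw.miC
  linarith

/-- dense-graph conclusion (end of Sec. 2.2): the support of `ρ ≤ A μ ⊗ λ` has `μ ⊗ λ`-mass `≥ 1/A`. -/
theorem ent_dense_support {P Q : FLaw Ω} {A : ℝ} (h : P.Dom A Q) :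
    1 / A ≤ Q.pr (fun ω => P.p ω ≠ 0) := by
  have hA : 0 < A := lt_of_lt_of_le zero_lt_one (ent_dom_one_le h)
  rw [div_le_iff₀ hA, ← P.sum_one]
  unfold FLaw.pr
  rw [Finset.sum_mul]
  refine Finset.sum_le_sum fun ω _ => ?_
  by_cases h0 : P.p ω = 0
  · simp [h0]
  · rw [if_pos h0, mul_comm]
    exact h ω

/-! ## Lemma 2.6 -/

/-- existence of the core.  Induction on the number of a.e. points of `E₀`, with the strengthened claim
"loss `≤ η Σ` of `μ_i(v)` over the pairs `(i,v)` removed", each pair being removed at most once (after removal its marginal is `0`). -/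
theorem ent_core_exists {ι : Type} [Fintype ι] {α : ι → Type} (P : FLaw Ω) (E₀ : Ω → Prop)
    (F : ∀ i, Ω → α i) (μ : ∀ i, α i → ℝ) (hμ : ∀ i, IsW (μ i)) {η : ℝ} (hη : 0 ≤ η) :
    ∃ E : Ω → Prop, (∀ ω, E ω → E₀ ω) ∧ P.pr E₀ - Fintype.card ι * η ≤ P.pr E ∧ P.Core E F μ η := by
  obtain ⟨V, hV⟩ : ∃ V : Finset Ω → ∀ i, Finset (α i),
      V = fun s i => (s.filter fun ω => P.p ω ≠ 0).image (F i) := ⟨_, rfl⟩
  obtain ⟨Φ, hΦ⟩ : ∃ Φ : Finset Ω → ℝ,
      Φ = fun s => P.pr (fun ω => ω ∈ s) - η * ∑ i, ∑ v ∈ V s i, μ i v := ⟨_, rfl⟩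
  obtain ⟨s0, hs0⟩ : ∃ s0 : Finset Ω, s0 = Finset.univ.filter E₀ := ⟨_, rfl⟩
  obtain ⟨s, hs, hmax⟩ := Finset.exists_max_image s0.powerset Φ ⟨s0, Finset.mem_powerset_self s0⟩
  have hss0 : s ⊆ s0 := Finset.mem_powerset.1 hs
  have hsumnn : ∀ t : Finset Ω, 0 ≤ ∑ i, ∑ v ∈ V t i, μ i v := fun t =>
    Finset.sum_nonneg fun i _ => Finset.sum_nonneg fun v _ => (hμ i).1 v
  refine ⟨fun ω => ω ∈ s, ?_, ?_, ?_⟩
  · intro ω hω
    have := hss0 hω
    rw [hs0] at this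
    exact (Finset.mem_filter.1 this).2
  · have h1 := hmax s0 (Finset.mem_powerset_self s0)
    rw [hΦ] at h1
    simp only at h1
    have h2 : P.pr (fun ω => ω ∈ s0) = P.pr E₀ := by
      refine ent_pr_congr P fun ω _ => ?_
      rw [hs0]
      simp
    have h3 : ∑ i, ∑ v ∈ V s0 i, μ i v ≤ Fintype.card ι := by
      calc ∑ i, ∑ v ∈ V s0 i, μ i v ≤ ∑ _i : ι, (1 : ℝ) := Finset.sum_le_sum fun i _ => (hμ i).2 _
        _ = Fintype.card ι := by simp
    have h4 := mul_le_mul_of_nonneg_left h3 hη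
    have h5 := mul_nonneg hη (hsumnn s)
    rw [h2] at h1
    linarith
  · intro i ω hω hp
    by_contra hcon
    rw [not_le] at hcon
    obtain ⟨s1, hs1⟩ : ∃ s1 : Finset Ω, s1 = s.filter fun ω' => F i ω' ≠ F i ω := ⟨_, rfl⟩
    have hs1s : s1 ⊆ s := hs1 ▸ Finset.filter_subset _ _
    have h1 := hmax s1 (Finset.mem_powerset.2 (hs1s.trans hss0))
    rw [hΦ] at h1
    simp only at h1
    have hpr : P.pr (fun ω' => ω' ∈ s) = P.pr (fun ω' => ω' ∈ s ∧ F i ω' = F i ω) + P.pr (fun ω' => ω' ∈ s1) := by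
      rw [ent_pr_split P (fun ω' => ω' ∈ s) (fun ω' => F i ω' = F i ω)]
      congr 1
      refine ent_pr_congr P fun ω' _ => ?_
      rw [hs1, Finset.mem_filter]
    have hterm : ∀ j ∈ (Finset.univ : Finset ι), ∑ v ∈ V s1 j, μ j v ≤
        ∑ v ∈ V s j, μ j v - if j = i then μ i (F i ω) else 0 := by
      intro j _
      rcases eq_or_ne j i with rfl | hj
      · rw [if_pos rfl]
        have hmem : F j ω ∈ V s j := by
          rw [hV]
          exact Finset.mem_image.2 ⟨ω, Finset.mem_filter.2 ⟨hω, hp⟩, rfl⟩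
        have hsub : V s1 j ⊆ (V s j).erase (F j ω) := by
          intro v hv
          rw [hV] at hv
          obtain ⟨ω', hω', rfl⟩ := Finset.mem_image.1 hv
          obtain ⟨hω'1, hω'2⟩ := Finset.mem_filter.1 hω'
          rw [hs1] at hω'1
          obtain ⟨ha, hb⟩ := Finset.mem_filter.1 hω'1
          refine Finset.mem_erase.2 ⟨hb, ?_⟩
          rw [hV]
          exact Finset.mem_image.2 ⟨ω', Finset.mem_filter.2 ⟨ha, hω'2⟩, rfl⟩
        have h2 := Finset.sum_le_sum_of_subset_of_nonneg hsub (f := μ j) fun v _ _ => (hμ j).1 v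
        have h3 := Finset.add_sum_erase (V s j) (μ j) hmem
        linarith
      · rw [if_neg hj, sub_zero]
        refine Finset.sum_le_sum_of_subset_of_nonneg ?_ fun v _ _ => (hμ j).1 v
        rw [hV]
        exact Finset.image_subset_image (Finset.filter_subset_filter _ hs1s)
    have hsum := Finset.sum_le_sum hterm
    rw [Finset.sum_sub_distrib, Finset.sum_ite_eq' Finset.univ i (fun _ => μ i (F i ω)),
      if_pos (Finset.mem_univ i)] at hsum
    have h4 := mul_le_mul_of_nonneg_left hsum hη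
    rw [mul_sub] at h4
    linarith

/-- (2.23) for any stable retained event -/
theorem ent_core_actual {ι : Type} {α : ι → Type} (P : FLaw Ω) {E₀ E : Ω → Prop}
    (hsub : ∀ ω, E ω → E₀ ω) (hM : 0 < P.pr E) (F : ∀ i, Ω → α i) (μ : ∀ i, α i → ℝ)
    (hμ : ∀ i, IsW (μ i)) {η : ℝ} (hη : 0 < η) (hcore : P.Core E F μ η) (T : Finset ι) {A : ℝ}
    (hA : 0 ≤ A) (h : P.PDom E₀ T F μ A) :
    (P.cnd E).PDom (fun _ => True) T F (fun i => (P.cnd E).wt (F i))
      (A / P.pr E * (P.pr E / η) ^ T.card) := by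
  intro ω
  have hprodnn : 0 ≤ ∏ i ∈ T, (P.cnd E).wt (F i) (F i ω) :=
    Finset.prod_nonneg fun i _ => ent_pr_nonneg _ _
  have hconst : 0 ≤ A / P.pr E * (P.pr E / η) ^ T.card := by positivity
  by_cases h0 : 0 < (P.cnd E).pr (fun ω' => True ∧ ∀ i ∈ T, F i ω' = F i ω)
  · obtain ⟨ω', ⟨-, hω'⟩, hp'⟩ := (ent_pr_pos_iff _ _).1 h0
    obtain ⟨hE', hp⟩ := (ent_cnd_supp P E hM).1 hp'
    have h1 : (P.cnd E).pr (fun ω'' => True ∧ ∀ i ∈ T, F i ω'' = F i ω) ≤
        A / P.pr E * ∏ i ∈ T, μ i (F i ω) := by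
      rw [ent_cnd_pr P E hM, div_mul_eq_mul_div]
      refine div_le_div_of_nonneg_right (le_trans (ent_pr_mono P fun ω'' _ hh => ?_) (h ω)) hM.le
      exact ⟨hsub _ hh.1, hh.2.2⟩
    have h2 : ∏ i ∈ T, μ i (F i ω) ≤ ∏ i ∈ T, (P.pr E / η * (P.cnd E).wt (F i) (F i ω)) := by
      refine Finset.prod_le_prod (fun i _ => (hμ i).1 _) fun i hi => ?_
      have h3 := hcore i ω' hE' hp
      rw [hω' i hi] at h3
      have h4 : (P.cnd E).wt (F i) (F i ω) = P.pr (fun ω'' => E ω'' ∧ F i ω'' = F i ω) / P.pr E :=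
        ent_cnd_pr P E hM _
      rw [h4]
      have h5 : P.pr E / η * (P.pr (fun ω'' => E ω'' ∧ F i ω'' = F i ω) / P.pr E) =
          P.pr (fun ω'' => E ω'' ∧ F i ω'' = F i ω) / η := by
        field_simp
      rw [h5, le_div_iff₀ hη, mul_comm]
      exact h3
    rw [Finset.prod_mul_distrib, Finset.prod_const] at h2
    calc _ ≤ A / P.pr E * ∏ i ∈ T, μ i (F i ω) := h1
      _ ≤ A / P.pr E * ((P.pr E / η) ^ T.card * ∏ i ∈ T, (P.cnd E).wt (F i) (F i ω)) :=
          mul_le_mul_of_nonneg_left h2 (by positivity)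
      _ = _ := by ring
  · exact le_trans (not_lt.1 h0) (mul_nonneg hconst hprodnn)

/-- every mass upper bound persists with the factor `1/M` -/
theorem ent_core_mass (P : FLaw Ω) {E₀ E : Ω → Prop} (hsub : ∀ ω, E ω → E₀ ω) (hM : 0 < P.pr E)
    (G : Ω → Prop) : (P.cnd E).pr G ≤ P.pr (fun ω => E₀ ω ∧ G ω) / P.pr E := by
  rw [ent_cnd_pr P E hM]
  exact div_le_div_of_nonneg_right (ent_pr_mono P fun ω _ h => ⟨hsub ω h.1, h.2⟩) hM.le

/-- old comparisons persist with the factor `1/M` -/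
theorem ent_core_old {ι : Type} {α : ι → Type} (P : FLaw Ω) {E₀ E : Ω → Prop}
    (hsub : ∀ ω, E ω → E₀ ω) (hM : 0 < P.pr E) (F : ∀ i, Ω → α i) (μ : ∀ i, α i → ℝ)
    (T : Finset ι) {A : ℝ} (h : P.PDom E₀ T F μ A) :
    (P.cnd E).PDom (fun _ => True) T F μ (A / P.pr E) := by
  intro ω
  rw [ent_cnd_pr P E hM, div_mul_eq_mul_div]
  refine div_le_div_of_nonneg_right (le_trans (ent_pr_mono P fun ω'' _ hh => ?_) (h ω)) hM.le
  exact ⟨hsub _ hh.1, hh.2.2⟩

/-- the form quoted in Theorem 2.7: threshold `u / (2 N_fac)`, core of mass `≥ u/2`, each `k`-factor constant `A` becomes `≤ A (2 N_fac / u)^k`. -/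
theorem ent_core_half {ι : Type} [Fintype ι] {α : ι → Type} (P : FLaw Ω) (E₀ : Ω → Prop)
    (hm : 0 < P.pr E₀) (F : ∀ i, Ω → α i) (μ : ∀ i, α i → ℝ) (hμ : ∀ i, IsW (μ i)) :
    ∃ E : Ω → Prop, (∀ ω, E ω → E₀ ω) ∧ P.pr E₀ / 2 ≤ P.pr E ∧
      ∀ (T : Finset ι) (A : ℝ), T.Nonempty → 0 ≤ A → P.PDom E₀ T F μ A →
        (P.cnd E).PDom (fun _ => True) T F (fun i => (P.cnd E).wt (F i))
          (A * (2 * Fintype.card ι / P.pr E₀) ^ T.card) := by
  obtain ⟨η, hηdef⟩ : ∃ η : ℝ, η = P.pr E₀ / (2 * Fintype.card ι) := ⟨_, rfl⟩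
  have hη0 : 0 ≤ η := by
    rw [hηdef]
    positivity
  obtain ⟨E, hsub, hmass, hcore⟩ := ent_core_exists P E₀ F μ hμ hη0
  have hhalf : P.pr E₀ / 2 ≤ P.pr E := by
    have h1 : (Fintype.card ι : ℝ) * η ≤ P.pr E₀ / 2 := by
      rw [hηdef]
      by_cases hc : (Fintype.card ι : ℝ) = 0
      · rw [hc]
        simp only [zero_mul]
        positivity
      · refine le_of_eq ?_
        field_simp
    linarith
  have hM : 0 < P.pr E := lt_of_lt_of_le (by positivity) hhalf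
  refine ⟨E, hsub, hhalf, fun T A hT hA hdom => ?_⟩
  have hcard : 0 < (Fintype.card ι : ℝ) := by
    obtain ⟨i, -⟩ := hT
    exact_mod_cast Fintype.card_pos_iff.2 ⟨i⟩
  have hη : 0 < η := by
    rw [hηdef]
    positivity
  have hact := ent_core_actual P hsub hM F μ hμ hη hcore T hA hdom
  intro ω
  refine (hact ω).trans (mul_le_mul_of_nonneg_right ?_ (Finset.prod_nonneg fun i _ => ent_pr_nonneg _ _))
  have hk : 1 ≤ T.card := Finset.card_pos.2 hT
  have hM1 : P.pr E ≤ 1 := ent_pr_le_one P E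
  have e1 : A / P.pr E * (P.pr E / η) ^ T.card = A * (P.pr E ^ (T.card - 1) * (1 / η) ^ T.card) := by
    obtain ⟨k, hk'⟩ : ∃ k, T.card = k + 1 := ⟨T.card - 1, by omega⟩
    rw [hk', Nat.add_sub_cancel, div_pow, div_pow, one_pow, pow_succ (P.pr E) k]
    field_simp
  have e2 : 2 * (Fintype.card ι : ℝ) / P.pr E₀ = 1 / η := by
    rw [hηdef]
    field_simp
  rw [e1, e2]
  refine mul_le_mul_of_nonneg_left ?_ hA
  have h3 : P.pr E ^ (T.card - 1) ≤ 1 := pow_le_one₀ hM.le hM1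
  have h4 : 0 ≤ (1 / η) ^ T.card := by positivity
  nlinarith

theorem ent_prod_eqns_cite : True := by
  have := @IsW.eq_1
  have := @FLaw.wt.eq_1
  have := @FLaw.PDom.eq_1
  have := @FLaw.Core.eq_1
  trivial

end Claimed.Agent.R255
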