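-- KEEP
import Claimed.Agent.R255.Ent.Prod

/-!
# Row 255 (BR paper), Sec. 2 library, file 5: Theorem 2.7 (finite stars), its consequences, Corollary 2.8      (architect helper186)

PAPER-FREE.  Paper: `02-entropy.tex` l.417-640.
Points `Pt` and labels `Bl` are finite types (for observations with values in an arbitrary type use `P.map` onto `Set.range`, see `rgf`, `ent_rgf_*` at the end).
A pair law is `q : FLaw (Pt × Bl)`;  the star space is `Pt × (Fin n → Bl)`.
* `π.keep E α`   the retained pairs: in `E`, point fibre of retention `≥ α`;  `π.cnd (π.keep E α)` is the `q` of (2.25)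
* `q.kq p b`     the kernel `q(b|p)`;  `KerBd q lam c` : `q(b|p) ≤ c λ(b)`  (written multiplicatively)
* `q.starS n`     `S`;   `q.star0 lam n = Λ₀`;   `q.stari lam n i = Λ_i`
* `starC J f`    the observation `C = (B_J, f(P, B_J))`
STRUCTURE.  (2.25) `ent_star_trim_*`; (2.26), (2.27) `ent_star_dom0/domi`; (2.28), (2.29) `ent_star_cond` (ANY observation `C`, any `R ≤ a S`; for `R = w S / m` take `a = 1/m`, `ent_tilt_dom`);
(2.30)-(2.32) `ent_star_fact0/factJ/factF`; user forms `ent_star_point_fixed` (= (2.34) with or without `Z`), `ent_star_joint_free`; (2.33) `ent_star_free`, `ent_star_point_free*`;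
(2.35) `ent_parent_product`; (2.36) `ent_slice_factor`; C2.8 `ent_point_slice`, `ent_slice_label`.  Core constants: `ent_core_half` in `Ent/Prod.lean`.
Provers edit only bodies; statements frozen (ask helper186).
-/

set_option autoImplicit false

namespace Claimed.Agent.R255

open scoped BigOperators
open Classical
open FLaw

variable {Ω : Type} [Fintype Ω] {α β γ δ : Type}
variable {Pt Bl : Type} [Fintype Pt] [Fintype Bl]

namespace FLaw

/-- retained pairs of (2.25) -/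
def keep (π : FLaw (Pt × Bl)) (E : Pt × Bl → Prop) (a : ℝ) (x : Pt × Bl) : Prop :=
  E x ∧ a ≤ π.ret E Prod.fst x

/-- the kernel `q(b | p)` -/
noncomputable def kq (q : FLaw (Pt × Bl)) (p : Pt) (b : Bl) : ℝ := q.p (p, b) / (q.map Prod.fst).p p

end FLaw

/-- `q(b|p) ≤ c λ(b)` -/
def KerBd (q : FLaw (Pt × Bl)) (lam : FLaw Bl) (c : ℝ) : Prop :=
  ∀ p b, q.p (p, b) ≤ c * lam.p b * (q.map Prod.fst).p p

/-- helper: the first marginal as a sum over the second coordinate -/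
theorem ent_aux_map_fst_p {A B : Type} [Fintype A] [Fintype B] (q : FLaw (A × B)) (p : A) :
    (q.map Prod.fst).p p = ∑ b, q.p (p, b) := by
  show q.pr (fun x => x.1 = p) = _
  unfold FLaw.pr
  rw [Fintype.sum_prod_type, Finset.sum_eq_single p]
  · simp
  · intro p' _ hp'
    simp [hp']
  · intro h
    exact absurd (Finset.mem_univ p) h

/-- helper: sum of a product over all label vectors -/
theorem ent_aux_sum_pi {n : ℕ} (g : Fin n → Bl → ℝ) :
    ∑ b : Fin n → Bl, ∏ j, g j (b j) = ∏ j, ∑ b, g j b := by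
  rw [Finset.prod_univ_sum, Fintype.piFinset_univ]

/-- helper: the same with the labels in `J` prescribed -/
theorem ent_aux_sum_pi_fix {n : ℕ} (J : Finset (Fin n)) (b₀ : Fin n → Bl) (h : Fin n → Bl → ℝ) :
    ∑ b : Fin n → Bl, (if ∀ j ∈ J, b j = b₀ j then ∏ j, h j (b j) else 0)
      = (∏ j ∈ J, h j (b₀ j)) * ∏ j ∈ Jᶜ, ∑ b, h j b := by
  have e : ∀ b : Fin n → Bl, (if ∀ j ∈ J, b j = b₀ j then ∏ j, h j (b j) else 0)
      = ∏ j, (if j ∈ J then (if b j = b₀ j then h j (b j) else 0) else h j (b j)) := by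
    intro b
    by_cases hb : ∀ j ∈ J, b j = b₀ j
    · rw [if_pos hb]
      refine Finset.prod_congr rfl fun j _ => ?_
      by_cases hj : j ∈ J
      · rw [if_pos hj, if_pos (hb j hj)]
      · rw [if_neg hj]
    · rw [if_neg hb]
      push Not at hb
      obtain ⟨j, hj, hne⟩ := hb
      symm
      refine Finset.prod_eq_zero (Finset.mem_univ j) ?_
      rw [if_pos hj, if_neg hne]
  simp only [e]
  rw [ent_aux_sum_pi (fun j b => if j ∈ J then (if b = b₀ j then h j b else 0) else h j b),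
    ← Finset.prod_mul_prod_compl J]
  congr 1
  · refine Finset.prod_congr rfl fun j hj => ?_
    simp only [if_pos hj]
    rw [Finset.sum_ite_eq' Finset.univ (b₀ j) (fun b => h j b)]
    simp
  · refine Finset.prod_congr rfl fun j hj => ?_
    simp only [if_neg (Finset.mem_compl.1 hj)]

theorem ent_aux_p_le_map_fst {A B : Type} [Fintype A] [Fintype B] (q : FLaw (A × B)) (p : A) (b : B) :
    q.p (p, b) ≤ (q.map Prod.fst).p p := by
  rw [ent_aux_map_fst_p]
  exact Finset.single_le_sum (f := fun b => q.p (p, b)) (fun b _ => q.nonneg _) (Finset.mem_univ b)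

theorem ent_kq_nonneg (q : FLaw (Pt × Bl)) (p : Pt) (b : Bl) : 0 ≤ q.kq p b := by
  exact div_nonneg (q.nonneg _) ((q.map Prod.fst).nonneg _)

theorem ent_kq_sum (q : FLaw (Pt × Bl)) {p : Pt} (h : (q.map Prod.fst).p p ≠ 0) :
    ∑ b, q.kq p b = 1 := by
  unfold FLaw.kq
  rw [← Finset.sum_div, ← ent_aux_map_fst_p, div_self h]

theorem ent_kq_mul (q : FLaw (Pt × Bl)) (p : Pt) (b : Bl) :
    (q.map Prod.fst).p p * q.kq p b = q.p (p, b) := by
  unfold FLaw.kq
  by_cases h : (q.map Prod.fst).p p = 0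
  · have h1 := ent_aux_p_le_map_fst q p b
    rw [h] at h1
    rw [h, zero_mul]
    exact le_antisymm (q.nonneg _) h1
  · rw [mul_div_cancel₀ _ h]

/-- `Σ_p μ(p) ∏_i Σ_b q(b|p) = 1` (`Finset.prod_univ_sum`, `Fintype.sum_prod_type`) -/
theorem ent_star_sum (q : FLaw (Pt × Bl)) (n : ℕ) :
    ∑ x : Pt × (Fin n → Bl), (q.map Prod.fst).p x.1 * ∏ i, q.kq x.1 (x.2 i) = 1 := by
  rw [Fintype.sum_prod_type, ← (q.map Prod.fst).sum_one]
  refine Finset.sum_congr rfl fun p _ => ?_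
  show ∑ b : Fin n → Bl, (q.map Prod.fst).p p * ∏ i, q.kq p (b i) = _
  rw [← Finset.mul_sum, ent_aux_sum_pi (fun _ b => q.kq p b)]
  by_cases h : (q.map Prod.fst).p p = 0
  · rw [h, zero_mul]
  · simp only [ent_kq_sum q h, Finset.prod_const_one, mul_one]

theorem ent_star0_sum (q : FLaw (Pt × Bl)) (lam : FLaw Bl) (n : ℕ) :
    ∑ x : Pt × (Fin n → Bl), (q.map Prod.fst).p x.1 * ∏ i, lam.p (x.2 i) = 1 := by
  rw [Fintype.sum_prod_type, ← (q.map Prod.fst).sum_one]
  refine Finset.sum_congr rfl fun p _ => ?_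
  show ∑ b : Fin n → Bl, (q.map Prod.fst).p p * ∏ i, lam.p (b i) = _
  rw [← Finset.mul_sum, ent_aux_sum_pi (fun _ b => lam.p b)]
  simp only [lam.sum_one, Finset.prod_const_one, mul_one]

theorem ent_stari_sum (q : FLaw (Pt × Bl)) (lam : FLaw Bl) (n : ℕ) (i : Fin n) :
    ∑ x : Pt × (Fin n → Bl), q.p (x.1, x.2 i) * ∏ j ∈ Finset.univ.erase i, lam.p (x.2 j) = 1 := by
  rw [Fintype.sum_prod_type, ← (q.map Prod.fst).sum_one]
  refine Finset.sum_congr rfl fun p _ => ?_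
  show ∑ b : Fin n → Bl, q.p (p, b i) * ∏ j ∈ Finset.univ.erase i, lam.p (b j) = _
  have e : ∀ b : Fin n → Bl, q.p (p, b i) * ∏ j ∈ Finset.univ.erase i, lam.p (b j)
      = ∏ j, (if j = i then q.p (p, b j) else lam.p (b j)) := by
    intro b
    rw [← Finset.mul_prod_erase Finset.univ _ (Finset.mem_univ i), if_pos rfl]
    congr 1
    refine Finset.prod_congr rfl fun j hj => ?_
    rw [if_neg (Finset.ne_of_mem_erase hj)]
  simp only [e]
  rw [ent_aux_sum_pi (fun j b => if j = i then q.p (p, b) else lam.p b),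
    ← Finset.mul_prod_erase Finset.univ _ (Finset.mem_univ i)]
  simp only [if_true]
  rw [← ent_aux_map_fst_p, Finset.prod_eq_one, mul_one]
  intro j hj
  simp only [if_neg (Finset.ne_of_mem_erase hj), lam.sum_one]

namespace FLaw

/-- the star law `S(p, b_1..b_n) = q_P(p) ∏ q(b_i | p)` -/
noncomputable def starS (q : FLaw (Pt × Bl)) (n : ℕ) : FLaw (Pt × (Fin n → Bl)) where
  p := fun x => (q.map Prod.fst).p x.1 * ∏ i, q.kq x.1 (x.2 i)
  nonneg := fun x => mul_nonneg ((q.map Prod.fst).nonneg _)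
    (Finset.prod_nonneg fun i _ => ent_kq_nonneg q _ _)
  sum_one := ent_star_sum q n

/-- `Λ₀ = q_P ⊗ λ^{⊗ n}` -/
noncomputable def star0 (q : FLaw (Pt × Bl)) (lam : FLaw Bl) (n : ℕ) : FLaw (Pt × (Fin n → Bl)) where
  p := fun x => (q.map Prod.fst).p x.1 * ∏ i, lam.p (x.2 i)
  nonneg := fun x => mul_nonneg ((q.map Prod.fst).nonneg _)
    (Finset.prod_nonneg fun i _ => lam.nonneg _)
  sum_one := ent_star0_sum q lam n

/-- `Λ_i = q_{P,B_i} ⊗ ⊗_{j ≠ i} λ` -/
noncomputable def stari (q : FLaw (Pt × Bl)) (lam : FLaw Bl) (n : ℕ) (i : Fin n) :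
    FLaw (Pt × (Fin n → Bl)) where
  p := fun x => q.p (x.1, x.2 i) * ∏ j ∈ Finset.univ.erase i, lam.p (x.2 j)
  nonneg := fun x => mul_nonneg (q.nonneg _) (Finset.prod_nonneg fun i _ => lam.nonneg _)
  sum_one := ent_stari_sum q lam n i

end FLaw

/-- the observation `C = (B_J, Z)`, `Z = f(P, B_J)` -/
def starC {n : ℕ} (J : Finset (Fin n)) {ζ : Type} (f : Pt → (J → Bl) → ζ) :
    Pt × (Fin n → Bl) → (J → Bl) × ζ :=
  fun x => (fun j => x.2 j, f x.1 (fun j => x.2 j))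

/-! ## (2.25): trimming the pair law -/

/-- `M₀ ≥ 1 - ζ/(1-α)` : on `r < α` one has `r ≤ α (1-r)/(1-α)`. -/
theorem ent_star_trim_mass (π : FLaw (Pt × Bl)) (E : Pt × Bl → Prop) {ζ a : ℝ}
    (hE : 1 - ζ ≤ π.pr E) (ha0 : 0 < a) (ha1 : a < 1) :
    1 - ζ / (1 - a) ≤ π.pr (π.keep E a) := by
  have h1a : 0 < 1 - a := by linarith
  have s1 := ent_pr_split π E (fun x => a ≤ π.ret E Prod.fst x)
  have key : π.pr (fun x => E x ∧ ¬ a ≤ π.ret E Prod.fst x) ≤ a / (1 - a) * π.pr (fun x => ¬ E x) := by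
    rw [ent_pr_sum_values π _ Prod.fst Finset.univ (fun _ _ _ => Finset.mem_univ _),
      ent_pr_sum_values π (fun x => ¬ E x) Prod.fst Finset.univ (fun _ _ _ => Finset.mem_univ _),
      Finset.mul_sum]
    refine Finset.sum_le_sum fun p _ => ?_
    have hm : π.pr (fun x => x.1 = p)
        = π.pr (fun x => E x ∧ x.1 = p) + π.pr (fun x => ¬ E x ∧ x.1 = p) := by
      rw [ent_pr_split π (fun x => x.1 = p) E]
      congr 1
      · exact ent_pr_congr π fun x _ => and_comm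
      · exact ent_pr_congr π fun x _ => and_comm
    have hne := ent_pr_nonneg π (fun x => ¬ E x ∧ x.1 = p)
    by_cases hex : ∃ x : Pt × Bl, (E x ∧ ¬ a ≤ π.ret E Prod.fst x) ∧ x.1 = p
    · obtain ⟨x, ⟨hEx, hr⟩, rfl⟩ := hex
      have hr' : π.pr (fun x' => E x' ∧ x'.1 = x.1) / π.pr (fun x' => x'.1 = x.1) < a := not_le.1 hr
      have le1 : π.pr (fun x' => (E x' ∧ ¬ a ≤ π.ret E Prod.fst x') ∧ x'.1 = x.1)
          ≤ π.pr (fun x' => E x' ∧ x'.1 = x.1) := ent_pr_mono π fun x' _ h => ⟨h.1.1, h.2⟩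
      refine le1.trans ?_
      rcases (ent_pr_nonneg π (fun x' => x'.1 = x.1)).eq_or_lt with h0 | hpos
      · have h2 : π.pr (fun x' => E x' ∧ x'.1 = x.1) ≤ 0 := by
          rw [h0]
          exact ent_pr_mono π fun x' _ h => h.2
        exact h2.trans (mul_nonneg (div_nonneg ha0.le h1a.le) hne)
      · rw [div_lt_iff₀ hpos, hm] at hr'
        rw [div_mul_eq_mul_div, le_div_iff₀ h1a]
        nlinarith
    · rw [ent_pr_eq_zero π fun x _ h => hex ⟨x, h⟩]
      exact mul_nonneg (div_nonneg ha0.le h1a.le) hne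
  rw [ent_pr_not] at key
  have e : π.pr (π.keep E a) = π.pr (fun x => E x ∧ a ≤ π.ret E Prod.fst x) := rfl
  rw [e]
  have h3 : a / (1 - a) * (1 - π.pr E) ≤ a / (1 - a) * ζ :=
    mul_le_mul_of_nonneg_left (by linarith) (div_nonneg ha0.le h1a.le)
  have e2 : ζ / (1 - a) = ζ + a / (1 - a) * ζ := by
    field_simp
    ring
  rw [e2]
  linarith

/-- `q ≤ π / M₀` -/
theorem ent_star_trim_dom (π : FLaw (Pt × Bl)) (E : Pt × Bl → Prop) {a : ℝ}
    (hM : 0 < π.pr (π.keep E a)) : (π.cnd (π.keep E a)).Dom (1 / π.pr (π.keep E a)) π := by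
  exact ent_cnd_dom π _ hM

/-- `q(b|p) ≤ (K/α) λ(b)`.  The comparison label law `lam` is arbitrary; the point factor is the marginal of `π`. -/
theorem ent_star_trim_ker (π : FLaw (Pt × Bl)) (lam : FLaw Bl) (E : Pt × Bl → Prop) {K a : ℝ}
    (hK : ∀ x, E x → π.p x ≤ K * ((π.map Prod.fst).p x.1 * lam.p x.2)) (ha0 : 0 < a)
    (hM : 0 < π.pr (π.keep E a)) : KerBd (π.cnd (π.keep E a)) lam (K / a) := by
  obtain ⟨x₁, hk₁, hp₁⟩ := (ent_pr_pos_iff π _).1 hM
  have hKpos : 0 < K := by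
    have h1 := hK x₁ hk₁.1
    have h2 : 0 < π.p x₁ := lt_of_le_of_ne (π.nonneg _) (Ne.symm hp₁)
    have h3 : 0 ≤ (π.map Prod.fst).p x₁.1 * lam.p x₁.2 :=
      mul_nonneg ((π.map Prod.fst).nonneg _) (lam.nonneg _)
    by_contra hcon
    have h4 : K ≤ 0 := not_lt.1 hcon
    nlinarith
  intro p b
  rw [ent_cnd_p π _ hM]
  have hmap : ((π.cnd (π.keep E a)).map Prod.fst).p p
      = π.pr (fun x => π.keep E a x ∧ x.1 = p) / π.pr (π.keep E a) :=
    ent_cnd_pr π _ hM (fun x => x.1 = p)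
  rw [hmap]
  by_cases hk : π.keep E a (p, b)
  · rw [if_pos hk]
    obtain ⟨hEx, hr⟩ := hk
    have hr' : a ≤ π.pr (fun x' => E x' ∧ x'.1 = p) / π.pr (fun x' : Pt × Bl => x'.1 = p) := hr
    have hm : 0 < π.pr (fun x' : Pt × Bl => x'.1 = p) := by
      by_contra hcon
      have h0 : π.pr (fun x' : Pt × Bl => x'.1 = p) = 0 :=
        le_antisymm (not_lt.1 hcon) (ent_pr_nonneg _ _)
      rw [h0, div_zero] at hr'
      linarith
    have hke : π.pr (fun x => π.keep E a x ∧ x.1 = p) = π.pr (fun x' => E x' ∧ x'.1 = p) := by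
      refine ent_pr_congr π fun x _ => ⟨fun h => ⟨h.1.1, h.2⟩, fun h => ⟨⟨h.1, ?_⟩, h.2⟩⟩
      show a ≤ π.pr (fun x' => E x' ∧ x'.1 = x.1) / π.pr (fun x' : Pt × Bl => x'.1 = x.1)
      rw [h.2]
      exact hr'
    rw [hke]
    rw [le_div_iff₀ hm] at hr'
    have h1' : π.p (p, b) ≤ K * (π.pr (fun x' : Pt × Bl => x'.1 = p) * lam.p b) := hK (p, b) hEx
    rw [div_le_iff₀ hM]
    have e3 : K / a * lam.p b * (π.pr (fun x' => E x' ∧ x'.1 = p) / π.pr (π.keep E a)) * π.pr (π.keep E a)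
        = K / a * lam.p b * π.pr (fun x' => E x' ∧ x'.1 = p) := by
      field_simp
    rw [e3]
    have h5 : π.pr (fun x' : Pt × Bl => x'.1 = p) ≤ π.pr (fun x' => E x' ∧ x'.1 = p) / a := by
      rw [le_div_iff₀ ha0]
      linarith
    calc π.p (p, b) ≤ K * (π.pr (fun x' : Pt × Bl => x'.1 = p) * lam.p b) := h1'
      _ ≤ K * (π.pr (fun x' => E x' ∧ x'.1 = p) / a * lam.p b) :=
          mul_le_mul_of_nonneg_left (mul_le_mul_of_nonneg_right h5 (lam.nonneg b)) hKpos.le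
      _ = K / a * lam.p b * π.pr (fun x' => E x' ∧ x'.1 = p) := by
          field_simp
  · rw [if_neg hk, zero_div]
    exact mul_nonneg (mul_nonneg (div_nonneg hKpos.le ha0.le) (lam.nonneg b))
      (div_nonneg (ent_pr_nonneg _ _) hM.le)

/-- a pair law dominated by the product of ITS point marginal and `λ` has the kernel bound (the form used in Secs. 5 and 7) -/
theorem ent_kerBd_of_dom (q : FLaw (Pt × Bl)) (lam : FLaw Bl) {K : ℝ}
    (h : q.Dom K ((q.map Prod.fst).prod lam)) : KerBd q lam K := by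
  intro p b
  have h1 : q.p (p, b) ≤ K * ((q.map Prod.fst).p p * lam.p b) := h (p, b)
  calc q.p (p, b) ≤ K * ((q.map Prod.fst).p p * lam.p b) := h1
    _ = K * lam.p b * (q.map Prod.fst).p p := by ring

theorem ent_kerBd_one_le {q : FLaw (Pt × Bl)} {lam : FLaw Bl} {c : ℝ} (h : KerBd q lam c) :
    1 ≤ c := by
  have h1 : ∑ x : Pt × Bl, q.p x ≤ ∑ x : Pt × Bl, c * lam.p x.2 * (q.map Prod.fst).p x.1 :=
    Finset.sum_le_sum fun x _ => h x.1 x.2
  rw [q.sum_one, Fintype.sum_prod_type] at h1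
  have e : ∑ p : Pt, ∑ b : Bl, c * lam.p b * (q.map Prod.fst).p p = c := by
    simp only [← Finset.sum_mul, ← Finset.mul_sum, lam.sum_one, mul_one, (q.map Prod.fst).sum_one]
  exact h1.trans (le_of_eq e)

theorem ent_kerBd_kq {q : FLaw (Pt × Bl)} {lam : FLaw Bl} {c : ℝ} (h : KerBd q lam c) (p : Pt)
    (b : Bl) : q.kq p b ≤ c * lam.p b := by
  have hc := ent_kerBd_one_le h
  unfold FLaw.kq
  rcases ((q.map Prod.fst).nonneg p).eq_or_lt with h0 | hpos
  · rw [← h0, div_zero]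
    exact mul_nonneg (by linarith) (lam.nonneg b)
  · rw [div_le_iff₀ hpos]
    exact h p b

/-! ## (2.26), (2.27): the named comparison laws -/

theorem ent_star_dom0 {q : FLaw (Pt × Bl)} {lam : FLaw Bl} {c : ℝ} (h : KerBd q lam c) (n : ℕ) :
    (q.starS n).Dom (c ^ n) (q.star0 lam n) := by
  intro x
  show (q.map Prod.fst).p x.1 * ∏ i, q.kq x.1 (x.2 i)
    ≤ c ^ n * ((q.map Prod.fst).p x.1 * ∏ i, lam.p (x.2 i))
  have h1 : ∏ i, q.kq x.1 (x.2 i) ≤ ∏ i : Fin n, c * lam.p (x.2 i) :=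
    Finset.prod_le_prod (fun i _ => ent_kq_nonneg q _ _) fun i _ => ent_kerBd_kq h _ _
  rw [Finset.prod_mul_distrib, Finset.prod_const, Finset.card_univ, Fintype.card_fin] at h1
  calc (q.map Prod.fst).p x.1 * ∏ i, q.kq x.1 (x.2 i)
      ≤ (q.map Prod.fst).p x.1 * (c ^ n * ∏ i, lam.p (x.2 i)) :=
        mul_le_mul_of_nonneg_left h1 ((q.map Prod.fst).nonneg _)
    _ = c ^ n * ((q.map Prod.fst).p x.1 * ∏ i, lam.p (x.2 i)) := by ring

theorem ent_star_domi {q : FLaw (Pt × Bl)} {lam : FLaw Bl} {c : ℝ} (h : KerBd q lam c) (n : ℕ)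
    (i : Fin n) : (q.starS n).Dom (c ^ (n - 1)) (q.stari lam n i) := by
  intro x
  show (q.map Prod.fst).p x.1 * ∏ j, q.kq x.1 (x.2 j)
    ≤ c ^ (n - 1) * (q.p (x.1, x.2 i) * ∏ j ∈ Finset.univ.erase i, lam.p (x.2 j))
  rw [← Finset.mul_prod_erase Finset.univ (fun j => q.kq x.1 (x.2 j)) (Finset.mem_univ i), ← mul_assoc,
    ent_kq_mul]
  have h1 : ∏ j ∈ Finset.univ.erase i, q.kq x.1 (x.2 j) ≤ ∏ j ∈ Finset.univ.erase i, c * lam.p (x.2 j) :=
    Finset.prod_le_prod (fun i _ => ent_kq_nonneg q _ _) fun i _ => ent_kerBd_kq h _ _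
  rw [Finset.prod_mul_distrib, Finset.prod_const, Finset.card_erase_of_mem (Finset.mem_univ i),
    Finset.card_univ, Fintype.card_fin] at h1
  calc q.p (x.1, x.2 i) * ∏ j ∈ Finset.univ.erase i, q.kq x.1 (x.2 j)
      ≤ q.p (x.1, x.2 i) * (c ^ (n - 1) * ∏ j ∈ Finset.univ.erase i, lam.p (x.2 j)) :=
        mul_le_mul_of_nonneg_left h1 (q.nonneg _)
    _ = c ^ (n - 1) * (q.p (x.1, x.2 i) * ∏ j ∈ Finset.univ.erase i, lam.p (x.2 j)) := by ring

/-- the retained pair law may be replaced by the original one at the cost `1/M₀` -/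
theorem ent_stari_dom {q π : FLaw (Pt × Bl)} {A : ℝ} (h : q.Dom A π) (lam : FLaw Bl) (n : ℕ)
    (i : Fin n) : (q.stari lam n i).Dom A (π.stari lam n i) := by
  intro x
  show q.p (x.1, x.2 i) * ∏ j ∈ Finset.univ.erase i, lam.p (x.2 j)
    ≤ A * (π.p (x.1, x.2 i) * ∏ j ∈ Finset.univ.erase i, lam.p (x.2 j))
  calc q.p (x.1, x.2 i) * ∏ j ∈ Finset.univ.erase i, lam.p (x.2 j)
      ≤ (A * π.p (x.1, x.2 i)) * ∏ j ∈ Finset.univ.erase i, lam.p (x.2 j) :=
        mul_le_mul_of_nonneg_right (h _) (Finset.prod_nonneg fun j _ => lam.nonneg _)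
    _ = A * (π.p (x.1, x.2 i) * ∏ j ∈ Finset.univ.erase i, lam.p (x.2 j)) := by ring

/-- marginals of the star: point -/
theorem ent_star_map_fst (q : FLaw (Pt × Bl)) (n : ℕ) :
    (q.starS n).map Prod.fst = q.map Prod.fst := by
  refine ent_law_ext _ _ fun p => ?_
  rw [ent_aux_map_fst_p (q.starS n) p]
  show ∑ b : Fin n → Bl, (q.map Prod.fst).p p * ∏ i, q.kq p (b i) = _
  rw [← Finset.mul_sum, ent_aux_sum_pi (fun _ b => q.kq p b)]
  by_cases h : (q.map Prod.fst).p p = 0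
  · rw [h, zero_mul]
  · simp only [ent_kq_sum q h, Finset.prod_const_one, mul_one]

/-- marginals of the star: each (point, label) pair is a copy of `q` -/
theorem ent_star_map_pair (q : FLaw (Pt × Bl)) (n : ℕ) (i : Fin n) :
    (q.starS n).map (fun x => (x.1, x.2 i)) = q := by
  refine ent_law_ext _ _ fun y => ?_
  obtain ⟨p, b⟩ := y
  show (q.starS n).pr (fun x => (x.1, x.2 i) = (p, b)) = q.p (p, b)
  unfold FLaw.pr
  rw [Fintype.sum_prod_type, Finset.sum_eq_single p]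
  · refine Eq.trans (Finset.sum_congr rfl (g := fun v : Fin n → Bl => (q.map Prod.fst).p p *
      (if ∀ j ∈ ({i} : Finset (Fin n)), v j = b then ∏ j, q.kq p (v j) else 0)) fun v _ => ?_) ?_
    · by_cases hv : v i = b
      · rw [if_pos (by show (p, v i) = (p, b); rw [hv]), if_pos (by simpa using hv)]
        rfl
      · rw [if_neg (by show ¬ (p, v i) = (p, b); simpa using hv), if_neg (by simpa using hv), mul_zero]
    · rw [← Finset.mul_sum, ent_aux_sum_pi_fix {i} (fun _ => b) (fun _ b' => q.kq p b'),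
        Finset.prod_singleton, ← mul_assoc, ent_kq_mul]
      by_cases h : (q.map Prod.fst).p p = 0
      · have h1 := ent_aux_p_le_map_fst q p b
        rw [h] at h1
        rw [le_antisymm h1 (q.nonneg _), zero_mul]
      · simp only [ent_kq_sum q h, Finset.prod_const_one, mul_one]
  · intro p' _ hp'
    refine Finset.sum_eq_zero fun v _ => ?_
    rw [if_neg]
    simp [hp']
  · intro h
    exact absurd (Finset.mem_univ p) h

/-- an event of independent label probability `η` has star probability at most `c^n η` -/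
theorem ent_star_event {q : FLaw (Pt × Bl)} {lam : FLaw Bl} {c : ℝ} (h : KerBd q lam c) (n : ℕ)
    (G : Pt × (Fin n → Bl) → Prop) : (q.starS n).pr G ≤ c ^ n * (q.star0 lam n).pr G := by
  exact ent_dom_pr (ent_star_dom0 h n) G

/-! ## (2.28), (2.29): conditioning on an arbitrary observation -/

/-- Theorem 2.7, conditional dominations (`ent_typical` for the `n+1` comparison laws indexed by `Option (Fin n)`). -/
theorem ent_star_cond {q : FLaw (Pt × Bl)} {lam : FLaw Bl} {c : ℝ} (h : KerBd q lam c) (n : ℕ)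
    {R : FLaw (Pt × (Fin n → Bl))} {a : ℝ} (hR : R.Dom a (q.starS n))
    (C : Pt × (Fin n → Bl) → γ) {η : ℝ} (hη : 0 < η) :
    1 - ((n : ℝ) + 1) * η ≤ R.pr (fun x =>
      (R.cfib C x).Dom (a * c ^ n / η) ((q.star0 lam n).cfib C x) ∧
      ∀ i, (R.cfib C x).Dom (a * c ^ (n - 1) / η) ((q.stari lam n i).cfib C x)) := by
  have hc := ent_kerBd_one_le h
  have ha : 1 ≤ a := ent_dom_one_le hR
  have key := ent_typical R
    (fun o : Option (Fin n) => match o with
      | none => q.star0 lam n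
      | some i => q.stari lam n i)
    (fun o : Option (Fin n) => match o with
      | none => a * c ^ n
      | some _ => a * c ^ (n - 1))
    (fun o => by
      cases o with
      | none => exact ent_dom_trans (by linarith) hR (ent_star_dom0 h n)
      | some i => exact ent_dom_trans (by linarith) hR (ent_star_domi h n i)) C hη
  rw [Fintype.card_option, Fintype.card_fin] at key
  push_cast at key
  refine key.trans (ent_pr_mono R fun x _ hx => ⟨hx none, fun i => hx (some i)⟩)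

/-! ## (2.30)-(2.32): the conditioned comparison laws for `C = (B_J, f(P,B_J))` -/

omit [Fintype Pt] [Fintype Bl] in
/-- helper: the meaning of `C x = C x₀` -/
theorem ent_aux_starC_iff {n : ℕ} (J : Finset (Fin n)) {ζ : Type} (f : Pt → (J → Bl) → ζ)
    (x x₀ : Pt × (Fin n → Bl)) :
    starC J f x = starC J f x₀ ↔ (∀ j ∈ J, x.2 j = x₀.2 j) ∧
      f x.1 (fun j => x₀.2 j) = f x₀.1 (fun j => x₀.2 j) := by
  unfold starC
  rw [Prod.mk.injEq]
  constructor
  · rintro ⟨h1, h2⟩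
    refine ⟨fun j hj => congrFun h1 ⟨j, hj⟩, ?_⟩
    rw [h1] at h2
    exact h2
  · rintro ⟨h1, h2⟩
    have e : (fun j : J => x.2 j) = fun j : J => x₀.2 j := funext fun j => h1 j j.2
    exact ⟨e, by rw [e]; exact h2⟩

/-- helper: mass of a cell of `C` for a law of product form -/
theorem ent_aux_starC_fib {n : ℕ} (Λ : FLaw (Pt × (Fin n → Bl))) (w : Pt → ℝ)
    (h : Pt → Fin n → Bl → ℝ) (hΛ : ∀ x, Λ.p x = w x.1 * ∏ j, h x.1 j (x.2 j)) (J : Finset (Fin n))
    {ζ : Type} (f : Pt → (J → Bl) → ζ) (x₀ : Pt × (Fin n → Bl)) :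
    Λ.fib (starC J f) x₀ = ∑ p, (if f p (fun j => x₀.2 j) = f x₀.1 (fun j => x₀.2 j) then
      w p * ((∏ j ∈ J, h p j (x₀.2 j)) * ∏ j ∈ Jᶜ, ∑ b, h p j b) else 0) := by
  show Λ.pr (fun x => starC J f x = starC J f x₀) = _
  unfold FLaw.pr
  rw [Fintype.sum_prod_type]
  refine Finset.sum_congr rfl fun p _ => ?_
  by_cases hF : f p (fun j => x₀.2 j) = f x₀.1 (fun j => x₀.2 j)
  · rw [if_pos hF, ← ent_aux_sum_pi_fix J x₀.2 (h p), Finset.mul_sum]
    refine Finset.sum_congr rfl fun v _ => ?_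
    by_cases hv : ∀ j ∈ J, v j = x₀.2 j
    · rw [if_pos ((ent_aux_starC_iff J f (p, v) x₀).2 ⟨hv, hF⟩), if_pos hv, hΛ]
    · rw [if_neg (fun hc => hv ((ent_aux_starC_iff J f (p, v) x₀).1 hc).1), if_neg hv, mul_zero]
  · rw [if_neg hF]
    refine Finset.sum_eq_zero fun v _ => ?_
    rw [if_neg (fun hc => hF ((ent_aux_starC_iff J f (p, v) x₀).1 hc).2)]

/-- helper: the weight of a point of the cell for a law of product form -/
theorem ent_aux_starC_p {n : ℕ} (Λ : FLaw (Pt × (Fin n → Bl))) (w : Pt → ℝ)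
    (h : Pt → Fin n → Bl → ℝ) (hΛ : ∀ x, Λ.p x = w x.1 * ∏ j, h x.1 j (x.2 j)) (J : Finset (Fin n))
    {ζ : Type} (f : Pt → (J → Bl) → ζ) {x x₀ : Pt × (Fin n → Bl)}
    (hx : starC J f x = starC J f x₀) :
    Λ.p x = w x.1 * ((∏ j ∈ J, h x.1 j (x₀.2 j)) * ∏ j ∈ Jᶜ, h x.1 j (x.2 j)) := by
  rw [hΛ, ← Finset.prod_mul_prod_compl J]
  congr 2
  refine Finset.prod_congr rfl fun j hj => ?_
  rw [((ent_aux_starC_iff J f x x₀).1 hx).1 j hj]

/-- helper: `Λ_i` in product form -/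
theorem ent_aux_stari_p (q : FLaw (Pt × Bl)) (lam : FLaw Bl) (n : ℕ) (i : Fin n)
    (x : Pt × (Fin n → Bl)) :
    (q.stari lam n i).p x = 1 * ∏ j, (if j = i then q.p (x.1, x.2 j) else lam.p (x.2 j)) := by
  show q.p (x.1, x.2 i) * ∏ j ∈ Finset.univ.erase i, lam.p (x.2 j) = _
  rw [one_mul, ← Finset.mul_prod_erase Finset.univ _ (Finset.mem_univ i), if_pos rfl]
  congr 1
  refine Finset.prod_congr rfl fun j hj => ?_
  rw [if_neg (Finset.ne_of_mem_erase hj)]

/-- helper: mass of `{label = b} ∩ {F (point)}` -/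
theorem ent_aux_pr_snd_eq (q : FLaw (Pt × Bl)) (b : Bl) (F : Pt → Prop) :
    q.pr (fun y => y.2 = b ∧ F y.1) = ∑ p, if F p then q.p (p, b) else 0 := by
  unfold FLaw.pr
  rw [Fintype.sum_prod_type]
  refine Finset.sum_congr rfl fun p _ => ?_
  by_cases hF : F p
  · rw [if_pos hF, Finset.sum_eq_single b]
    · rw [if_pos ⟨rfl, hF⟩]
    · intro b' _ hb'
      rw [if_neg fun hc => hb' hc.1]
    · intro h
      exact absurd (Finset.mem_univ b) h
  · rw [if_neg hF]
    refine Finset.sum_eq_zero fun b' _ => ?_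
    rw [if_neg fun hc => hF hc.2]

/-- helper: both factors of a positive product of nonnegative numbers are positive -/
theorem ent_aux_pos_of_mul {a b : ℝ} (ha : 0 ≤ a) (hb : 0 ≤ b) (h : 0 < a * b) : 0 < a ∧ 0 < b := by
  constructor
  · rcases ha.eq_or_lt with h0 | h0
    · rw [← h0, zero_mul] at h
      exact absurd h (lt_irrefl _)
    · exact h0
  · rcases hb.eq_or_lt with h0 | h0
    · rw [← h0, mul_zero] at h
      exact absurd h (lt_irrefl _)
    · exact h0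

/-- (2.30) -/
theorem ent_star_fact0 (q : FLaw (Pt × Bl)) (lam : FLaw Bl) {n : ℕ} (J : Finset (Fin n)) {ζ : Type}
    (f : Pt → (J → Bl) → ζ) (x₀ : Pt × (Fin n → Bl))
    (hpos : 0 < (q.star0 lam n).fib (starC J f) x₀) (x : Pt × (Fin n → Bl)) :
    ((q.star0 lam n).cfib (starC J f) x₀).p x =
      if starC J f x = starC J f x₀ then
        ((q.map Prod.fst).cnd (fun p => f p (fun j => x₀.2 j) = f x₀.1 (fun j => x₀.2 j))).p x.1
          * ∏ j ∈ Jᶜ, lam.p (x.2 j)
      else 0 := by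
  have hfib : (q.star0 lam n).fib (starC J f) x₀
      = (q.map Prod.fst).pr (fun p => f p (fun j => x₀.2 j) = f x₀.1 (fun j => x₀.2 j))
        * ∏ j ∈ J, lam.p (x₀.2 j) := by
    rw [ent_aux_starC_fib (q.star0 lam n) (fun p => (q.map Prod.fst).p p) (fun _ _ b => lam.p b)
      (fun _ => rfl) J f x₀]
    unfold FLaw.pr
    rw [Finset.sum_mul]
    refine Finset.sum_congr rfl fun p _ => ?_
    by_cases hF : f p (fun j => x₀.2 j) = f x₀.1 (fun j => x₀.2 j)
    · rw [if_pos hF, if_pos hF]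
      simp only [lam.sum_one, Finset.prod_const_one, mul_one]
    · rw [if_neg hF, if_neg hF, zero_mul]
  rw [ent_cfib_p _ _ hpos]
  by_cases hx : starC J f x = starC J f x₀
  · rw [if_pos hx, if_pos hx, hfib]
    rw [hfib] at hpos
    obtain ⟨hP, hL⟩ := ent_aux_pos_of_mul (ent_pr_nonneg _ _)
      (Finset.prod_nonneg fun j _ => lam.nonneg _) hpos
    rw [ent_cnd_p _ _ hP, if_pos ((ent_aux_starC_iff J f x x₀).1 hx).2,
      ent_aux_starC_p (q.star0 lam n) (fun p => (q.map Prod.fst).p p) (fun _ _ b => lam.p b)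
        (fun _ => rfl) J f hx]
    field_simp
  · rw [if_neg hx, if_neg hx, zero_div]

/-- (2.31), `i ∈ J` -/
theorem ent_star_factJ (q : FLaw (Pt × Bl)) (lam : FLaw Bl) {n : ℕ} (J : Finset (Fin n)) {ζ : Type}
    (f : Pt → (J → Bl) → ζ) {i : Fin n} (hi : i ∈ J) (x₀ : Pt × (Fin n → Bl))
    (hpos : 0 < (q.stari lam n i).fib (starC J f) x₀) (x : Pt × (Fin n → Bl)) :
    ((q.stari lam n i).cfib (starC J f) x₀).p x =
      if starC J f x = starC J f x₀ then
        ((q.cnd (fun y => y.2 = x₀.2 i ∧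
            f y.1 (fun j => x₀.2 j) = f x₀.1 (fun j => x₀.2 j))).map Prod.fst).p x.1
          * ∏ j ∈ Jᶜ, lam.p (x.2 j)
      else 0 := by
  have hJ : ∀ p : Pt, ∏ j ∈ J, (if j = i then q.p (p, x₀.2 j) else lam.p (x₀.2 j))
      = q.p (p, x₀.2 i) * ∏ j ∈ J.erase i, lam.p (x₀.2 j) := by
    intro p
    rw [← Finset.mul_prod_erase J _ hi, if_pos rfl]
    congr 1
    refine Finset.prod_congr rfl fun j hj => ?_
    rw [if_neg (Finset.ne_of_mem_erase hj)]
  have hne : ∀ j ∈ Jᶜ, j ≠ i := fun j hj e => (Finset.mem_compl.1 hj) (e ▸ hi)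
  have hfib : (q.stari lam n i).fib (starC J f) x₀
      = q.pr (fun y => y.2 = x₀.2 i ∧ f y.1 (fun j => x₀.2 j) = f x₀.1 (fun j => x₀.2 j))
        * ∏ j ∈ J.erase i, lam.p (x₀.2 j) := by
    rw [ent_aux_starC_fib (q.stari lam n i) (fun _ => 1)
      (fun p j b => if j = i then q.p (p, b) else lam.p b) (ent_aux_stari_p q lam n i) J f x₀,
      ent_aux_pr_snd_eq q (x₀.2 i) (fun p => f p (fun j => x₀.2 j) = f x₀.1 (fun j => x₀.2 j)),
      Finset.sum_mul]
    refine Finset.sum_congr rfl fun p _ => ?_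
    by_cases hF : f p (fun j => x₀.2 j) = f x₀.1 (fun j => x₀.2 j)
    · have h1 : ∏ j ∈ Jᶜ, ∑ b, (if j = i then q.p (p, b) else lam.p b) = 1 :=
        Finset.prod_eq_one fun j hj => by simp only [if_neg (hne j hj), lam.sum_one]
      rw [if_pos hF, if_pos hF, hJ, one_mul, h1, mul_one]
    · rw [if_neg hF, if_neg hF, zero_mul]
  rw [ent_cfib_p _ _ hpos]
  by_cases hx : starC J f x = starC J f x₀
  · rw [if_pos hx, if_pos hx, hfib]
    rw [hfib] at hpos
    obtain ⟨hP, hL⟩ := ent_aux_pos_of_mul (ent_pr_nonneg _ _)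
      (Finset.prod_nonneg fun j _ => lam.nonneg _) hpos
    have hFx := ((ent_aux_starC_iff J f x x₀).1 hx).2
    have hmap : ((q.cnd (fun y => y.2 = x₀.2 i ∧
        f y.1 (fun j => x₀.2 j) = f x₀.1 (fun j => x₀.2 j))).map Prod.fst).p x.1
        = q.p (x.1, x₀.2 i) / q.pr (fun y => y.2 = x₀.2 i ∧
          f y.1 (fun j => x₀.2 j) = f x₀.1 (fun j => x₀.2 j)) := by
      show (q.cnd (fun y => y.2 = x₀.2 i ∧
        f y.1 (fun j => x₀.2 j) = f x₀.1 (fun j => x₀.2 j))).pr (fun y => y.1 = x.1) = _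
      rw [ent_cnd_pr _ _ hP, ← ent_fib_id q (x.1, x₀.2 i)]
      congr 1
      refine ent_pr_congr q fun y _ => ?_
      constructor
      · rintro ⟨⟨h1, -⟩, h3⟩
        exact Prod.ext h3 h1
      · intro hy
        have hy' : y = (x.1, x₀.2 i) := hy
        rw [hy']
        exact ⟨⟨rfl, hFx⟩, rfl⟩
    rw [hmap, ent_aux_starC_p (q.stari lam n i) (fun _ => 1)
      (fun p j b => if j = i then q.p (p, b) else lam.p b) (ent_aux_stari_p q lam n i) J f hx, hJ,
      Finset.prod_congr rfl (g := fun j => lam.p (x.2 j)) fun j hj => if_neg (hne j hj)]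
    field_simp
  · rw [if_neg hx, if_neg hx, zero_div]

/-- (2.32), `i ∉ J` -/
theorem ent_star_factF (q : FLaw (Pt × Bl)) (lam : FLaw Bl) {n : ℕ} (J : Finset (Fin n)) {ζ : Type}
    (f : Pt → (J → Bl) → ζ) {i : Fin n} (hi : i ∉ J) (x₀ : Pt × (Fin n → Bl))
    (hpos : 0 < (q.stari lam n i).fib (starC J f) x₀) (x : Pt × (Fin n → Bl)) :
    ((q.stari lam n i).cfib (starC J f) x₀).p x =
      if starC J f x = starC J f x₀ then
        (q.cnd (fun y => f y.1 (fun j => x₀.2 j) = f x₀.1 (fun j => x₀.2 j))).p (x.1, x.2 i)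
          * ∏ j ∈ Jᶜ.erase i, lam.p (x.2 j)
      else 0 := by
  have hic : i ∈ Jᶜ := Finset.mem_compl.2 hi
  have hJ : ∀ p : Pt, ∏ j ∈ J, (if j = i then q.p (p, x₀.2 j) else lam.p (x₀.2 j))
      = ∏ j ∈ J, lam.p (x₀.2 j) := by
    intro p
    refine Finset.prod_congr rfl fun j hj => ?_
    rw [if_neg fun e : j = i => hi (e ▸ hj)]
  have hfib : (q.stari lam n i).fib (starC J f) x₀
      = q.pr (fun y => f y.1 (fun j => x₀.2 j) = f x₀.1 (fun j => x₀.2 j))
        * ∏ j ∈ J, lam.p (x₀.2 j) := by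
    rw [ent_aux_starC_fib (q.stari lam n i) (fun _ => 1)
      (fun p j b => if j = i then q.p (p, b) else lam.p b) (ent_aux_stari_p q lam n i) J f x₀,
      ← ent_map_pr q Prod.fst (fun p => f p (fun j => x₀.2 j) = f x₀.1 (fun j => x₀.2 j))]
    unfold FLaw.pr
    rw [Finset.sum_mul]
    refine Finset.sum_congr rfl fun p _ => ?_
    by_cases hF : f p (fun j => x₀.2 j) = f x₀.1 (fun j => x₀.2 j)
    · have h1 : ∏ j ∈ Jᶜ, ∑ b, (if j = i then q.p (p, b) else lam.p b) = (q.map Prod.fst).p p := by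
        rw [← Finset.mul_prod_erase Jᶜ _ hic]
        simp only [if_true]
        rw [← ent_aux_map_fst_p, Finset.prod_eq_one, mul_one]
        intro j hj
        simp only [if_neg (Finset.ne_of_mem_erase hj), lam.sum_one]
      rw [if_pos hF, if_pos hF, hJ, one_mul, h1, mul_comm]
    · rw [if_neg hF, if_neg hF, zero_mul]
  rw [ent_cfib_p _ _ hpos]
  by_cases hx : starC J f x = starC J f x₀
  · rw [if_pos hx, if_pos hx, hfib]
    rw [hfib] at hpos
    obtain ⟨hP, hL⟩ := ent_aux_pos_of_mul (ent_pr_nonneg _ _)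
      (Finset.prod_nonneg fun j _ => lam.nonneg _) hpos
    have hFx := ((ent_aux_starC_iff J f x x₀).1 hx).2
    rw [ent_cnd_p _ _ hP, if_pos hFx, ent_aux_starC_p (q.stari lam n i) (fun _ => 1)
      (fun p j b => if j = i then q.p (p, b) else lam.p b) (ent_aux_stari_p q lam n i) J f hx, hJ,
      ← Finset.mul_prod_erase Jᶜ _ hic, if_pos rfl,
      Finset.prod_congr rfl (g := fun j => lam.p (x.2 j))
        fun j hj => if_neg (Finset.ne_of_mem_erase hj)]
    field_simp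
  · rw [if_neg hx, if_neg hx, zero_div]

/-! ## user forms -/

/-- helper: total mass of the free labels with the labels in `J` prescribed -/
theorem ent_aux_sum_free (lam : FLaw Bl) {n : ℕ} (J : Finset (Fin n)) (b₀ : Fin n → Bl) :
    ∑ b : Fin n → Bl, (if ∀ j ∈ J, b j = b₀ j then ∏ j ∈ Jᶜ, lam.p (b j) else 0) = 1 := by
  have h := ent_aux_sum_pi_fix J b₀ (fun j b => if j ∈ J then 1 else lam.p b)
  have e : ∀ b : Fin n → Bl, ∏ j, (if j ∈ J then 1 else lam.p (b j)) = ∏ j ∈ Jᶜ, lam.p (b j) := by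
    intro b
    rw [← Finset.prod_mul_prod_compl J, Finset.prod_eq_one (fun j hj => if_pos hj), one_mul]
    exact Finset.prod_congr rfl fun j hj => if_neg (Finset.mem_compl.1 hj)
  simp only [e] at h
  rw [h, Finset.prod_eq_one (fun j hj => if_pos hj), one_mul, Finset.prod_eq_one]
  intro j hj
  simp only [if_neg (Finset.mem_compl.1 hj), lam.sum_one]

/-- (2.34) (and its version with a nontrivial `Z`): simultaneously for all fixed labels `i ∈ J`, on typical values of `C`,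
the point law is dominated by `q_P(. | B_i = b_i, z_{b_J}(P) = z)`; and the joint law of the point and the free labels by `q_P(.|z) ⊗ λ^F`. -/
theorem ent_star_fixed {q : FLaw (Pt × Bl)} {lam : FLaw Bl} {c : ℝ} (h : KerBd q lam c) {n : ℕ}
    {R : FLaw (Pt × (Fin n → Bl))} {a : ℝ} (hR : R.Dom a (q.starS n)) (J : Finset (Fin n))
    {ζ : Type} (f : Pt → (J → Bl) → ζ) {η : ℝ} (hη : 0 < η) :
    1 - ((n : ℝ) + 1) * η ≤ R.pr (fun x₀ =>
      (∀ i ∈ J, ((R.cfib (starC J f) x₀).map Prod.fst).Dom (a * c ^ (n - 1) / η)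
        ((q.cnd (fun y => y.2 = x₀.2 i ∧
            f y.1 (fun j => x₀.2 j) = f x₀.1 (fun j => x₀.2 j))).map Prod.fst)) ∧
      (∀ x, (R.cfib (starC J f) x₀).p x ≤ a * c ^ n / η *
        (((q.map Prod.fst).cnd
            (fun p => f p (fun j => x₀.2 j) = f x₀.1 (fun j => x₀.2 j))).p x.1
          * ∏ j ∈ Jᶜ, lam.p (x.2 j))) ∧
      (∀ i ∉ J, ∀ x, (R.cfib (starC J f) x₀).p x ≤ a * c ^ (n - 1) / η *
        ((q.cnd (fun y => f y.1 (fun j => x₀.2 j) = f x₀.1 (fun j => x₀.2 j))).p (x.1, x.2 i)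
          * ∏ j ∈ Jᶜ.erase i, lam.p (x.2 j)))) := by
  have ha : 0 ≤ a := le_trans zero_le_one (ent_dom_one_le hR)
  have hc : 0 ≤ c := le_trans zero_le_one (ent_kerBd_one_le h)
  refine (ent_star_cond h n hR (starC J f) hη).trans (ent_pr_mono R fun x₀ hx₀ hgood => ?_)
  obtain ⟨hg0, hgi⟩ := hgood
  have hS : (q.starS n).p x₀ ≠ 0 := ent_dom_supp hR hx₀
  have hpos0 : 0 < (q.star0 lam n).fib (starC J f) x₀ :=
    ent_fib_pos _ _ (ent_dom_supp (ent_star_dom0 h n) hS)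
  have hposi : ∀ i, 0 < (q.stari lam n i).fib (starC J f) x₀ := fun i =>
    ent_fib_pos _ _ (ent_dom_supp (ent_star_domi h n i) hS)
  refine ⟨fun i hi => ?_, fun x => ?_, fun i hi x => ?_⟩
  · intro p
    refine (ent_map_dom (hgi i) Prod.fst p).trans (mul_le_mul_of_nonneg_left ?_ (by positivity))
    rw [ent_aux_map_fst_p]
    simp only [ent_star_factJ q lam J f hi x₀ (hposi i)]
    have hm : 0 ≤ ((q.cnd (fun y => y.2 = x₀.2 i ∧
        f y.1 (fun j => x₀.2 j) = f x₀.1 (fun j => x₀.2 j))).map Prod.fst).p p := FLaw.nonneg _ _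
    generalize ((q.cnd (fun y => y.2 = x₀.2 i ∧
        f y.1 (fun j => x₀.2 j) = f x₀.1 (fun j => x₀.2 j))).map Prod.fst).p p = m at hm ⊢
    calc ∑ b : Fin n → Bl, (if starC J f (p, b) = starC J f x₀ then m * ∏ j ∈ Jᶜ, lam.p (b j) else 0)
        ≤ ∑ b : Fin n → Bl, m * (if ∀ j ∈ J, b j = x₀.2 j then ∏ j ∈ Jᶜ, lam.p (b j) else 0) := by
          refine Finset.sum_le_sum fun b _ => ?_
          have hprod : 0 ≤ ∏ j ∈ Jᶜ, lam.p (b j) := Finset.prod_nonneg fun j _ => lam.nonneg _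
          by_cases hC : starC J f (p, b) = starC J f x₀
          · have hb : ∀ j ∈ J, b j = x₀.2 j := by
              intro j hj
              have h2 : (fun j : J => b j) = fun j : J => x₀.2 j := congrArg Prod.fst hC
              exact congrFun h2 ⟨j, hj⟩
            rw [if_pos hC, if_pos hb]
          · rw [if_neg hC]
            split_ifs
            · positivity
            · simp
      _ = m := by rw [← Finset.mul_sum, ent_aux_sum_free, mul_one]
  · refine (hg0 x).trans (mul_le_mul_of_nonneg_left ?_ (by positivity))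
    rw [ent_star_fact0 q lam J f x₀ hpos0]
    split_ifs
    · exact le_rfl
    · exact mul_nonneg (FLaw.nonneg _ _) (Finset.prod_nonneg fun j _ => lam.nonneg _)
  · refine (hgi i x).trans (mul_le_mul_of_nonneg_left ?_ (by positivity))
    rw [ent_star_factF q lam J f hi x₀ (hposi i)]
    split_ifs
    · exact le_rfl
    · exact mul_nonneg (FLaw.nonneg _ _) (Finset.prod_nonneg fun j _ => lam.nonneg _)

/-! ## (2.33): comparison with the actual point marginal -/

/-- helper: the fibre of `(P, C)` in the star law -/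
theorem ent_aux_star_fib (q : FLaw (Pt × Bl)) {n : ℕ} (J : Finset (Fin n)) {ζ : Type}
    (f : Pt → (J → Bl) → ζ) (x : Pt × (Fin n → Bl)) :
    (q.starS n).fib (pair Prod.fst (starC J f)) x =
      (q.map Prod.fst).p x.1 * ((∏ j ∈ J, q.kq x.1 (x.2 j)) * ∏ _j ∈ Jᶜ, ∑ b, q.kq x.1 b) := by
  rw [← ent_aux_sum_pi_fix J x.2 (fun _ b => q.kq x.1 b), Finset.mul_sum]
  unfold FLaw.fib FLaw.pr
  rw [Fintype.sum_prod_type, Finset.sum_eq_single x.1]
  · refine Finset.sum_congr rfl fun b _ => ?_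
    have hiff : (pair Prod.fst (starC J f) (x.1, b) = pair Prod.fst (starC J f) x) ↔ ∀ j ∈ J, b j = x.2 j := by
      constructor
      · intro h j hj
        have h2 : (fun j : J => b j) = fun j : J => x.2 j := congrArg (fun y => y.2.1) h
        exact congrFun h2 ⟨j, hj⟩
      · intro h
        have h2 : (fun j : J => b j) = fun j : J => x.2 j := funext fun j => h j j.2
        show ((x.1, b).1, ((fun j : J => b j), f x.1 (fun j : J => b j))) = (x.1, ((fun j : J => x.2 j), f x.1 (fun j : J => x.2 j)))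
        rw [h2]
    by_cases hb : ∀ j ∈ J, b j = x.2 j
    · rw [if_pos (hiff.2 hb), if_pos hb]
      rfl
    · rw [if_neg (fun h => hb (hiff.1 h)), if_neg hb, mul_zero]
  · intro p' _ hp'
    refine Finset.sum_eq_zero fun b _ => ?_
    rw [if_neg]
    intro h
    exact hp' (congrArg Prod.fst h)
  · intro h
    exact absurd (Finset.mem_univ _) h

/-- independence in `S`: `S(p, b_F, C) = S_{P,C}(p,C) ∏_{j ∈ F} q(b_j|p)` -/
theorem ent_star_free (q : FLaw (Pt × Bl)) {n : ℕ} (J : Finset (Fin n)) {ζ : Type}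
    (f : Pt → (J → Bl) → ζ) (x : Pt × (Fin n → Bl)) :
    (q.starS n).p x = (q.starS n).fib (pair Prod.fst (starC J f)) x * ∏ j ∈ Jᶜ, q.kq x.1 (x.2 j) := by
  rw [ent_aux_star_fib]
  show (q.map Prod.fst).p x.1 * ∏ i, q.kq x.1 (x.2 i) = _
  by_cases h : (q.map Prod.fst).p x.1 = 0
  · rw [h]; simp
  · simp only [ent_kq_sum q h, Finset.prod_const_one, mul_one]
    rw [← Finset.prod_mul_prod_compl J, mul_assoc]

/-- the set `G` of (2.33) -/
def starG {n : ℕ} (q : FLaw (Pt × Bl)) (R : FLaw (Pt × (Fin n → Bl))) (J : Finset (Fin n))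
    {ζ : Type} (f : Pt → (J → Bl) → ζ) (η : ℝ) (x : Pt × (Fin n → Bl)) : Prop :=
  η * (q.starS n).fib (pair Prod.fst (starC J f)) x ≤ R.fib (pair Prod.fst (starC J f)) x

theorem ent_starG_mass (q : FLaw (Pt × Bl)) {n : ℕ} (R : FLaw (Pt × (Fin n → Bl)))
    (J : Finset (Fin n)) {ζ : Type} (f : Pt → (J → Bl) → ζ) {η : ℝ} (hη : 0 ≤ η) :
    1 - η ≤ R.pr (starG q R J f η) := by
  have h1 := ent_likelihood R (q.starS n) (pair Prod.fst (starC J f)) hη
  have h2 := ent_pr_not R (starG q R J f η)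
  have h3 : R.pr (fun x => ¬ starG q R J f η x) =
      R.pr (fun x => R.fib (pair Prod.fst (starC J f)) x < η * (q.starS n).fib (pair Prod.fst (starC J f)) x) :=
    ent_pr_congr R fun x _ => by unfold starG; exact not_le
  linarith

/-- the display before "Divide by `R_C(C)`" -/
theorem ent_star_point_free {q : FLaw (Pt × Bl)} {lam : FLaw Bl} {c : ℝ} (h : KerBd q lam c) {n : ℕ}
    {R : FLaw (Pt × (Fin n → Bl))} {a : ℝ} (hR : R.Dom a (q.starS n)) (J : Finset (Fin n))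
    {ζ : Type} (f : Pt → (J → Bl) → ζ) {η : ℝ} (hη : 0 < η) {x : Pt × (Fin n → Bl)}
    (hx : starG q R J f η x) :
    R.p x ≤ a * c ^ (Jᶜ).card / η *
      (R.fib (pair Prod.fst (starC J f)) x * ∏ j ∈ Jᶜ, lam.p (x.2 j)) := by
  have ha : 0 ≤ a := le_trans zero_le_one (ent_dom_one_le hR)
  have hc : 0 ≤ c := le_trans zero_le_one (ent_kerBd_one_le h)
  have h1 : (q.starS n).fib (pair Prod.fst (starC J f)) x ≤ R.fib (pair Prod.fst (starC J f)) x / η := by
    rw [le_div_iff₀ hη, mul_comm]; exact hx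
  have h2 : ∏ j ∈ Jᶜ, q.kq x.1 (x.2 j) ≤ c ^ (Jᶜ).card * ∏ j ∈ Jᶜ, lam.p (x.2 j) := by
    rw [← Finset.prod_const, ← Finset.prod_mul_distrib]
    exact Finset.prod_le_prod (fun j _ => ent_kq_nonneg q _ _) fun j _ => ent_kerBd_kq h _ _
  have h3 : 0 ≤ ∏ j ∈ Jᶜ, q.kq x.1 (x.2 j) := Finset.prod_nonneg fun j _ => ent_kq_nonneg q _ _
  have h4 : 0 ≤ R.fib (pair Prod.fst (starC J f)) x / η := div_nonneg (ent_fib_nonneg _ _ _) hη.le
  calc R.p x ≤ a * (q.starS n).p x := hR x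
    _ = a * ((q.starS n).fib (pair Prod.fst (starC J f)) x * ∏ j ∈ Jᶜ, q.kq x.1 (x.2 j)) := by
        rw [← ent_star_free]
    _ ≤ a * (R.fib (pair Prod.fst (starC J f)) x / η * (c ^ (Jᶜ).card * ∏ j ∈ Jᶜ, lam.p (x.2 j))) :=
        mul_le_mul_of_nonneg_left (mul_le_mul h1 h2 h3 h4) ha
    _ = _ := by ring

/-- (2.33) -/
theorem ent_star_point_free_cell {q : FLaw (Pt × Bl)} {lam : FLaw Bl} {c : ℝ} (h : KerBd q lam c)
    {n : ℕ} {R : FLaw (Pt × (Fin n → Bl))} {a : ℝ} (hR : R.Dom a (q.starS n)) (J : Finset (Fin n))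
    {ζ : Type} (f : Pt → (J → Bl) → ζ) {η : ℝ} (hη : 0 < η) (x₀ : Pt × (Fin n → Bl))
    (hpos : 0 < R.fib (starC J f) x₀) {x : Pt × (Fin n → Bl)} (hx : starG q R J f η x) :
    (R.cfib (starC J f) x₀).p x ≤ a * c ^ (Jᶜ).card / η *
      ((R.cfib (starC J f) x₀).fib Prod.fst x * ∏ j ∈ Jᶜ, lam.p (x.2 j)) := by
  have ha : 0 ≤ a := le_trans zero_le_one (ent_dom_one_le hR)
  have hc : 0 ≤ c := le_trans zero_le_one (ent_kerBd_one_le h)
  rw [ent_cfib_p R _ hpos]
  by_cases hC : starC J f x = starC J f x₀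
  · rw [if_pos hC, ent_cfib_fib R _ Prod.fst hpos hC]
    calc R.p x / R.fib (starC J f) x₀ ≤ a * c ^ (Jᶜ).card / η *
          (R.fib (pair Prod.fst (starC J f)) x * ∏ j ∈ Jᶜ, lam.p (x.2 j)) / R.fib (starC J f) x₀ :=
          div_le_div_of_nonneg_right (ent_star_point_free h hR J f hη hx) hpos.le
      _ = _ := by ring
  · rw [if_neg hC, zero_div]
    have h1 : 0 ≤ ∏ j ∈ Jᶜ, lam.p (x.2 j) := Finset.prod_nonneg fun j _ => lam.nonneg _
    have h2 := ent_fib_nonneg (R.cfib (starC J f) x₀) Prod.fst x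
    positivity

/-- "outside `C` values of `R_C`-mass at most `η/τ` the sub-probability on the left has mass at least `1-τ`" -/
theorem ent_starG_cell (q : FLaw (Pt × Bl)) {n : ℕ} (R : FLaw (Pt × (Fin n → Bl)))
    (J : Finset (Fin n)) {ζ : Type} (f : Pt → (J → Bl) → ζ) {η τ : ℝ} (hη : 0 ≤ η) (hτ : 0 < τ) :
    1 - η / τ ≤ R.pr (fun x₀ => 1 - τ ≤ (R.cfib (starC J f) x₀).pr (starG q R J f η)) := by
  have h1 := ent_cell_markov R (starC J f) (fun x => ¬ starG q R J f η x) hτ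
  have h2 : R.pr (fun x => ¬ starG q R J f η x) ≤ η := by
    rw [ent_pr_not]
    have := ent_starG_mass q R J f hη
    linarith
  have h3 : R.pr (fun x₀ => ¬ (1 - τ ≤ (R.cfib (starC J f) x₀).pr (starG q R J f η))) ≤
      R.pr (fun x₀ => τ ≤ (R.cfib (starC J f) x₀).pr (fun x => ¬ starG q R J f η x)) := by
    refine ent_pr_mono R fun x₀ _ hx => ?_
    rw [ent_pr_not]
    push Not at hx
    linarith
  rw [ent_pr_not] at h3
  have h4 : R.pr (fun x => ¬ starG q R J f η x) / τ ≤ η / τ := div_le_div_of_nonneg_right h2 hτ.le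
  linarith

/-! ## (2.35), (2.36) -/

/-- likelihood threshold against a comparison WEIGHT (general form of (2.7)) -/
theorem ent_likelihood_weight (U : FLaw Ω) (C : Ω → γ) (q : γ → ℝ) (hq : IsW q) {η : ℝ}
    (hη : 0 ≤ η) : U.pr (fun ω => U.fib C ω < η * q (C ω)) ≤ η := by
  obtain ⟨S, hS⟩ : ∃ S : Finset γ, S = Finset.univ.image C := ⟨_, rfl⟩
  have hSmem : ∀ ω, C ω ∈ S := fun ω => hS ▸ Finset.mem_image_of_mem _ (Finset.mem_univ ω)
  rw [ent_pr_sum_values U _ C S fun ω _ _ => hSmem ω]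
  have h1 : ∀ c ∈ S, U.pr (fun ω => U.fib C ω < η * q (C ω) ∧ C ω = c) ≤ η * q c := by
    intro c _
    by_cases hex : ∃ ω, U.fib C ω < η * q (C ω) ∧ C ω = c
    · obtain ⟨ω, hω, rfl⟩ := hex
      exact le_trans (ent_pr_mono U fun ω' _ h => h.2) hω.le
    · push Not at hex
      rw [ent_pr_eq_zero U fun ω _ h => hex ω h.1 h.2]
      exact mul_nonneg hη (hq.1 _)
  refine (Finset.sum_le_sum h1).trans ?_
  rw [← Finset.mul_sum]
  calc η * ∑ c ∈ S, q c ≤ η * 1 := mul_le_mul_of_nonneg_left (hq.2 S) hη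
    _ = η := mul_one η

theorem ent_prod_cfib_fst {Ω' : Type} [Fintype Ω'] (μ : FLaw Ω) (lam : FLaw Ω') (g : Ω → γ)
    (x₀ : Ω × Ω') : (μ.prod lam).cfib (fun x => g x.1) x₀ = (μ.cfib g x₀.1).prod lam := by
  have hfib : (μ.prod lam).fib (fun x => g x.1) x₀ = μ.fib g x₀.1 := by
    have h := ent_prod_pr μ lam (fun ω => g ω = g x₀.1) (fun _ => True)
    rw [ent_pr_true, mul_one] at h
    rw [← show μ.pr (fun ω => g ω = g x₀.1) = μ.fib g x₀.1 from rfl, ← h]
    exact ent_pr_congr _ fun x _ => by simp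
  by_cases hpos : 0 < μ.fib g x₀.1
  · refine ent_law_ext _ _ fun x => ?_
    rw [ent_cfib_p _ _ (by rw [hfib]; exact hpos), hfib]
    show _ = (μ.cfib g x₀.1).p x.1 * lam.p x.2
    rw [ent_cfib_p _ _ hpos]
    show (if g x.1 = g x₀.1 then μ.p x.1 * lam.p x.2 else 0) / _ = _
    split_ifs
    · ring
    · simp
  · have h1 : (μ.prod lam).cfib (fun x => g x.1) x₀ = μ.prod lam := by
      unfold FLaw.cfib FLaw.cnd
      rw [dif_neg]
      intro h
      exact hpos (hfib ▸ h)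
    have h2 : μ.cfib g x₀.1 = μ := by
      unfold FLaw.cfib FLaw.cnd
      rw [dif_neg]
      exact hpos
    rw [h1, h2]

/-- (2.35) -/
theorem ent_parent_product {Ω' : Type} [Fintype Ω'] (ρ : FLaw (Ω × Ω')) (μ : FLaw Ω) (lam : FLaw Ω')
    {K : ℝ} (h : ρ.Dom K (μ.prod lam)) (g : Ω → γ) {η : ℝ} (hη : 0 < η) :
    1 - η ≤ ρ.pr (fun x₀ => (ρ.cfib (fun x => g x.1) x₀).Dom (K / η) ((μ.cfib g x₀.1).prod lam)) := by
  have h1 := ent_typical (ι := Unit) ρ (fun _ => μ.prod lam) (fun _ => K) (fun _ => h) (fun x => g x.1) hη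
  simp only [Fintype.card_unit, Nat.cast_one, one_mul] at h1
  refine h1.trans (ent_pr_mono ρ fun x₀ _ hx => ?_)
  rw [← ent_prod_cfib_fst]
  exact hx ()

/-- (2.36): the factor `ρ_X ρ_N / ρ_{X,N}` exceeds `1/η` on a set of mass at most `η` -/
theorem ent_slice_factor (ρ : FLaw Ω) (X : Ω → α) (N : Ω → β) {η : ℝ} (hη : 0 ≤ η) :
    ρ.pr (fun ω => ρ.fib (pair X N) ω < η * (ρ.fib X ω * ρ.fib N ω)) ≤ η :=
  ent_likelihood_weight ρ (pair X N) (fun x => ρ.wt X x.1 * ρ.wt N x.2)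
    (ent_isW_prod (ent_wt_isW ρ X) (ent_wt_isW ρ N)) hη

/-- (2.36), the inequality -/
theorem ent_slice_ineq (ρ : FLaw Ω) (X : Ω → α) (N : Ω → β) (L : Ω → γ) (Z : Ω → δ) {B : ℝ} {ω : Ω}
    (hω : ρ.p ω ≠ 0)
    (h : ρ.fib (pair (pair X (pair N L)) Z) ω ≤ B * (ρ.fib X ω * ρ.fib (pair N L) ω * ρ.fib Z ω)) :
    ρ.fib (pair (pair X (pair N L)) Z) ω / ρ.fib (pair X N) ω
      ≤ B * (ρ.fib X ω * ρ.fib N ω / ρ.fib (pair X N) ω)
          * (ρ.fib (pair N L) ω / ρ.fib N ω * ρ.fib Z ω) := by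
  have h1 := ent_fib_pos ρ (pair X N) hω
  have h2 := ent_fib_pos ρ N hω
  have e : B * (ρ.fib X ω * ρ.fib N ω / ρ.fib (pair X N) ω) * (ρ.fib (pair N L) ω / ρ.fib N ω * ρ.fib Z ω)
      = B * (ρ.fib X ω * ρ.fib (pair N L) ω * ρ.fib Z ω) / ρ.fib (pair X N) ω := by
    field_simp
  rw [e]
  exact div_le_div_of_nonneg_right h h1.le

/-! ## Corollary 2.8 -/

/-- point slicing: the comparison `Z`-marginal equals `ν_Z`; divide by the common mass. -/
theorem ent_point_slice {ι : Type} {β : ι → Type} (ν : FLaw Ω) (Po : Ω → α) (T : Finset ι)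
    (B : ∀ j, Ω → β j) (lam : ∀ j, β j → ℝ) {A : ℝ}
    (h : ∀ ω, ν.pr (fun ω' => Po ω' = Po ω ∧ ∀ j ∈ T, B j ω' = B j ω)
      ≤ A * (ν.fib Po ω * ∏ j ∈ T, lam j (B j ω)))
    (Z : Ω → γ) (hZ : ∀ ω ω', Po ω = Po ω' → Z ω = Z ω') {ω₀ : Ω} (hpos : 0 < ν.fib Z ω₀) {ω : Ω}
    (hω : Z ω = Z ω₀) :
    (ν.cfib Z ω₀).pr (fun ω' => Po ω' = Po ω ∧ ∀ j ∈ T, B j ω' = B j ω)
      ≤ A * ((ν.cfib Z ω₀).fib Po ω * ∏ j ∈ T, lam j (B j ω)) := by
  rw [ent_cfib_pr ν Z hpos, ent_cfib_fib ν Z Po hpos hω]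
  have e1 : ν.fib (pair Po Z) ω = ν.fib Po ω := by
    rw [ent_fib_pair]
    exact ent_pr_congr ν fun ω' _ => ⟨fun h => h.1, fun h => ⟨h, hZ _ _ h⟩⟩
  rw [e1]
  have h1 : ν.pr (fun ω' => (Po ω' = Po ω ∧ ∀ j ∈ T, B j ω' = B j ω) ∧ Z ω' = Z ω₀) ≤
      ν.pr (fun ω' => Po ω' = Po ω ∧ ∀ j ∈ T, B j ω' = B j ω) := ent_pr_mono ν fun ω' _ h => h.1
  calc _ ≤ A * (ν.fib Po ω * ∏ j ∈ T, lam j (B j ω)) / ν.fib Z ω₀ :=
        div_le_div_of_nonneg_right (h1.trans (h ω)) hpos.le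
    _ = _ := by ring

/-- after a further restriction of mass `M` each actual label marginal is at most `(A/M) λ_j` -/
theorem ent_slice_label {ι : Type} {β : ι → Type} (ν : FLaw Ω) (Po : Ω → α) (T : Finset ι)
    (B : ∀ j, Ω → β j) (lam : ∀ j, β j → ℝ) (hl : ∀ j, IsW (lam j)) {A : ℝ} (hA : 0 ≤ A)
    (h : ∀ ω, ν.pr (fun ω' => Po ω' = Po ω ∧ ∀ j ∈ T, B j ω' = B j ω)
      ≤ A * (ν.fib Po ω * ∏ j ∈ T, lam j (B j ω)))
    (E : Ω → Prop) (hM : 0 < ν.pr E) {j : ι} (hj : j ∈ T) (ω : Ω) :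
    (ν.cnd E).fib (B j) ω ≤ A / ν.pr E * lam j (B j ω) := by
  have h1 : (ν.cnd E).fib (B j) ω ≤ ν.fib (B j) ω / ν.pr E := by
    show (ν.cnd E).pr _ ≤ _
    rw [ent_cnd_pr ν E hM]
    exact div_le_div_of_nonneg_right (ent_pr_mono ν fun ω' _ h => h.2) hM.le
  have h2 : ν.fib (B j) ω ≤ A * lam j (B j ω) := by
    obtain ⟨W, hW⟩ : ∃ W : Ω → α × (∀ i : {i // i ∈ T.erase j}, β i), W = fun ω' => (Po ω', fun i : {i // i ∈ T.erase j} => B (i : ι) ω') := ⟨_, rfl⟩
    obtain ⟨q, hqdef⟩ : ∃ q : α × (∀ i : {i // i ∈ T.erase j}, β i) → ℝ,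
      q = fun w => ν.wt Po w.1 * ∏ i : {i // i ∈ T.erase j}, lam (i : ι) (w.2 i) := ⟨_, rfl⟩
    have hq : IsW q := by
      rw [hqdef]
      exact ent_isW_prod (ent_wt_isW ν Po) (ent_isW_pi (μ := fun i : {i // i ∈ T.erase j} => lam (i : ι)) (fun i => hl i))
    obtain ⟨S, hS⟩ : ∃ S : Finset (α × (∀ i : {i // i ∈ T.erase j}, β i)), S = Finset.univ.image W := ⟨_, rfl⟩
    have hSmem : ∀ ω, W ω ∈ S := fun ω => hS ▸ Finset.mem_image_of_mem _ (Finset.mem_univ ω)
    show ν.pr (fun ω' => B j ω' = B j ω) ≤ _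
    rw [ent_pr_sum_values ν _ W S fun ω _ _ => hSmem ω]
    have hterm : ∀ w ∈ S, ν.pr (fun ω' => B j ω' = B j ω ∧ W ω' = w) ≤ A * lam j (B j ω) * q w := by
      intro w _
      by_cases hex : ∃ ω', B j ω' = B j ω ∧ W ω' = w
      · obtain ⟨ω1, hb, rfl⟩ := hex
        refine le_trans (ent_pr_mono ν fun ω' _ hh => ?_) ((h ω1).trans (le_of_eq ?_))
        · have hh2 := hh.2
          rw [hW] at hh2
          refine ⟨congrArg Prod.fst hh2, fun i hi => ?_⟩
          by_cases hij : i = j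
          · subst hij; rw [hh.1, hb]
          · exact congrFun (congrArg Prod.snd hh2) ⟨i, Finset.mem_erase.2 ⟨hij, hi⟩⟩
        · rw [← Finset.mul_prod_erase T _ hj, hb, hqdef, hW]
          show _ = A * lam j (B j ω) * (ν.fib Po ω1 * ∏ i : {i // i ∈ T.erase j}, lam (i : ι) (B (i : ι) ω1))
          rw [Finset.prod_coe_sort (T.erase j) (fun i => lam i (B i ω1))]
          ring
      · push Not at hex
        rw [ent_pr_eq_zero ν fun ω' _ hh => hex ω' hh.1 hh.2]
        exact mul_nonneg (mul_nonneg hA ((hl j).1 _)) (hq.1 _)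
    refine (Finset.sum_le_sum hterm).trans ?_
    rw [← Finset.mul_sum]
    calc A * lam j (B j ω) * ∑ w ∈ S, q w ≤ A * lam j (B j ω) * 1 :=
          mul_le_mul_of_nonneg_left (hq.2 S) (mul_nonneg hA ((hl j).1 _))
      _ = _ := mul_one _
  calc _ ≤ ν.fib (B j) ω / ν.pr E := h1
    _ ≤ A * lam j (B j ω) / ν.pr E := div_le_div_of_nonneg_right h2 hM.le
    _ = _ := by ring

/-! ## observations with values in an arbitrary type -/

/-- an observation as a map onto its (finite) range -/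
def rgf (X : Ω → α) : Ω → Set.range X := Set.rangeFactorization X

noncomputable instance rgfFintype (X : Ω → α) : Fintype (Set.range X) := Fintype.ofFinite _

theorem ent_rgf_val (X : Ω → α) (ω : Ω) : (rgf X ω : α) = X ω := rfl

theorem ent_rgf_eq_iff (X : Ω → α) (ω ω' : Ω) : rgf X ω = rgf X ω' ↔ X ω = X ω' := by
  rw [Subtype.ext_iff]
  rfl

theorem ent_rgf_fib (P : FLaw Ω) (X : Ω → α) (ω : Ω) : P.fib (rgf X) ω = P.fib X ω :=
  ent_pr_congr P fun ω' _ => ent_rgf_eq_iff X ω' ω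

/-- the pair law of two observations on the product of their ranges -/
theorem ent_rgf_pair_p (P : FLaw Ω) (X : Ω → α) (Y : Ω → β) (ω : Ω) :
    (P.map (fun ω' => (rgf X ω', rgf Y ω'))).p (rgf X ω, rgf Y ω) = P.fib (pair X Y) ω := by
  show P.pr (fun ω' => (rgf X ω', rgf Y ω') = (rgf X ω, rgf Y ω)) = _
  rw [ent_fib_pair]
  refine ent_pr_congr P fun ω' _ => ?_
  rw [Prod.mk.injEq, ent_rgf_eq_iff, ent_rgf_eq_iff]

theorem ent_star_eqns_cite : True := by
  have := @FLaw.keep.eq_1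
  have := @FLaw.kq.eq_1
  have := @KerBd.eq_1
  have := @FLaw.starS.eq_1
  have := @FLaw.star0.eq_1
  have := @FLaw.stari.eq_1
  have := @starC.eq_1
  have := @starG.eq_1
  have := @rgf.eq_1
  have := @rgfFintype.eq_1
  trivial

end Claimed.Agent.R255
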